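import Vale.Agent.P234.MathlibUsed
import Vale.Agent.P234.Defs

set_option linter.all false

section

section

set_option maxSynthPendingDepth 3

open Set Filter
open scoped ContDiff Topology

namespace Vale.Agent.P234

noncomputable section

variable {V : Type*} [NormedAddCommGroup V] [NormedSpace ℝ V]

/-- Second derivative as a bilinear map. -/
def hess (f : V → ℝ) (x : V) : V →L[ℝ] V →L[ℝ] ℝ := fderiv ℝ (fderiv ℝ f) x

lemma contDiffAt_fderiv_one {W : Type*} [NormedAddCommGroup W] [NormedSpace ℝ W] {f : V → W}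
    {x₀ : V} (hf : ContDiffAt ℝ 2 f x₀) : ContDiffAt ℝ 1 (fderiv ℝ f) x₀ :=
  hf.fderiv_right (by norm_num)

lemma differentiableAt_fderiv {W : Type*} [NormedAddCommGroup W] [NormedSpace ℝ W] {f : V → W}
    {x₀ : V} (hf : ContDiffAt ℝ 2 f x₀) : DifferentiableAt ℝ (fderiv ℝ f) x₀ :=
  (contDiffAt_fderiv_one hf).differentiableAt (by norm_num)

lemma eventually_differentiableAt {W : Type*} [NormedAddCommGroup W] [NormedSpace ℝ W] {f : V → W}
    {x₀ : V} (hf : ContDiffAt ℝ 2 f x₀) : ∀ᶠ x in 𝓝 x₀, DifferentiableAt ℝ f x := by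
  filter_upwards [hf.eventually (by norm_num)] with x hx
  exact hx.differentiableAt (by norm_num)

/-- Uniform second order Taylor expansion. -/
lemma taylor2 {f : V → ℝ} {x₀ : V} (hf : ContDiffAt ℝ 2 f x₀) {ε : ℝ} (hε : 0 < ε) :
    ∃ δ > 0, ∀ x h : V, ‖x - x₀‖ < δ → ‖h‖ < δ →
      |f (x + h) - f x - fderiv ℝ f x h - (1 / 2) * hess f x₀ h h| ≤ ε * ‖h‖ ^ 2 := by
  have hs : HasStrictFDerivAt (fderiv ℝ f) (hess f x₀) x₀ :=
    (contDiffAt_fderiv_one hf).hasStrictFDerivAt (by norm_num)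
  have h1 := hs.isLittleO.def hε
  obtain ⟨δ₁, hδ₁, h2⟩ := Metric.eventually_nhds_iff.1 h1
  obtain ⟨δ₂, hδ₂, h3⟩ := Metric.eventually_nhds_iff.1 (eventually_differentiableAt hf)
  refine ⟨min δ₁ δ₂ / 2, by positivity, fun x h hx hh => ?_⟩
  have hmin1 : min δ₁ δ₂ ≤ δ₁ := min_le_left _ _
  have hmin2 : min δ₁ δ₂ ≤ δ₂ := min_le_right _ _
  have hnear : ∀ t ∈ Icc (0 : ℝ) 1, ‖x + t • h - x₀‖ < min δ₁ δ₂ := by
    intro t ht
    have e1 : x + t • h - x₀ = (x - x₀) + t • h := by abel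
    rw [e1]
    refine (norm_add_le _ _).trans_lt ?_
    rw [norm_smul, Real.norm_of_nonneg ht.1]
    have e2 : t * ‖h‖ ≤ 1 * ‖h‖ := mul_le_mul_of_nonneg_right ht.2 (norm_nonneg _)
    linarith
  set g : ℝ → ℝ := fun t => f (x + t • h) - t * fderiv ℝ f x h - (t ^ 2 / 2) * hess f x₀ h h with hg
  have hderiv : ∀ t ∈ Icc (0 : ℝ) 1, HasDerivAt g
      (fderiv ℝ f (x + t • h) h - fderiv ℝ f x h - t * hess f x₀ h h) t := by
    intro t ht
    have hd : DifferentiableAt ℝ f (x + t • h) := by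
      apply h3
      rw [dist_eq_norm]
      exact (hnear t ht).trans_le hmin2
    have hl : HasDerivAt (fun t : ℝ => x + t • h) h t := by
      simpa using ((hasDerivAt_id t).smul_const h).const_add x
    have hc : HasDerivAt (fun t : ℝ => f (x + t • h)) (fderiv ℝ f (x + t • h) h) t :=
      hd.hasFDerivAt.comp_hasDerivAt t hl
    have h4 : HasDerivAt (fun t : ℝ => t * fderiv ℝ f x h) (fderiv ℝ f x h) t := by
      simpa using (hasDerivAt_id t).mul_const (fderiv ℝ f x h)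
    have h5 : HasDerivAt (fun t : ℝ => (t ^ 2 / 2) * hess f x₀ h h) (t * hess f x₀ h h) t := by
      have h6 : HasDerivAt (fun t : ℝ => t ^ 2 / 2) t t := by
        have := ((hasDerivAt_id t).pow 2).div_const 2
        simpa using this
      exact h6.mul_const _
    exact (hc.sub h4).sub h5
  have hbound : ∀ t ∈ Ico (0 : ℝ) 1,
      ‖fderiv ℝ f (x + t • h) h - fderiv ℝ f x h - t * hess f x₀ h h‖ ≤ ε * ‖h‖ ^ 2 := by
    intro t ht
    have ht' : t ∈ Icc (0 : ℝ) 1 := ⟨ht.1, ht.2.le⟩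
    have h4 := h2 (y := (x + t • h, x)) (by
      rw [Prod.dist_eq]
      apply max_lt
      · rw [dist_eq_norm]
        exact (hnear t ht').trans_le hmin1
      · rw [dist_eq_norm]
        have : ‖x - x₀‖ < min δ₁ δ₂ := by
          have h0 : 0 < min δ₁ δ₂ := by positivity
          linarith
        exact this.trans_le hmin1)
    have e1 : x + t • h - x = t • h := by abel
    simp only [e1] at h4
    have e2 : fderiv ℝ f (x + t • h) h - fderiv ℝ f x h - t * hess f x₀ h h =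
        (fderiv ℝ f (x + t • h) - fderiv ℝ f x - hess f x₀ (t • h)) h := by
      simp
    rw [e2]
    refine (ContinuousLinearMap.le_opNorm _ _).trans ?_
    have h5 : ‖t • h‖ ≤ ‖h‖ := by
      rw [norm_smul, Real.norm_of_nonneg ht.1]
      exact mul_le_of_le_one_left (norm_nonneg _) ht.2.le
    calc ‖fderiv ℝ f (x + t • h) - fderiv ℝ f x - hess f x₀ (t • h)‖ * ‖h‖
        ≤ (ε * ‖t • h‖) * ‖h‖ := mul_le_mul_of_nonneg_right h4 (norm_nonneg _)
      _ ≤ (ε * ‖h‖) * ‖h‖ := by gcongr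
      _ = ε * ‖h‖ ^ 2 := by ring
  have hfin := norm_image_sub_le_of_norm_deriv_le_segment_01'
    (f' := fun t => fderiv ℝ f (x + t • h) h - fderiv ℝ f x h - t * hess f x₀ h h)
    (fun t ht => (hderiv t ht).hasDerivWithinAt) hbound
  have e3 : g 1 - g 0 = f (x + h) - f x - fderiv ℝ f x h - (1 / 2) * hess f x₀ h h := by
    simp only [hg, one_smul, zero_smul, add_zero]
    ring
  rw [e3, Real.norm_eq_abs] at hfin
  exact hfin

lemma hess_symm {f : V → ℝ} {x₀ : V} (hf : ContDiffAt ℝ 2 f x₀) (a b : V) :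
    hess f x₀ a b = hess f x₀ b a :=
  (hf.isSymmSndFDerivAt (by simp)).eq a b

lemma hasFDerivAt_fderiv {f : V → ℝ} {x₀ : V} (hf : ContDiffAt ℝ 2 f x₀) :
    HasFDerivAt (fderiv ℝ f) (hess f x₀) x₀ := (differentiableAt_fderiv hf).hasFDerivAt

/-- Second derivative along a straight line. -/
lemma iteratedDeriv_two_line {f : V → ℝ} {x₀ : V} (hf : ContDiffAt ℝ 2 f x₀) (h : V) :
    iteratedDeriv 2 (fun t : ℝ => f (x₀ + t • h)) 0 = hess f x₀ h h := by
  have hl : ∀ t : ℝ, HasDerivAt (fun t : ℝ => x₀ + t • h) h t := fun t => by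
    simpa using ((hasDerivAt_id t).smul_const h).const_add x₀
  have hcont : Tendsto (fun t : ℝ => x₀ + t • h) (𝓝 0) (𝓝 x₀) := by
    have h1 : ContinuousAt (fun t : ℝ => x₀ + t • h) 0 := (hl 0).continuousAt
    have h2 : x₀ + (0 : ℝ) • h = x₀ := by simp
    simpa [ContinuousAt] using h1
  have h1 : deriv (fun t : ℝ => f (x₀ + t • h)) =ᶠ[𝓝 0] fun t => fderiv ℝ f (x₀ + t • h) h := by
    filter_upwards [hcont.eventually (eventually_differentiableAt hf)] with t ht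
    exact (ht.hasFDerivAt.comp_hasDerivAt t (hl t)).deriv
  rw [iteratedDeriv_succ, iteratedDeriv_one, h1.deriv_eq]
  have h2 : HasFDerivAt (fderiv ℝ f) (hess f x₀) (x₀ + (0 : ℝ) • h) := by
    simpa using hasFDerivAt_fderiv hf
  have h3 : HasDerivAt (fun t : ℝ => fderiv ℝ f (x₀ + t • h)) (hess f x₀ h) 0 :=
    h2.comp_hasDerivAt 0 (hl 0)
  have h4 : HasDerivAt (fun t : ℝ => fderiv ℝ f (x₀ + t • h) h) (hess f x₀ h h) 0 := by
    have := h3.clm_apply (hasDerivAt_const (0 : ℝ) h)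
    simpa using this
  exact h4.deriv

lemma hess_nonneg_of_isLocalMin {f : V → ℝ} {x₀ : V} (hf : ContDiffAt ℝ 2 f x₀)
    (hmin : IsLocalMin f x₀) (h : V) : 0 ≤ hess f x₀ h h := by
  by_contra hneg
  push Not at hneg
  have hh : h ≠ 0 := by rintro rfl; simp at hneg
  have hn : 0 < ‖h‖ := norm_pos_iff.2 hh
  have hε : 0 < - hess f x₀ h h / (4 * ‖h‖ ^ 2) := by
    apply div_pos (by linarith) (by positivity)
  obtain ⟨δ, hδ, ht⟩ := taylor2 hf hε
  obtain ⟨δ', hδ', hm⟩ := Metric.eventually_nhds_iff.1 hmin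
  have hd0 : fderiv ℝ f x₀ = 0 := hmin.fderiv_eq_zero
  set t : ℝ := min δ δ' / (2 * ‖h‖) with htdef
  have ht0 : 0 < t := by positivity
  have hth : ‖t • h‖ = min δ δ' / 2 := by
    rw [norm_smul, Real.norm_of_nonneg ht0.le, htdef]
    field_simp
  have hmm : 0 < min δ δ' := by positivity
  have h1 := ht x₀ (t • h) (by simpa using hδ) (by
    rw [hth]; have := min_le_left δ δ'; linarith)
  have h2 : f x₀ ≤ f (x₀ + t • h) := by
    apply hm
    rw [dist_eq_norm, add_sub_cancel_left, hth]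
    have := min_le_right δ δ'
    linarith
  rw [hd0] at h1
  simp only [zero_apply, map_smul, smul_eq_mul] at h1
  have h3 : hess f x₀ (t • h) (t • h) = t ^ 2 * hess f x₀ h h := by
    simp; ring
  have h4 := (abs_le.1 h1).2
  have h5 : (1 : ℝ) / 2 * hess f x₀ (t • h) (t • h) = 1 / 2 * (t ^ 2 * hess f x₀ h h) := by rw [h3]
  have h6 : ‖t • h‖ ^ 2 = t ^ 2 * ‖h‖ ^ 2 := by
    rw [norm_smul, Real.norm_of_nonneg ht0.le]; ring
  have h7 : - hess f x₀ h h / (4 * ‖h‖ ^ 2) * ‖t • h‖ ^ 2 = - hess f x₀ h h / 4 * t ^ 2 := by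
    rw [h6]; field_simp
  rw [h7] at h4
  have h8 : 0 < t ^ 2 := by positivity
  have h9 : t * hess f x₀ h (t • h) = t ^ 2 * hess f x₀ h h := by
    simp; ring
  simp only [smul_eq_mul, smul_apply] at h4
  nlinarith

/-- Second derivative of a composition. -/
lemma hess_comp {W : Type*} [NormedAddCommGroup W] [NormedSpace ℝ W] {f : V → ℝ} {ψ : W → V}
    {w₀ : W} (hψ : ContDiffAt ℝ 2 ψ w₀) (hf : ContDiffAt ℝ 2 f (ψ w₀)) (a b : W) :
    hess (fun w => f (ψ w)) w₀ a b = hess f (ψ w₀) (fderiv ℝ ψ w₀ a) (fderiv ℝ ψ w₀ b) +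
      fderiv ℝ f (ψ w₀) (fderiv ℝ (fderiv ℝ ψ) w₀ a b) := by
  have h1 : fderiv ℝ (fun w => f (ψ w)) =ᶠ[𝓝 w₀] fun w => (fderiv ℝ f (ψ w)).comp (fderiv ℝ ψ w) := by
    filter_upwards [eventually_differentiableAt hψ,
      hψ.continuousAt.eventually (eventually_differentiableAt hf)] with w h1 h2
    exact (h2.hasFDerivAt.comp w h1.hasFDerivAt).fderiv
  have h2 : HasFDerivAt (fun w => fderiv ℝ f (ψ w)) ((hess f (ψ w₀)).comp (fderiv ℝ ψ w₀)) w₀ :=
    (hasFDerivAt_fderiv hf).comp w₀ (hψ.differentiableAt (by norm_num)).hasFDerivAt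
  have h3 : HasFDerivAt (fderiv ℝ ψ) (fderiv ℝ (fderiv ℝ ψ) w₀) w₀ :=
    (differentiableAt_fderiv hψ).hasFDerivAt
  have h4 := h2.clm_comp h3
  unfold hess
  rw [h1.fderiv_eq, h4.fderiv]
  simp [hess, add_comm]

lemma hess_add {f g : V → ℝ} {x₀ : V} (hf : ContDiffAt ℝ 2 f x₀) (hg : ContDiffAt ℝ 2 g x₀) :
    hess (fun x => f x + g x) x₀ = hess f x₀ + hess g x₀ := by
  have h1 : fderiv ℝ (fun x => f x + g x) =ᶠ[𝓝 x₀] fun x => fderiv ℝ f x + fderiv ℝ g x := by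
    filter_upwards [eventually_differentiableAt hf, eventually_differentiableAt hg] with x h1 h2
    exact (h1.hasFDerivAt.add h2.hasFDerivAt).fderiv
  unfold hess
  rw [h1.fderiv_eq]
  exact ((differentiableAt_fderiv hf).hasFDerivAt.add (differentiableAt_fderiv hg).hasFDerivAt).fderiv

lemma hess_const_mul {f : V → ℝ} {x₀ : V} (hf : ContDiffAt ℝ 2 f x₀) (c : ℝ) :
    hess (fun x => c * f x) x₀ = c • hess f x₀ := by
  have h1 : fderiv ℝ (fun x => c * f x) =ᶠ[𝓝 x₀] fun x => c • fderiv ℝ f x := by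
    filter_upwards [eventually_differentiableAt hf] with x h1
    exact (h1.hasFDerivAt.const_mul c).fderiv
  unfold hess
  rw [h1.fderiv_eq]
  exact ((differentiableAt_fderiv hf).hasFDerivAt.const_smul c).fderiv

/-- Second derivative of a composition with an affine map. -/
lemma hess_comp_affine {W : Type*} [NormedAddCommGroup W] [NormedSpace ℝ W] {f : V → ℝ} {x₀ : V}
    (hf : ContDiffAt ℝ 2 f x₀) (L : W →L[ℝ] V) (w₀ : W) (c : V) (hw : c + L w₀ = x₀) (a b : W) :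
    hess (fun w => f (c + L w)) w₀ a b = hess f x₀ (L a) (L b) := by
  have hψ : ContDiffAt ℝ 2 (fun w => c + L w) w₀ := by fun_prop
  have hd : ∀ w, fderiv ℝ (fun w => c + L w) w = L := fun w => by
    rw [fderiv_const_add]; exact L.fderiv
  have hd2 : fderiv ℝ (fun w => c + L w) = fun _ => L := funext hd
  subst hw
  rw [hess_comp (ψ := fun w => c + L w) hψ hf, hd, hd2]
  simp

/-- Second derivative of a composition at a critical point. -/
lemma hess_comp_crit {W : Type*} [NormedAddCommGroup W] [NormedSpace ℝ W] {f : V → ℝ} {ψ : W → V}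
    {w₀ : W} (hψ : ContDiffAt ℝ 2 ψ w₀) (hf : ContDiffAt ℝ 2 f (ψ w₀))
    (hcrit : fderiv ℝ f (ψ w₀) = 0) (a b : W) :
    hess (fun w => f (ψ w)) w₀ a b = hess f (ψ w₀) (fderiv ℝ ψ w₀ a) (fderiv ℝ ψ w₀ b) := by
  rw [hess_comp hψ hf, hcrit]
  simp

/-- One dimensional: if `f 0 = 0`, `f ≥ 0` near `0` and `f` is `C^2` then `f = O(s^2)`. -/
lemma nonneg_quadratic {f : ℝ → ℝ} (hf : ContDiffAt ℝ 2 f 0) (h0 : f 0 = 0)
    (hp : ∀ᶠ s in 𝓝 (0 : ℝ), 0 ≤ f s) : ∃ C : ℝ, 0 ≤ C ∧ ∀ᶠ s in 𝓝 (0 : ℝ), f s ≤ C * s ^ 2 := by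
  have hmin : IsLocalMin f 0 := by
    filter_upwards [hp] with s hs
    rw [h0]; exact hs
  have hd : fderiv ℝ f 0 = 0 := hmin.fderiv_eq_zero
  obtain ⟨δ, hδ, ht⟩ := taylor2 hf one_pos
  refine ⟨1 + 1 / 2 * |hess f 0 1 1|, by positivity, ?_⟩
  filter_upwards [Metric.ball_mem_nhds (0 : ℝ) hδ] with s hs
  rw [Metric.mem_ball, dist_zero_right] at hs
  have h1 := ht 0 s (by simpa using hδ) hs
  rw [hd, h0] at h1
  have h2 : hess f 0 s s = s ^ 2 * hess f 0 1 1 := by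
    have e0 : s • (1 : ℝ) = s := by simp
    have e1 : hess f 0 s = s • hess f 0 1 := by rw [← map_smul, e0]
    have e2 : hess f 0 1 s = s * hess f 0 1 1 := by rw [← smul_eq_mul, ← map_smul, e0]
    rw [e1]
    change s * hess f 0 1 s = _
    rw [e2]
    ring
  rw [h2] at h1
  have h3 := (abs_le.1 h1).2
  simp only [zero_add, zero_apply, sub_zero, Real.norm_eq_abs, sq_abs] at h3
  have h4 : s ^ 2 * hess f 0 1 1 ≤ s ^ 2 * |hess f 0 1 1| :=
    mul_le_mul_of_nonneg_left (le_abs_self _) (sq_nonneg s)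
  nlinarith

end

end Vale.Agent.P234
end
end

section

section

/-! Pure calculus used for the Hessians of the cost. -/

set_option maxSynthPendingDepth 3

open Set Filter
open scoped ContDiff Topology

namespace Vale.Agent.P234

noncomputable section

section general

variable {V W : Type*} [NormedAddCommGroup V] [NormedSpace ℝ V]
  [NormedAddCommGroup W] [NormedSpace ℝ W]

omit [NormedAddCommGroup V] [NormedSpace ℝ V] [NormedAddCommGroup W] [NormedSpace ℝ W] in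
lemma two_le_infty : (2 : WithTop ℕ∞) ≤ ∞ := by
  norm_cast

lemma contDiffAt_fderiv_fst {G : Type*} [NormedAddCommGroup G] [NormedSpace ℝ G]
    {F : V × W → G} {a : V} {b : W} (h : ContDiffAt ℝ ∞ F (a, b)) :
    ContDiffAt ℝ ∞ (fun p : V × W => fderiv ℝ (fun a' => F (a', p.2)) p.1) (a, b) := by
  have h1 : ContDiffAt ℝ ∞ (Function.uncurry fun (p : V × W) (a' : V) => F (a', p.2))
      ((a, b), a) := by
    have h2 : ContDiffAt ℝ ∞ (fun q : (V × W) × V => (q.2, q.1.2)) ((a, b), a) := by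
      fun_prop
    exact ContDiffAt.comp (g := F) ((a, b), a) h h2
  exact ContDiffAt.fderiv (f := fun (p : V × W) (a' : V) => F (a', p.2)) (g := fun p => p.1)
    h1 contDiffAt_fst (by simp)

lemma contDiffAt_hess_fst {F : V × W → ℝ} {a : V} {b : W} (h : ContDiffAt ℝ ∞ F (a, b)) :
    ContDiffAt ℝ ∞ (fun p : V × W => hess (fun a' => F (a', p.2)) p.1) (a, b) := by
  have h0 := contDiffAt_fderiv_fst (contDiffAt_fderiv_fst h)
  exact h0

lemma hess_fst {F : V × W → ℝ} {a : V} {b : W} (h : ContDiffAt ℝ ∞ F (a, b)) (ξ η : V) :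
    hess F (a, b) (ξ, 0) (η, 0) = hess (fun a' => F (a', b)) a ξ η := by
  have h1 := hess_comp_affine (f := F) (x₀ := (a, b)) (h.of_le two_le_infty)
    (ContinuousLinearMap.inl ℝ V W) a (0, b) (by simp) ξ η
  simp only [ContinuousLinearMap.inl_apply, Prod.mk_add_mk, zero_add, add_zero] at h1
  exact h1.symm

lemma hess_snd {F : V × W → ℝ} {a : V} {b : W} (h : ContDiffAt ℝ ∞ F (a, b)) (ξ η : W) :
    hess F (a, b) (0, ξ) (0, η) = hess (fun b' => F (a, b')) b ξ η := by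
  have h1 := hess_comp_affine (f := F) (x₀ := (a, b)) (h.of_le two_le_infty)
    (ContinuousLinearMap.inr ℝ V W) b (a, 0) (by simp) ξ η
  simp only [ContinuousLinearMap.inr_apply, Prod.mk_add_mk, zero_add, add_zero] at h1
  exact h1.symm

/-- Mixed second derivative. -/
lemma hess_mixed {F : V × W → ℝ} {a : V} {b : W} (h : ContDiffAt ℝ ∞ F (a, b)) (ξ : V) (μ : W)
    {c : ℝ} (hc : HasDerivAt (fun s : ℝ => fderiv ℝ (fun a' => F (a', b + s • μ)) a ξ) c 0) :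
    hess F (a, b) (0, μ) (ξ, 0) = c := by
  have h2 : ContDiffAt ℝ 2 F (a, b) := h.of_le two_le_infty
  have hd : DifferentiableAt ℝ (fderiv ℝ F) (a, b) :=
    (h2.fderiv_right (m := 1) (by norm_num)).differentiableAt (by norm_num)
  have hev : ∀ᶠ p in 𝓝 (a, b), DifferentiableAt ℝ F p := by
    filter_upwards [(h2.eventually (by simp))] with p hp
    exact hp.differentiableAt (by norm_num)
  -- derivative of `s ↦ fderiv F (a, b + s μ) (ξ, 0)`
  have hline : HasDerivAt (fun s : ℝ => ((a, b + s • μ) : V × W)) (0, μ) 0 := by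
    have h3 : HasDerivAt (fun s : ℝ => b + s • μ) μ 0 := by
      simpa using ((hasDerivAt_id (0:ℝ)).smul_const μ).const_add b
    exact (hasDerivAt_const (0:ℝ) a).prodMk h3
  have h4 : HasDerivAt (fun s : ℝ => fderiv ℝ F (a, b + s • μ) (ξ, 0))
      (hess F (a, b) (0, μ) (ξ, 0)) 0 := by
    have h5 : HasFDerivAt (fderiv ℝ F) (hess F (a, b)) ((fun s : ℝ => (a, b + s • μ)) 0) := by
      simpa [hess] using hd.hasFDerivAt
    have h6 := h5.comp_hasDerivAt (0:ℝ) hline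
    have h6' := (ContinuousLinearMap.apply ℝ ℝ ((ξ, 0) : V × W)).hasFDerivAt.comp_hasDerivAt
      (0:ℝ) h6
    exact h6'
  have h7 : (fun s : ℝ => fderiv ℝ F (a, b + s • μ) (ξ, 0)) =ᶠ[𝓝 0]
      fun s : ℝ => fderiv ℝ (fun a' => F (a', b + s • μ)) a ξ := by
    have hcont : Tendsto (fun s : ℝ => ((a, b + s • μ) : V × W)) (𝓝 0) (𝓝 (a, b)) := by
      have := hline.continuousAt.tendsto
      simpa using this
    filter_upwards [hcont.eventually hev] with s hs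
    have h8 : HasFDerivAt (fun a' : V => F (a', b + s • μ))
        ((fderiv ℝ F (a, b + s • μ)).comp (ContinuousLinearMap.inl ℝ V W)) a :=
      HasFDerivAt.comp a hs.hasFDerivAt (hasFDerivAt_prodMk_left a (b + s • μ))
    rw [h8.fderiv]
    simp
  exact (h4.congr_of_eventuallyEq h7.symm).unique hc

lemma hess_expand {F : V × W → ℝ} {a : V} {b : W} (h : ContDiffAt ℝ ∞ F (a, b)) (ξ : V) (μ : W) :
    hess F (a, b) (ξ, μ) (ξ, μ) = hess F (a, b) (ξ, 0) (ξ, 0) + 2 * hess F (a, b) (0, μ) (ξ, 0)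
      + hess F (a, b) (0, μ) (0, μ) := by
  have h2 : ContDiffAt ℝ 2 F (a, b) := h.of_le two_le_infty
  have e1 : ((ξ, μ) : V × W) = (ξ, 0) + (0, μ) := by simp
  rw [e1]
  simp only [map_add, add_apply]
  rw [hess_symm h2 (ξ, 0) (0, μ)]
  ring

end general

section radial

variable {V : Type*} [NormedAddCommGroup V] [InnerProductSpace ℝ V]

lemma hasFDerivAt_norm' {a : V} (ha : a ≠ 0) :
    HasFDerivAt (fun x : V => ‖x‖) (‖a‖⁻¹ • innerSL ℝ a) a := by
  have hn : ‖a‖ ≠ 0 := norm_ne_zero_iff.mpr ha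
  have h1 := (hasStrictFDerivAt_norm_sq a).hasFDerivAt.sqrt (by positivity)
  have h2 : (fun x : V => √(‖x‖ ^ 2)) = fun x => ‖x‖ := by
    funext x
    exact Real.sqrt_sq (norm_nonneg x)
  rw [h2] at h1
  convert h1 using 1
  rw [Real.sqrt_sq (norm_nonneg a)]
  ext ξ
  simp
  field_simp

lemma hess_radial {g : V → ℝ} {v : V} (hg : ContDiffAt ℝ 2 g 0)
    (h0 : HasFDerivAt g (-(innerSL ℝ v)) 0)
    (hle : ∀ a : V, ‖a‖ ≤ ‖v‖ → (‖v‖ - ‖a‖) ^ 2 / 2 ≤ g a)
    (heq : ∀ t : ℝ, 0 ≤ t → t ≤ 1 → g (t • v) = (1 - t) ^ 2 * ‖v‖ ^ 2 / 2) (ξ : V) :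
    hess g 0 v ξ = inner ℝ v ξ := by
  rcases eq_or_ne v 0 with hv | hv
  · subst hv
    simp
  have hn : 0 < ‖v‖ := norm_pos_iff.mpr hv
  have hd : DifferentiableAt ℝ (fderiv ℝ g) 0 :=
    (hg.fderiv_right (m := 1) (by norm_num)).differentiableAt (by norm_num)
  have hev : ∀ᶠ p in 𝓝 (0 : V), DifferentiableAt ℝ g p := by
    filter_upwards [(hg.eventually (by simp))] with p hp
    exact hp.differentiableAt (by norm_num)
  have hline : HasDerivAt (fun t : ℝ => t • v) v 0 := by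
    simpa using (hasDerivAt_id (0:ℝ)).smul_const v
  have h4 : HasDerivAt (fun t : ℝ => fderiv ℝ g (t • v) ξ) (hess g 0 v ξ) 0 := by
    have h5 : HasFDerivAt (fderiv ℝ g) (hess g 0) ((fun t : ℝ => t • v) 0) := by
      simpa [hess] using hd.hasFDerivAt
    have h6 := h5.comp_hasDerivAt (0:ℝ) hline
    exact (ContinuousLinearMap.apply ℝ ℝ ξ).hasFDerivAt.comp_hasDerivAt (0:ℝ) h6
  have hcont : Tendsto (fun t : ℝ => t • v) (𝓝 0) (𝓝 0) := by
    have := hline.continuousAt.tendsto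
    simpa using this
  -- the derivative along the segment
  have hseg : ∀ᶠ t in 𝓝[≥] (0:ℝ), fderiv ℝ g (t • v) ξ = -(1 - t) * inner ℝ v ξ := by
    have hev2 : ∀ᶠ t in 𝓝 (0:ℝ), DifferentiableAt ℝ g (t • v) ∧ t < 1 :=
      (hcont.eventually hev).and (gt_mem_nhds one_pos)
    filter_upwards [mem_nhdsWithin_of_mem_nhds hev2, self_mem_nhdsWithin] with t ht ht0
    rcases eq_or_lt_of_le (show (0:ℝ) ≤ t from ht0) with h | h
    · rw [← h, zero_smul, h0.fderiv]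
      simp
    · obtain ⟨ht1, ht2⟩ := ht
      have htv : t • v ≠ 0 := smul_ne_zero h.ne' hv
      have hh : HasFDerivAt (fun a : V => (‖v‖ - ‖a‖) ^ 2 / 2)
          (-((‖v‖ - ‖t • v‖) • (‖t • v‖⁻¹ • innerSL ℝ (t • v)))) (t • v) := by
        have h7 := ((hasFDerivAt_norm' htv).const_sub ‖v‖).pow 2
        have h8 := h7.mul_const (1/2 : ℝ)
        have h9 : (fun a : V => (‖v‖ - ‖a‖) ^ 2 * (1/2)) = fun a : V => (‖v‖ - ‖a‖) ^ 2 / 2 := by
          funext a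
          ring
        rw [h9] at h8
        have h10 : -((‖v‖ - ‖t • v‖) • (‖t • v‖⁻¹ • innerSL ℝ (t • v))) =
            (1 / 2 : ℝ) • ((2 • (‖v‖ - ‖t • v‖) ^ (2 - 1)) • -(‖t • v‖⁻¹ • innerSL ℝ (t • v))) := by
          ext η
          simp
          ring
        rw [h10]
        exact h8
      have hmin : IsLocalMin (fun a => g a - (‖v‖ - ‖a‖) ^ 2 / 2) (t • v) := by
        have hnt : ‖t • v‖ < ‖v‖ := by
          rw [norm_smul, Real.norm_eq_abs, abs_of_pos h]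
          nlinarith
        have hnear : ∀ᶠ a in 𝓝 (t • v), ‖a‖ < ‖v‖ :=
          continuous_norm.continuousAt.eventually (gt_mem_nhds hnt)
        filter_upwards [hnear] with a ha
        have h10 := hle a ha.le
        have h11 := heq t h.le ht2.le
        have h12 : (‖v‖ - ‖t • v‖) ^ 2 / 2 = (1 - t) ^ 2 * ‖v‖ ^ 2 / 2 := by
          rw [norm_smul, Real.norm_eq_abs, abs_of_pos h]
          ring
        rw [h11, h12]
        linarith
      have h13 := hmin.hasFDerivAt_eq_zero (ht1.hasFDerivAt.sub hh)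
      have h14 : fderiv ℝ g (t • v) = -((‖v‖ - ‖t • v‖) • (‖t • v‖⁻¹ • innerSL ℝ (t • v))) :=
        sub_eq_zero.mp h13
      rw [h14, norm_smul, Real.norm_eq_abs, abs_of_pos h]
      simp
      field_simp
      ring
  have h15 : HasDerivWithinAt (fun t : ℝ => -(1 - t) * inner ℝ v ξ) (hess g 0 v ξ) (Ici 0) 0 := by
    refine h4.hasDerivWithinAt.congr_of_eventuallyEq ?_ ?_
    · filter_upwards [hseg] with t ht
      exact ht.symm
    · rw [zero_smul, h0.fderiv]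
      simp
  have h16 : HasDerivWithinAt (fun t : ℝ => -(1 - t) * inner ℝ v ξ) (inner ℝ v ξ) (Ici 0) 0 := by
    have : HasDerivAt (fun t : ℝ => -(1 - t) * inner ℝ v ξ) (inner ℝ v ξ) 0 := by
      have h17 := (((hasDerivAt_id (0:ℝ)).const_sub 1).neg).mul_const (inner ℝ v ξ)
      simpa using h17
    exact this.hasDerivWithinAt
  exact (uniqueDiffWithinAt_Ici (0:ℝ)).eq_deriv _ h15 h16

/-- Second derivative of half the squared norm. -/
lemma hess_half_norm_sq {f : V → ℝ} {v : V} (hf : f =ᶠ[𝓝 v] fun b => ‖b‖ ^ 2 / 2) (ξ μ : V) :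
    hess f v ξ μ = inner ℝ ξ μ := by
  have h1 : ∀ b : V, HasFDerivAt (fun b : V => ‖b‖ ^ 2 / 2) (innerSL ℝ b) b := by
    intro b
    have h2 := (hasStrictFDerivAt_norm_sq b).hasFDerivAt.mul_const (1/2 : ℝ)
    have h3 : (fun b : V => ‖b‖ ^ 2 * (1/2)) = fun b => ‖b‖ ^ 2 / 2 := by
      funext b
      ring
    rw [h3] at h2
    have h4 : innerSL ℝ b = (1 / 2 : ℝ) • (2 • innerSL ℝ b) := by
      ext η
      simp
    rw [h4]
    exact h2
  have h4 : fderiv ℝ f =ᶠ[𝓝 v] fun b => innerSL ℝ b := by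
    filter_upwards [hf.eventuallyEq_nhds] with b hb
    exact (hb.fderiv_eq).trans (h1 b).fderiv
  unfold hess
  rw [h4.fderiv_eq]
  have h5 : fderiv ℝ (fun b : V => innerSL ℝ b) v = innerSL ℝ :=
    (innerSL ℝ (E := V)).fderiv
  rw [h5]
  rfl

end radial

end

end Vale.Agent.P234
end
end

section

section

/-! Step B in an abstract inner product space. -/

set_option maxSynthPendingDepth 3

open Set Filter
open scoped ContDiff Topology

namespace Vale.Agent.P234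

/-- Data of the Hessians of the cost in a fixed tangent space. -/
structure HessData (V : Type*) [NormedAddCommGroup V] [InnerProductSpace ℝ V] where
  I : Set V
  S : Set V
  H : V → V →L[ℝ] V →L[ℝ] ℝ
  K : V → V → V →L[ℝ] V →L[ℝ] ℝ
  smul_mem : ∀ w ∈ S, ∀ t : ℝ, 0 ≤ t → t < 1 → t • w ∈ I
  contH : ∀ w ∈ I, ContinuousAt H w
  symm : ∀ w ∈ I, ∀ a b, H w a b = H w b a
  radial : ∀ w ∈ I, ∀ a, H w w a = inner ℝ w a
  smoothK : ∀ (w : V) (s s' : ℝ), 0 < s → s < s' → s' • w ∈ S →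
    ContDiffAt ℝ ∞ (fun r : V × V => K r.1 r.2) (s • w, s' • w)
  key : ∀ (w : V) (s s' : ℝ), 0 < s → s < s' → s' • w ∈ I → ∀ ξ μ : V,
    H (s' • w) ξ ξ / s' ≤ H (s • w) ξ ξ / s - 2 * inner ℝ ξ μ / s + ‖μ‖ ^ 2 / s +
      K (s • w) (s' • w) μ μ / (s' - s)
  strict : ∀ (w : V) (s s' : ℝ), 0 < s → s < s' → s' • w ∈ I → ∀ ξ : V, ξ ≠ 0 →
    H (s' • w) ξ ξ / s' < H (s • w) ξ ξ / s
  concave : ∀ (D : Set V), Convex ℝ D → D ⊆ I → ∀ w₀ ξ : V,
    ConcaveOn ℝ (D ∩ {u | inner ℝ (u - w₀) ξ = 0}) (fun u => H u ξ ξ)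
  mid_nonneg : ∀ (w : V) (s s' : ℝ), 0 < s → s < s' → s' • w ∈ S → ∀ μ : V,
    0 ≤ ‖μ‖ ^ 2 / s + K (s • w) (s' • w) μ μ / (s' - s)
  mid_pos : ∀ (w : V) (s s' : ℝ), 0 < s → s < s' → s' • w ∈ I → ∀ μ : V, μ ≠ 0 →
    0 < ‖μ‖ ^ 2 / s + K (s • w) (s' • w) μ μ / (s' - s)
  lower : ∀ (w : V) (s s' κ : ℝ), 0 < s → s < s' → s' • w ∈ I → 0 < κ →
    (∀ μ : V, κ * ‖μ‖ ^ 2 ≤ ‖μ‖ ^ 2 / s + K (s • w) (s' • w) μ μ / (s' - s)) →
    ∀ ξ : V, H (s • w) ξ ξ / s - ‖ξ‖ ^ 2 / (s ^ 2 * κ) ≤ H (s' • w) ξ ξ / s'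

namespace HessData

variable {V : Type*} [NormedAddCommGroup V] [InnerProductSpace ℝ V] (X : HessData V)

lemma smul_mem' {w : V} {τ τ₁ : ℝ} (hw : τ₁ • w ∈ X.S) (hτ : 0 ≤ τ) (hττ : τ < τ₁) :
    τ • w ∈ X.I := by
  have h1 : 0 < τ₁ := lt_of_le_of_lt hτ hττ
  have h2 := X.smul_mem _ hw (τ / τ₁) (by positivity) ((div_lt_one h1).2 hττ)
  rwa [smul_smul, div_mul_cancel₀ _ h1.ne'] at h2

/-- Quadratic form of the two-piece functional in the middle variable. -/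
noncomputable def Q (θ τ : ℝ) (w μ : V) : ℝ :=
  ‖μ‖ ^ 2 / θ + X.K (θ • w) (τ • w) μ μ / (τ - θ)

/-- Limit form of the key inequality. -/
lemma key_limit {w : V} {θ τ₁ : ℝ} (hθ : 0 < θ) (hθτ : θ < τ₁) (hw : τ₁ • w ∈ X.S) (ξ μ : V)
    {c : ℝ → ℝ} {c₀ : ℝ} (hc : Tendsto c (𝓝[<] τ₁) (𝓝 c₀))
    (h : ∀ᶠ τ in 𝓝[<] τ₁, c τ ≤ X.H (τ • w) ξ ξ / τ) :
    c₀ ≤ X.H (θ • w) ξ ξ / θ - 2 * inner ℝ ξ μ / θ + X.Q θ τ₁ w μ := by
  have hcont := (X.smoothK w θ τ₁ hθ hθτ hw).continuousAt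
  have h1 : Tendsto (fun τ : ℝ => X.K (θ • w) (τ • w)) (𝓝[<] τ₁) (𝓝 (X.K (θ • w) (τ₁ • w))) := by
    have h2 : Tendsto (fun τ : ℝ => (θ • w, τ • w)) (𝓝[<] τ₁) (𝓝 (θ • w, τ₁ • w)) := by
      have : Continuous (fun τ : ℝ => (θ • w, τ • w)) := by fun_prop
      exact (this.tendsto τ₁).mono_left nhdsWithin_le_nhds
    exact hcont.tendsto.comp h2
  have h3 : Tendsto (fun τ : ℝ => X.K (θ • w) (τ • w) μ μ) (𝓝[<] τ₁)
      (𝓝 (X.K (θ • w) (τ₁ • w) μ μ)) := by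
    have h4 : Continuous (fun B : V →L[ℝ] V →L[ℝ] ℝ => B μ μ) := by fun_prop
    exact (h4.tendsto _).comp h1
  have h5 : Tendsto (fun τ : ℝ => X.H (θ • w) ξ ξ / θ - 2 * inner ℝ ξ μ / θ + ‖μ‖ ^ 2 / θ
      + X.K (θ • w) (τ • w) μ μ / (τ - θ)) (𝓝[<] τ₁)
      (𝓝 (X.H (θ • w) ξ ξ / θ - 2 * inner ℝ ξ μ / θ + ‖μ‖ ^ 2 / θ
      + X.K (θ • w) (τ₁ • w) μ μ / (τ₁ - θ))) := by
    refine Tendsto.add tendsto_const_nhds (h3.div ?_ (sub_pos.2 hθτ).ne')
    have : Continuous (fun τ : ℝ => τ - θ) := by fun_prop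
    exact (this.tendsto τ₁).mono_left nhdsWithin_le_nhds
  rw [Q, ← add_assoc]
  refine le_of_tendsto_of_tendsto hc h5 ?_
  have h6 : ∀ᶠ τ in 𝓝[<] τ₁, θ < τ := by
    have : ∀ᶠ τ in 𝓝 τ₁, θ < τ := lt_mem_nhds hθτ
    exact this.filter_mono nhdsWithin_le_nhds
  filter_upwards [h, h6, self_mem_nhdsWithin] with τ hτ1 hτ2 hτ3
  exact hτ1.trans (X.key w θ τ hθ hτ2 (X.smul_mem' hw (by linarith) hτ3) ξ μ)

lemma Q_smul (θ τ : ℝ) (w μ : V) (t : ℝ) : X.Q θ τ w (t • μ) = t ^ 2 * X.Q θ τ w μ := by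
  simp only [Q, norm_smul, map_smul, smul_apply, smul_eq_mul, mul_pow,
    Real.norm_eq_abs, sq_abs]
  ring

lemma orth_of_bounded {w : V} {θ τ₁ : ℝ} (hθ : 0 < θ) (hθτ : θ < τ₁) (hw : τ₁ • w ∈ X.S)
    {ξ μ : V} (hμ : X.Q θ τ₁ w μ = 0) (c : ℝ)
    (h : ∀ᶠ τ in 𝓝[<] τ₁, c ≤ X.H (τ • w) ξ ξ / τ) : inner ℝ ξ μ = 0 := by
  by_contra hp
  have h1 := X.key_limit hθ hθτ hw ξ
    ((θ * (X.H (θ • w) ξ ξ / θ - c + 1) / (2 * inner ℝ ξ μ)) • μ)
    (c := fun _ => c) tendsto_const_nhds h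
  rw [Q_smul, hμ, mul_zero, add_zero, inner_smul_right] at h1
  have h2 : 2 * (θ * (X.H (θ • w) ξ ξ / θ - c + 1) / (2 * inner ℝ ξ μ) * inner ℝ ξ μ) / θ =
      X.H (θ • w) ξ ξ / θ - c + 1 := by
    field_simp
  rw [h2] at h1
  linarith

end HessData

/-- A positive definite form on a finite dimensional space is uniformly coercive nearby. -/
lemma coercive_nhds {V : Type*} [NormedAddCommGroup V] [NormedSpace ℝ V]
    [FiniteDimensional ℝ V] (a : ℝ) (B₀ : V →L[ℝ] V →L[ℝ] ℝ)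
    (h : ∀ μ, μ ≠ 0 → 0 < a * ‖μ‖ ^ 2 + B₀ μ μ) :
    ∃ κ > 0, ∀ᶠ B in 𝓝 B₀, ∀ μ, κ * ‖μ‖ ^ 2 ≤ a * ‖μ‖ ^ 2 + B μ μ := by
  have hP : ProperSpace V := FiniteDimensional.proper ℝ V
  by_cases hne : (Metric.sphere (0 : V) 1).Nonempty
  · obtain ⟨μ₁, hμ₁, hmin⟩ := (isCompact_sphere (0 : V) 1).exists_isMinOn hne
      (f := fun μ => a * ‖μ‖ ^ 2 + B₀ μ μ) (by fun_prop)
    have hμ1 : ‖μ₁‖ = 1 := by simpa using hμ₁
    have hpos : 0 < a * ‖μ₁‖ ^ 2 + B₀ μ₁ μ₁ :=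
      h _ (by rw [← norm_ne_zero_iff, hμ1]; exact one_ne_zero)
    set m : ℝ := a * ‖μ₁‖ ^ 2 + B₀ μ₁ μ₁ with hm
    have hB0 : ∀ μ, m * ‖μ‖ ^ 2 ≤ a * ‖μ‖ ^ 2 + B₀ μ μ := by
      intro μ
      by_cases hμ : μ = 0
      · simp [hμ]
      · have hn : ‖μ‖ ≠ 0 := norm_ne_zero_iff.2 hμ
        have h1 : m ≤ a * ‖‖μ‖⁻¹ • μ‖ ^ 2 + B₀ (‖μ‖⁻¹ • μ) (‖μ‖⁻¹ • μ) := by
          apply hmin
          simp [norm_smul, hn]
        rw [map_smul, map_smul, smul_apply, smul_eq_mul, smul_eq_mul, norm_smul, norm_inv,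
          norm_norm, inv_mul_cancel₀ hn] at h1
        have h2 : 0 < ‖μ‖ ^ 2 := by positivity
        calc m * ‖μ‖ ^ 2 ≤ (a * 1 ^ 2 + ‖μ‖⁻¹ * (‖μ‖⁻¹ * B₀ μ μ)) * ‖μ‖ ^ 2 := by gcongr
          _ = a * ‖μ‖ ^ 2 + B₀ μ μ := by field_simp
    refine ⟨m / 2, by positivity, ?_⟩
    filter_upwards [Metric.ball_mem_nhds B₀ (half_pos hpos)] with B hB μ
    rw [Metric.mem_ball, dist_eq_norm] at hB
    have h3 : |(B - B₀) μ μ| ≤ ‖B - B₀‖ * ‖μ‖ * ‖μ‖ := by
      have := (B - B₀).le_opNorm₂ μ μ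
      simpa using this
    have h4 : B μ μ = B₀ μ μ + (B - B₀) μ μ := by simp
    have h5 := abs_le.1 h3
    have h6 : ‖B - B₀‖ * ‖μ‖ * ‖μ‖ ≤ m / 2 * ‖μ‖ ^ 2 := by
      rw [mul_assoc, ← sq]
      gcongr
    rw [h4]
    have := hB0 μ
    linarith [h5.1]
  · refine ⟨1, one_pos, Eventually.of_forall fun B μ => ?_⟩
    by_cases hμ : μ = 0
    · simp [hμ]
    · exfalso
      apply hne
      refine ⟨‖μ‖⁻¹ • μ, ?_⟩
      have hn : ‖μ‖ ≠ 0 := norm_ne_zero_iff.2 hμ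
      simp [norm_smul, hn]

section Convexity

variable {V : Type*} [NormedAddCommGroup V] [InnerProductSpace ℝ V]

lemma exists_coeff [FiniteDimensional ℝ V] (t : Finset V) {y₀ : V} (hy₀ : y₀ ∈ t) {μ : V}
    (h : ∀ ξ : V, (∀ y ∈ t, inner ℝ (y - y₀) ξ = 0) → inner ℝ ξ μ = 0) :
    ∃ c : V → ℝ, ∑ y ∈ t, c y = 0 ∧ ∑ y ∈ t, c y • y = μ := by
  classical
  have hmem : μ ∈ Submodule.span ℝ ((fun y => y - y₀) '' (t : Set V)) := by
    rw [← Submodule.orthogonal_orthogonal (Submodule.span ℝ ((fun y => y - y₀) '' (t : Set V))),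
      Submodule.mem_orthogonal]
    intro ξ hξ
    apply h
    intro y hy
    rw [Submodule.mem_orthogonal] at hξ
    exact hξ _ (Submodule.subset_span ⟨y, hy, rfl⟩)
  clear h
  induction hmem using Submodule.span_induction with
  | mem x hx =>
    obtain ⟨y, hy, rfl⟩ := hx
    refine ⟨fun v => (if v = y then 1 else 0) - (if v = y₀ then 1 else 0), ?_, ?_⟩
    · rw [Finset.sum_sub_distrib, Finset.sum_ite_eq' t y, Finset.sum_ite_eq' t y₀]
      simp only [Finset.mem_coe] at hy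
      simp [hy, hy₀]
    · simp only [sub_smul, ite_smul, one_smul, zero_smul]
      rw [Finset.sum_sub_distrib, Finset.sum_ite_eq' t y, Finset.sum_ite_eq' t y₀]
      simp only [Finset.mem_coe] at hy
      simp [hy, hy₀]
  | zero => exact ⟨fun _ => 0, by simp, by simp⟩
  | add a b _ _ ha hb =>
    obtain ⟨c1, h1, h2⟩ := ha
    obtain ⟨c2, h3, h4⟩ := hb
    refine ⟨fun v => c1 v + c2 v, ?_, ?_⟩
    · rw [Finset.sum_add_distrib, h1, h3, add_zero]
    · simp only [add_smul]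
      rw [Finset.sum_add_distrib, h2, h4]
  | smul r a _ ha =>
    obtain ⟨c1, h1, h2⟩ := ha
    refine ⟨fun v => r * c1 v, ?_, ?_⟩
    · rw [← Finset.mul_sum, h1, mul_zero]
    · simp only [mul_smul]
      rw [← Finset.smul_sum, h2]

lemma exists_exit [DecidableEq V] (t : Finset V) {lam c : V → ℝ} (hlam : ∀ y ∈ t, 0 < lam y)
    (hsum : ∑ y ∈ t, lam y = 1) {u μ : V} (hu : ∑ y ∈ t, lam y • y = u)
    (hc : ∑ y ∈ t, c y = 0) (hμ : ∑ y ∈ t, c y • y = μ) (hμ0 : μ ≠ 0) :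
    (∃ s : ℝ, 0 < s ∧ ∃ y ∈ t, u + s • μ ∈ convexHull ℝ ((t.erase y : Finset V) : Set V)) ∧
      ∀ᶠ s in 𝓝 (0 : ℝ), u + s • μ ∈ convexHull ℝ (t : Set V) := by
  have hus : ∀ s : ℝ, u + s • μ = ∑ y ∈ t, (lam y + s * c y) • y := by
    intro s
    simp only [add_smul, mul_smul]
    rw [Finset.sum_add_distrib, ← Finset.smul_sum, hu, hμ]
  have hsums : ∀ s : ℝ, ∑ y ∈ t, (lam y + s * c y) = 1 := by
    intro s
    rw [Finset.sum_add_distrib, ← Finset.mul_sum, hsum, hc, mul_zero, add_zero]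
  constructor
  · have hneg : (t.filter (fun y => c y < 0)).Nonempty := by
      by_contra hne
      rw [Finset.not_nonempty_iff_eq_empty, Finset.filter_eq_empty_iff] at hne
      have h0 : ∀ y ∈ t, c y = 0 := by
        rw [← Finset.sum_eq_zero_iff_of_nonneg (fun y hy => not_lt.1 (hne hy))]
        exact hc
      apply hμ0
      rw [← hμ]
      exact Finset.sum_eq_zero fun y hy => by rw [h0 y hy, zero_smul]
    obtain ⟨y₁, hy₁, hmin⟩ := Finset.exists_min_image _ (fun y => lam y / (-c y)) hneg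
    rw [Finset.mem_filter] at hy₁
    have hs : 0 < lam y₁ / (-c y₁) := div_pos (hlam _ hy₁.1) (neg_pos.2 hy₁.2)
    refine ⟨lam y₁ / (-c y₁), hs, y₁, hy₁.1, ?_⟩
    have hz : lam y₁ + lam y₁ / (-c y₁) * c y₁ = 0 := by
      have : c y₁ ≠ 0 := hy₁.2.ne
      field_simp
      ring
    rw [Finset.mem_convexHull']
    refine ⟨fun y => lam y + lam y₁ / (-c y₁) * c y, ?_, ?_, ?_⟩
    · intro y hy
      have hyt := Finset.mem_of_mem_erase hy
      by_cases hcy : c y < 0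
      · have h1 := hmin y (Finset.mem_filter.2 ⟨hyt, hcy⟩)
        rw [le_div_iff₀ (neg_pos.2 hcy)] at h1
        linarith
      · have := hlam y hyt
        have h2 : 0 ≤ lam y₁ / (-c y₁) * c y := mul_nonneg hs.le (not_lt.1 hcy)
        linarith
    · rw [← hsums (lam y₁ / (-c y₁)), ← Finset.add_sum_erase t _ hy₁.1, hz, zero_add]
    · rw [hus, ← Finset.add_sum_erase t _ hy₁.1, hz, zero_smul, zero_add]
  · have h1 : ∀ᶠ s in 𝓝 (0 : ℝ), ∀ y ∈ t, 0 < lam y + s * c y := by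
      rw [eventually_all_finset]
      intro y hy
      have h2 : Tendsto (fun s : ℝ => lam y + s * c y) (𝓝 0) (𝓝 (lam y + 0 * c y)) := by
        have : Continuous (fun s : ℝ => lam y + s * c y) := by fun_prop
        exact this.tendsto 0
      rw [zero_mul, add_zero] at h2
      exact h2.eventually (lt_mem_nhds (hlam y hy))
    filter_upwards [h1] with s hs
    rw [Finset.mem_convexHull']
    exact ⟨_, fun y hy => (hs y hy).le, hsums s, (hus s).symm⟩

end Convexity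

namespace HessData

variable {V : Type*} [NormedAddCommGroup V] [InnerProductSpace ℝ V] (X : HessData V)

lemma H_self {u : V} {τ : ℝ} (hτ : 0 < τ) (hu : τ • u ∈ X.I) : X.H (τ • u) u u = ‖u‖ ^ 2 := by
  have h1 := X.radial _ hu u
  rw [map_smul, smul_apply, smul_eq_mul, real_inner_smul_left, real_inner_self_eq_norm_sq] at h1
  exact mul_left_cancel₀ hτ.ne' h1

lemma H_split {w u : V} (hw : w ∈ X.I) {α : ℝ} {β : V} (h : u = α • w + β)
    (horth : inner ℝ w β = 0) : X.H w u u = α ^ 2 * ‖w‖ ^ 2 + X.H w β β := by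
  have h1 := X.radial w hw w
  have h2 := X.radial w hw β
  have h3 := X.symm w hw β w
  rw [real_inner_self_eq_norm_sq] at h1
  have h4 : X.H w (α • w + β) = α • X.H w w + X.H w β := by rw [map_add, map_smul]
  rw [h, h4]
  simp only [add_apply, smul_apply, map_add, map_smul, smul_eq_mul, h1, h2, h3, horth]
  ring

lemma final_contradiction {D : Set V} (hD : Convex ℝ D) {θ τ₁ : ℝ} (hθ : 0 < θ) (hθτ : θ < τ₁)
    (hDS : ∀ v ∈ D, τ₁ • v ∈ X.S) {u μ : V} {s₁ : ℝ} (hs₁ : 0 < s₁) (hu : u ∈ D)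
    (hu₁ : u + s₁ • μ ∈ D) (hnear : ∀ᶠ s in 𝓝 (0 : ℝ), u + s • μ ∈ D)
    (horth : inner ℝ u μ = 0) (hu0 : u ≠ 0) (hμ0 : μ ≠ 0) (hQ : X.Q θ τ₁ u μ = 0)
    {c₁ : ℝ} (hc₁ : ∀ᶠ τ in 𝓝[<] τ₁, c₁ ≤ X.H (τ • (u + s₁ • μ)) u u / τ) : False := by
  have hτ₁ : 0 < τ₁ := hθ.trans hθτ
  -- quadratic bound for kappa
  have hκ : ∃ C : ℝ, 0 ≤ C ∧ ∀ᶠ s in 𝓝 (0 : ℝ), X.Q θ τ₁ (u + s • μ) μ ≤ C * s ^ 2 := by
    apply nonneg_quadratic
    · have h1 := X.smoothK u θ τ₁ hθ hθτ (hDS u hu)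
      have h2 : ContDiffAt ℝ 2 (fun s : ℝ => X.K (θ • (u + s • μ)) (τ₁ • (u + s • μ))) 0 := by
        have h3 : ContDiffAt ℝ 2 (fun s : ℝ => ((θ • (u + s • μ), τ₁ • (u + s • μ)) : V × V)) 0 := by
          fun_prop
        have h4 : ContDiffAt ℝ 2 (fun r : V × V => X.K r.1 r.2)
            ((fun s : ℝ => ((θ • (u + s • μ), τ₁ • (u + s • μ)) : V × V)) 0) := by
          simp only [zero_smul, add_zero]
          exact h1.of_le ENat.LEInfty.out
        exact h4.comp (0 : ℝ) h3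
      have h5 : ContDiffAt ℝ 2 (fun s : ℝ => X.K (θ • (u + s • μ)) (τ₁ • (u + s • μ)) μ μ) 0 := by
        have h6 : ContDiffAt ℝ 2 (fun _ : ℝ => μ) 0 := contDiffAt_const
        exact (h2.clm_apply h6).clm_apply h6
      unfold Q
      exact contDiffAt_const.add (h5.div_const _)
    · simpa using hQ
    · filter_upwards [hnear] with s hs
      exact X.mid_nonneg _ _ _ hθ hθτ (hDS _ hs) μ
  obtain ⟨C, hC0, hC⟩ := hκ
  have hnu : 0 < ‖u‖ := norm_pos_iff.2 hu0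
  have hnμ : 0 < ‖μ‖ := norm_pos_iff.2 hμ0
  have hus : ∀ s : ℝ, ‖u + s • μ‖ ^ 2 = ‖u‖ ^ 2 + s ^ 2 * ‖μ‖ ^ 2 := by
    intro s
    rw [norm_add_sq_real, inner_smul_right, horth, norm_smul, mul_pow, Real.norm_eq_abs, sq_abs]
    ring
  have huspos : ∀ s : ℝ, 0 < ‖u‖ ^ 2 + s ^ 2 * ‖μ‖ ^ 2 := fun s => by positivity
  let α : ℝ → ℝ := fun s => ‖u‖ ^ 2 / (‖u‖ ^ 2 + s ^ 2 * ‖μ‖ ^ 2)
  let β : ℝ → V := fun s => u - α s • (u + s • μ)
  have hβorth : ∀ s, inner ℝ (u + s • μ) (β s) = 0 := by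
    intro s
    have h1 : inner ℝ (u + s • μ) u = ‖u‖ ^ 2 := by
      rw [inner_add_left, real_inner_self_eq_norm_sq, real_inner_smul_left, real_inner_comm, horth]
      ring
    simp only [β, α]
    rw [inner_sub_right, inner_smul_right, real_inner_self_eq_norm_sq, h1, hus]
    have := (huspos s).ne'
    field_simp
    ring
  have hβμ : ∀ s, inner ℝ (β s) μ = -(α s * s * ‖μ‖ ^ 2) := by
    intro s
    simp only [β]
    rw [inner_sub_left, real_inner_smul_left, inner_add_left, real_inner_smul_left,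
      real_inner_self_eq_norm_sq, horth]
    ring
  -- main inequality for small positive s
  have main : ∀ ε : ℝ, 0 < ε → ∀ᶠ s in 𝓝[>] (0 : ℝ),
      (1 - s / s₁) * ‖u‖ ^ 2 / τ₁ + s / s₁ * c₁ - α s ^ 2 * (‖u‖ ^ 2 + s ^ 2 * ‖μ‖ ^ 2) / τ₁ ≤
        X.H (θ • (u + s • μ)) (β s) (β s) / θ - 2 * ε * α s * ‖μ‖ ^ 2 / θ + ε ^ 2 * C := by
    intro ε hε
    have e1 : ∀ᶠ s in 𝓝[>] (0 : ℝ), s < s₁ :=
      (lt_mem_nhds (α := ℝᵒᵈ) hs₁ : ∀ᶠ s in 𝓝 (0 : ℝ), s < s₁).filter_mono nhdsWithin_le_nhds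
    filter_upwards [self_mem_nhdsWithin, e1, hC.filter_mono nhdsWithin_le_nhds] with s hs hss hCs
    have hs0 : 0 < s := hs
    have hmem : u + s • μ ∈ D := by
      have h1 := hD hu hu₁ (a := 1 - s / s₁) (b := s / s₁)
        (by have : s / s₁ ≤ 1 := (div_le_one hs₁).2 hss.le
            linarith) (by positivity) (by ring)
      have h2 : (1 - s / s₁) • u + (s / s₁) • (u + s₁ • μ) = u + s • μ := by
        rw [smul_add, smul_smul, div_mul_cancel₀ _ hs₁.ne', sub_smul, one_smul]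
        abel
      rwa [h2] at h1
    have key := X.key_limit hθ hθτ (hDS _ hmem) (β s) ((-(ε / s)) • μ)
      (c := fun τ => (1 - s / s₁) * ‖u‖ ^ 2 / τ + s / s₁ * c₁ -
        α s ^ 2 * (‖u‖ ^ 2 + s ^ 2 * ‖μ‖ ^ 2) / τ)
      (c₀ := (1 - s / s₁) * ‖u‖ ^ 2 / τ₁ + s / s₁ * c₁ -
        α s ^ 2 * (‖u‖ ^ 2 + s ^ 2 * ‖μ‖ ^ 2) / τ₁) ?_ ?_
    · refine key.trans ?_
      rw [Q_smul, inner_smul_right, hβμ]
      have h3 : 2 * (-(ε / s) * -(α s * s * ‖μ‖ ^ 2)) / θ = 2 * ε * α s * ‖μ‖ ^ 2 / θ := by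
        field_simp
      have h4 : (-(ε / s)) ^ 2 * X.Q θ τ₁ (u + s • μ) μ ≤ ε ^ 2 * C := by
        calc (-(ε / s)) ^ 2 * X.Q θ τ₁ (u + s • μ) μ ≤ (-(ε / s)) ^ 2 * (C * s ^ 2) := by gcongr
          _ = ε ^ 2 * C := by field_simp
      rw [h3]
      linarith
    · have hid : Tendsto (fun τ : ℝ => τ) (𝓝[<] τ₁) (𝓝 τ₁) := nhdsWithin_le_nhds
      exact ((tendsto_const_nhds.div hid hτ₁.ne').add tendsto_const_nhds).sub
        (tendsto_const_nhds.div hid hτ₁.ne')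
    · have e2 : ∀ᶠ τ in 𝓝[<] τ₁, θ < τ :=
        (lt_mem_nhds hθτ : ∀ᶠ τ in 𝓝 τ₁, θ < τ).filter_mono nhdsWithin_le_nhds
      filter_upwards [hc₁, e2, self_mem_nhdsWithin] with τ hτa hτb hτc
      have hτ0 : 0 < τ := hθ.trans hτb
      have hin : ∀ v ∈ D, τ • v ∈ X.I := fun v hv => X.smul_mem' (hDS v hv) hτ0.le hτc
      have hconc := X.concave ((fun v => τ • v) '' D) (hD.smul τ)
        (by rintro _ ⟨v, hv, rfl⟩; exact hin v hv) (τ • u) u
      have hm0 : τ • u ∈ ((fun v => τ • v) '' D) ∩ {v | inner ℝ (v - τ • u) u = 0} :=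
        ⟨⟨u, hu, rfl⟩, by simp⟩
      have hm1 : τ • (u + s₁ • μ) ∈ ((fun v => τ • v) '' D) ∩ {v | inner ℝ (v - τ • u) u = 0} := by
        refine ⟨⟨_, hu₁, rfl⟩, ?_⟩
        simp only [Set.mem_ofPred_eq]
        rw [smul_add, add_sub_cancel_left, real_inner_smul_left, real_inner_smul_left,
          real_inner_comm, horth]
        ring
      have hr1 : 0 ≤ 1 - s / s₁ := by
        have : s / s₁ ≤ 1 := (div_le_one hs₁).2 hss.le
        linarith
      have hr2 : 0 ≤ s / s₁ := by positivity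
      have h5 := hconc.2 hm0 hm1 hr1 hr2 (by ring)
      have h6 : (1 - s / s₁) • (τ • u) + (s / s₁) • (τ • (u + s₁ • μ)) = τ • (u + s • μ) := by
        rw [smul_comm (1 - s / s₁) τ, smul_comm (s / s₁) τ, ← smul_add]
        congr 1
        rw [smul_add, smul_smul, div_mul_cancel₀ _ hs₁.ne', sub_smul, one_smul]
        abel
      simp only [h6, smul_eq_mul] at h5
      rw [X.H_self hτ0 (hin u hu)] at h5
      have h7 := X.H_split (hin _ hmem) (u := u) (α := α s / τ) (β := β s)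
        (by simp only [β]; rw [smul_smul, div_mul_cancel₀ _ hτ0.ne']; abel)
        (by rw [real_inner_smul_left, hβorth, mul_zero])
      rw [norm_smul, mul_pow, Real.norm_eq_abs, sq_abs, hus] at h7
      rw [le_div_iff₀ hτ0] at hτa ⊢
      have h8 : (α s / τ) ^ 2 * (τ ^ 2 * (‖u‖ ^ 2 + s ^ 2 * ‖μ‖ ^ 2)) =
          α s ^ 2 * (‖u‖ ^ 2 + s ^ 2 * ‖μ‖ ^ 2) := by field_simp
      have h9 : ((1 - s / s₁) * ‖u‖ ^ 2 / τ + s / s₁ * c₁ -
        α s ^ 2 * (‖u‖ ^ 2 + s ^ 2 * ‖μ‖ ^ 2) / τ) * τ = (1 - s / s₁) * ‖u‖ ^ 2 + s / s₁ * (c₁ * τ)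
          - α s ^ 2 * (‖u‖ ^ 2 + s ^ 2 * ‖μ‖ ^ 2) := by field_simp
      rw [h8] at h7
      rw [h9]
      have h10 : s / s₁ * (c₁ * τ) ≤ s / s₁ * X.H (τ • (u + s₁ • μ)) u u := by gcongr
      linarith
  -- let s tend to zero
  have hαlim : Tendsto α (𝓝[>] 0) (𝓝 1) := by
    have h1 : Tendsto α (𝓝 0) (𝓝 (α 0)) := by
      have : Continuous α := by
        simp only [α]
        refine Continuous.div (by fun_prop) (by fun_prop) (fun s => (huspos s).ne')
      exact this.tendsto 0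
    have h2 : α 0 = 1 := by
      simp only [α]
      field_simp
      ring
    rw [h2] at h1
    exact h1.mono_left nhdsWithin_le_nhds
  have hid : Tendsto (fun s : ℝ => s) (𝓝[>] 0) (𝓝 0) := nhdsWithin_le_nhds
  have hβlim : Tendsto β (𝓝[>] 0) (𝓝 0) := by
    have h1 : Tendsto β (𝓝[>] 0) (𝓝 (u - (1 : ℝ) • (u + (0 : ℝ) • μ))) :=
      tendsto_const_nhds.sub (hαlim.smul (tendsto_const_nhds.add (hid.smul tendsto_const_nhds)))
    simpa using h1
  have hHlim : Tendsto (fun s => X.H (θ • (u + s • μ)) (β s) (β s)) (𝓝[>] 0) (𝓝 0) := by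
    have h1 : Tendsto (fun s : ℝ => X.H (θ • (u + s • μ))) (𝓝[>] 0) (𝓝 (X.H (θ • u))) := by
      have h2 : Tendsto (fun s : ℝ => θ • (u + s • μ)) (𝓝[>] 0) (𝓝 (θ • u)) := by
        have : Tendsto (fun s : ℝ => θ • (u + s • μ)) (𝓝[>] 0) (𝓝 (θ • (u + (0 : ℝ) • μ))) :=
          tendsto_const_nhds.smul (tendsto_const_nhds.add (hid.smul tendsto_const_nhds))
        simpa using this
      exact (X.contH _ (X.smul_mem' (hDS u hu) hθ.le hθτ)).tendsto.comp h2
    have h3 : Tendsto (fun s => X.H (θ • (u + s • μ)) (β s)) (𝓝[>] 0) (𝓝 (X.H (θ • u) 0)) :=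
      (isBoundedBilinearMap_apply.continuous.tendsto (X.H (θ • u), (0 : V))).comp
        (h1.prodMk_nhds hβlim)
    have h4 : Tendsto (fun s => X.H (θ • (u + s • μ)) (β s) (β s)) (𝓝[>] 0)
        (𝓝 (X.H (θ • u) 0 0)) :=
      (isBoundedBilinearMap_apply.continuous.tendsto (X.H (θ • u) 0, (0 : V))).comp
        (h3.prodMk_nhds hβlim)
    simpa using h4
  have a0 : 0 < ‖μ‖ ^ 2 / θ := by positivity
  set ε : ℝ := ‖μ‖ ^ 2 / θ / (C + 1) with hε
  have hε0 : 0 < ε := by positivity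
  have hL : Tendsto (fun s : ℝ => (1 - s / s₁) * ‖u‖ ^ 2 / τ₁ + s / s₁ * c₁ -
      α s ^ 2 * (‖u‖ ^ 2 + s ^ 2 * ‖μ‖ ^ 2) / τ₁) (𝓝[>] 0)
      (𝓝 ((1 - 0 / s₁) * ‖u‖ ^ 2 / τ₁ + 0 / s₁ * c₁ -
      1 ^ 2 * (‖u‖ ^ 2 + 0 ^ 2 * ‖μ‖ ^ 2) / τ₁)) := by
    have hs1 : Tendsto (fun s : ℝ => s / s₁) (𝓝[>] 0) (𝓝 (0 / s₁)) := hid.div_const _
    refine ((((tendsto_const_nhds.sub hs1).mul tendsto_const_nhds).div_const _).add
      (hs1.mul tendsto_const_nhds)).sub (((hαlim.pow 2).mul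
        (tendsto_const_nhds.add ((hid.pow 2).mul tendsto_const_nhds))).div_const _)
  have hR : Tendsto (fun s : ℝ => X.H (θ • (u + s • μ)) (β s) (β s) / θ -
      2 * ε * α s * ‖μ‖ ^ 2 / θ + ε ^ 2 * C) (𝓝[>] 0)
      (𝓝 (0 / θ - 2 * ε * 1 * ‖μ‖ ^ 2 / θ + ε ^ 2 * C)) := by
    refine ((hHlim.div_const _).sub ?_).add tendsto_const_nhds
    exact ((tendsto_const_nhds.mul hαlim).mul tendsto_const_nhds).div_const _
  have hfin := le_of_tendsto_of_tendsto hL hR (main ε hε0)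
  have h1 : (1 - 0 / s₁) * ‖u‖ ^ 2 / τ₁ + 0 / s₁ * c₁ -
      1 ^ 2 * (‖u‖ ^ 2 + 0 ^ 2 * ‖μ‖ ^ 2) / τ₁ = 0 := by
    ring
  have h2 : 0 / θ - 2 * ε * 1 * ‖μ‖ ^ 2 / θ + ε ^ 2 * C < 0 := by
    have h3 : 0 / θ - 2 * ε * 1 * ‖μ‖ ^ 2 / θ + ε ^ 2 * C = ε * (ε * C - 2 * (‖μ‖ ^ 2 / θ)) := by
      ring
    rw [h3]
    apply mul_neg_of_pos_of_neg hε0
    have h4 : ε * C ≤ ‖μ‖ ^ 2 / θ := by
      rw [hε, div_mul_eq_mul_div, div_le_iff₀ (by positivity)]
      nlinarith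
    linarith
  rw [h1] at hfin
  linarith

/-- The bilinear form of the two-piece functional. -/
noncomputable def B (θ τ : ℝ) (w : V) : V →L[ℝ] V →L[ℝ] ℝ :=
  (1 / (τ - θ)) • X.K (θ • w) (τ • w)

lemma B_apply (θ τ : ℝ) (w μ : V) : 1 / θ * ‖μ‖ ^ 2 + X.B θ τ w μ μ = X.Q θ τ w μ := by
  simp only [B, Q, smul_apply, smul_eq_mul]
  ring

lemma tendsto_B {w : V} {θ τ₁ : ℝ} (hθ : 0 < θ) (hθτ : θ < τ₁) (hw : τ₁ • w ∈ X.S) :
    Tendsto (fun τ => X.B θ τ w) (𝓝[<] τ₁) (𝓝 (X.B θ τ₁ w)) := by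
  have hcont := (X.smoothK w θ τ₁ hθ hθτ hw).continuousAt
  have h1 : Tendsto (fun τ : ℝ => X.K (θ • w) (τ • w)) (𝓝[<] τ₁) (𝓝 (X.K (θ • w) (τ₁ • w))) := by
    have h2 : Tendsto (fun τ : ℝ => (θ • w, τ • w)) (𝓝[<] τ₁) (𝓝 (θ • w, τ₁ • w)) := by
      have : Continuous (fun τ : ℝ => (θ • w, τ • w)) := by fun_prop
      exact (this.tendsto τ₁).mono_left nhdsWithin_le_nhds
    exact hcont.tendsto.comp h2
  have hid : Tendsto (fun τ : ℝ => 1 / (τ - θ)) (𝓝[<] τ₁) (𝓝 (1 / (τ₁ - θ))) := by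
    have : Tendsto (fun τ : ℝ => τ - θ) (𝓝[<] τ₁) (𝓝 (τ₁ - θ)) :=
      (tendsto_id.sub tendsto_const_nhds).mono_left nhdsWithin_le_nhds
    exact tendsto_const_nhds.div this (sub_pos.2 hθτ).ne'
  exact hid.smul h1

/-- Lower bound of the Hessian when the two-piece form is positive definite. -/
lemma lower_of_pos [FiniteDimensional ℝ V] {w : V} {θ τ₁ : ℝ} (hθ : 0 < θ) (hθτ : θ < τ₁)
    (hw : τ₁ • w ∈ X.S) (hpos : ∀ μ, μ ≠ 0 → 0 < X.Q θ τ₁ w μ) (ξ : V) :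
    ∃ c : ℝ, ∀ᶠ τ in 𝓝[<] τ₁, c ≤ X.H (τ • w) ξ ξ / τ := by
  obtain ⟨κ, hκ, h⟩ := coercive_nhds (1 / θ) (X.B θ τ₁ w) (fun μ hμ => by
    rw [B_apply]; exact hpos μ hμ)
  have h1 := (X.tendsto_B hθ hθτ hw).eventually h
  have e2 : ∀ᶠ τ in 𝓝[<] τ₁, θ < τ :=
    (lt_mem_nhds hθτ : ∀ᶠ τ in 𝓝 τ₁, θ < τ).filter_mono nhdsWithin_le_nhds
  refine ⟨X.H (θ • w) ξ ξ / θ - ‖ξ‖ ^ 2 / (θ ^ 2 * κ), ?_⟩
  filter_upwards [h1, e2, self_mem_nhdsWithin] with τ ha hb hc
  refine X.lower w θ τ κ hθ hb (X.smul_mem' hw (hθ.trans hb).le hc) hκ ?_ ξ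
  intro μ
  have := ha μ
  rwa [B_apply] at this

/-- Step B. -/
theorem Q_pos [FiniteDimensional ℝ V] {W : Set V} {θ τ₁ : ℝ} (hθ : 0 < θ) (hθτ : θ < τ₁)
    (hτ₁ : τ₁ < 1) (hWS : W ⊆ X.S) (hWI : ∀ v ∈ convexHull ℝ W, τ₁ • v ∈ X.S)
    (t : Finset V) (ht : (t : Set V) ⊆ W) :
    ∀ u ∈ convexHull ℝ (t : Set V), ∀ μ, μ ≠ 0 → 0 < X.Q θ τ₁ u μ := by
  classical
  induction t using Finset.strongInduction with
  | H t ih =>
  have hτ0 : 0 < τ₁ := hθ.trans hθτ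
  intro u hu μ₀ hμ₀
  have hD : Convex ℝ (convexHull ℝ (t : Set V)) := convex_convexHull ℝ _
  have hDS : ∀ v ∈ convexHull ℝ (t : Set V), τ₁ • v ∈ X.S := fun v hv =>
    hWI v (convexHull_mono ht hv)
  obtain ⟨lam, hlam0, hlam1, hlamu⟩ := Finset.mem_convexHull'.1 hu
  by_cases hall : ∀ y ∈ t, 0 < lam y
  swap
  · push Not at hall
    obtain ⟨y, hy, hly⟩ := hall
    have hly0 : lam y = 0 := le_antisymm hly (hlam0 y hy)
    refine ih (t.erase y) (Finset.erase_ssubset hy)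
      (fun a ha => ht (Finset.mem_of_mem_erase ha)) u ?_ μ₀ hμ₀
    rw [Finset.mem_convexHull']
    refine ⟨lam, fun a ha => hlam0 a (Finset.mem_of_mem_erase ha), ?_, ?_⟩
    · rw [← hlam1, ← Finset.add_sum_erase t _ hy, hly0, zero_add]
    · rw [← hlamu, ← Finset.add_sum_erase t _ hy, hly0, zero_smul, zero_add]
  by_cases huI : τ₁ • u ∈ X.I
  · exact X.mid_pos u θ τ₁ hθ hθτ huI μ₀ hμ₀
  have hne : t.Nonempty := by
    rw [Finset.nonempty_iff_ne_empty]
    rintro rfl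
    simp at hlam1
  obtain ⟨y₀, hy₀⟩ := hne
  have hu0 : u ≠ 0 := by
    rintro rfl
    apply huI
    rw [smul_zero]
    have := X.smul_mem y₀ (hWS (ht hy₀)) 0 le_rfl one_pos
    rwa [zero_smul] at this
  by_contra hcon
  have hQ : X.Q θ τ₁ u μ₀ = 0 := le_antisymm (not_lt.1 hcon)
    (X.mid_nonneg u θ τ₁ hθ hθτ (hDS u hu) μ₀)
  have e2 : ∀ᶠ τ in 𝓝[<] τ₁, θ < τ :=
    (lt_mem_nhds hθτ : ∀ᶠ τ in 𝓝 τ₁, θ < τ).filter_mono nhdsWithin_le_nhds
  -- directions orthogonal to the differences of vertices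
  have hB2 : ∀ ξ : V, (∀ y ∈ t, inner ℝ (y - y₀) ξ = 0) → inner ℝ ξ μ₀ = 0 := by
    intro ξ hξ
    refine X.orth_of_bounded hθ hθτ (hDS u hu) hQ
      (∑ y ∈ t, lam y * (X.H (τ₁ • y) ξ ξ / τ₁)) ?_
    filter_upwards [e2, self_mem_nhdsWithin] with τ ha hb
    have hb' : τ < τ₁ := hb
    have hτ' : 0 < τ := hθ.trans ha
    have hin : ∀ v ∈ convexHull ℝ (t : Set V), τ • v ∈ X.I :=
      fun v hv => X.smul_mem' (hDS v hv) hτ'.le hb
    have hconc := X.concave ((fun v => τ • v) '' convexHull ℝ (t : Set V)) (hD.smul τ)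
      (by rintro _ ⟨v, hv, rfl⟩; exact hin v hv) (τ • y₀) ξ
    have h1 := hconc.le_map_sum (t := t) (w := lam) (p := fun y => τ • y) hlam0 hlam1
      (fun y hy => ⟨⟨y, subset_convexHull ℝ _ hy, rfl⟩, by
        simp only [Set.mem_ofPred_eq]
        rw [← smul_sub, real_inner_smul_left, hξ y hy, mul_zero]⟩)
    have h2 : ∑ y ∈ t, lam y • (τ • y) = τ • u := by
      rw [← hlamu, Finset.smul_sum]
      exact Finset.sum_congr rfl fun y _ => smul_comm _ _ _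
    simp only [h2, smul_eq_mul] at h1
    rw [le_div_iff₀ hτ', Finset.sum_mul]
    refine le_trans (Finset.sum_le_sum fun y hy => ?_) h1
    rw [mul_assoc]
    refine mul_le_mul_of_nonneg_left ?_ (hlam0 y hy)
    rw [← le_div_iff₀ hτ']
    by_cases hξ0 : ξ = 0
    · simp [hξ0]
    · exact (X.strict y τ τ₁ hτ' hb' (X.smul_mem y (hWS (ht hy)) τ₁ hτ0.le hτ₁) ξ hξ0).le
  obtain ⟨c, hc0, hcμ⟩ := exists_coeff t hy₀ hB2
  obtain ⟨⟨s₁, hs₁, y₁, hy₁, hu₁⟩, hnear⟩ := exists_exit t hall hlam1 hlamu hc0 hcμ hμ₀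
  have hu₁' : u + s₁ • μ₀ ∈ convexHull ℝ (t : Set V) :=
    convexHull_mono (by exact_mod_cast Finset.erase_subset y₁ t) hu₁
  have hpos₁ : ∀ μ, μ ≠ 0 → 0 < X.Q θ τ₁ (u + s₁ • μ₀) μ :=
    ih (t.erase y₁) (Finset.erase_ssubset hy₁) (fun a ha => ht (Finset.mem_of_mem_erase ha))
      _ hu₁
  obtain ⟨c₁, hc₁⟩ := X.lower_of_pos hθ hθτ (hDS _ hu₁') hpos₁ u
  have horth : inner ℝ u μ₀ = 0 := by
    refine X.orth_of_bounded hθ hθτ (hDS u hu) hQ (‖u‖ ^ 2 / τ₁) ?_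
    filter_upwards [e2, self_mem_nhdsWithin] with τ ha hb
    have hb' : τ < τ₁ := hb
    have hτ' : 0 < τ := hθ.trans ha
    rw [X.H_self hτ' (X.smul_mem' (hDS u hu) hτ'.le hb)]
    gcongr
  exact X.final_contradiction hD hθ hθτ hDS hs₁ hu hu₁' hnear horth hu0 hμ₀ hQ hc₁

end HessData

end Vale.Agent.P234
end
end

section

section

/-! Envelope lemma: the value of a nondegenerate critical point depends smoothly on parameters. -/

set_option maxSynthPendingDepth 3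

open Set Filter
open scoped ContDiff Topology

namespace Vale.Agent.P234

noncomputable section

variable {P W : Type*} [NormedAddCommGroup P] [NormedSpace ℝ P] [CompleteSpace P]
  [NormedAddCommGroup W] [NormedSpace ℝ W]

/-- The implicit function theorem with smoothness in a neighbourhood. -/
lemma implicit_eventually [CompleteSpace W] {Z : Type*} [NormedAddCommGroup Z] [NormedSpace ℝ Z]
    [CompleteSpace Z] {F : P × W → Z} {u : P × W} (hF : ∀ᶠ q in 𝓝 u, ContDiffAt ℝ ∞ F q)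
    (hi : (fderiv ℝ F u ∘L .inr ℝ P W).IsInvertible) :
    ∃ ψ : P → W, ψ u.1 = u.2 ∧ (∀ᶠ p in 𝓝 u.1, ContDiffAt ℝ ∞ ψ p) ∧
      ∀ᶠ v in 𝓝 u, F v = F u ↔ ψ v.1 = v.2 := by
  have h0 : ContDiffAt ℝ ∞ F u := hF.self_of_nhds
  have hn : (∞ : WithTop ℕ∞) ≠ 0 := by simp
  set ψ := h0.implicitFunction hn hi with hψ
  have hψu : ψ u.1 = u.2 := h0.implicitFunction_apply_self hn hi
  have hsm : ContDiffAt ℝ ∞ ψ u.1 := h0.contDiffAt_implicitFunction hn hi
  have hiff : ∀ᶠ v in 𝓝 u, F v = F u ↔ ψ v.1 = v.2 :=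
    h0.eventually_apply_eq_iff_implicitFunction hn hi
  refine ⟨ψ, hψu, ?_, hiff⟩
  -- continuity near `u.1`
  have hc1 : ∀ᶠ p in 𝓝 u.1, ContDiffAt ℝ 1 ψ p :=
    (hsm.of_le (by simp)).eventually (by simp)
  have happ : ∀ᶠ p in 𝓝 u.1, F (p, ψ p) = F u := h0.eventually_apply_implicitFunction hn hi
  have hgt : Tendsto (fun p => (p, ψ p)) (𝓝 u.1) (𝓝 u) := by
    have : Tendsto (fun p => (p, ψ p)) (𝓝 u.1) (𝓝 (u.1, ψ u.1)) :=
      (continuousAt_id.prodMk hsm.continuousAt)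
    rwa [hψu] at this
  have hinv : ∀ᶠ q in 𝓝 u, (fderiv ℝ F q ∘L .inr ℝ P W).IsInvertible := by
    have hcont : ContinuousAt (fun q => fderiv ℝ F q ∘L .inr ℝ P W) u := by
      have h1 : ContinuousAt (fderiv ℝ F) u :=
        (h0.fderiv_right (m := 0) (by simp)).continuousAt
      exact h1.clm_comp continuousAt_const
    obtain ⟨L, hL⟩ := hi
    have hnh := L.nhds
    rw [hL] at hnh
    filter_upwards [hcont hnh] with q hq
    obtain ⟨L', hL'⟩ := hq
    exact ⟨L', hL'⟩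
  filter_upwards [hc1.eventually_nhds, happ.eventually_nhds, hgt.eventually hF.eventually_nhds,
    hgt.eventually hinv] with p hp1 hp2 hp3 hp4
  have h0' : ContDiffAt ℝ ∞ F (p, ψ p) := hp3.self_of_nhds
  set ψ' := h0'.implicitFunction hn hp4 with hψ'
  have hsm' : ContDiffAt ℝ ∞ ψ' p := h0'.contDiffAt_implicitFunction hn hp4
  have hiff' : ∀ᶠ v in 𝓝 (p, ψ p), F v = F (p, ψ p) ↔ ψ' v.1 = v.2 :=
    h0'.eventually_apply_eq_iff_implicitFunction hn hp4
  have hgt' : Tendsto (fun p' => (p', ψ p')) (𝓝 p) (𝓝 (p, ψ p)) :=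
    (continuousAt_id.prodMk hp1.self_of_nhds.continuousAt)
  have heq : ψ =ᶠ[𝓝 p] ψ' := by
    filter_upwards [hgt'.eventually hiff', hp2] with p' h1 h2
    rw [h2, hp2.self_of_nhds] at h1
    exact (h1.1 rfl).symm
  exact hsm'.congr_of_eventuallyEq heq

/-- Envelope lemma. -/
lemma envelope [FiniteDimensional ℝ W] {G : P × W → ℝ} {p₀ : P} {b₀ : W}
    (hG : ∀ᶠ q in 𝓝 (p₀, b₀), ContDiffAt ℝ ∞ G q)
    (hcrit : fderiv ℝ (fun b => G (p₀, b)) b₀ = 0)
    (hpos : ∀ ξ : W, ξ ≠ 0 → hess (fun b => G (p₀, b)) b₀ ξ ξ ≠ 0)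
    {f : P → ℝ} (hf : ∀ U ∈ 𝓝 b₀, ∀ᶠ p in 𝓝 p₀, ∃ b ∈ U,
      fderiv ℝ (fun b' => G (p, b')) b = 0 ∧ f p = G (p, b)) :
    ∀ᶠ p in 𝓝 p₀, ContDiffAt ℝ ∞ f p := by
  haveI : CompleteSpace W := FiniteDimensional.complete ℝ W
  set F : P × W → (W →L[ℝ] ℝ) := fun q => fderiv ℝ G q ∘L .inr ℝ P W with hFdef
  have hF : ∀ᶠ q in 𝓝 (p₀, b₀), ContDiffAt ℝ ∞ F q := by
    filter_upwards [hG] with q hq
    have h1 : ContDiffAt ℝ ∞ (fderiv ℝ G) q := hq.fderiv_right (by simp)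
    exact h1.clm_comp contDiffAt_const
  have hFeq : ∀ q : P × W, ContDiffAt ℝ ∞ G q →
      HasFDerivAt (fun b => G (q.1, b)) (F q) q.2 := by
    intro q hq
    have h1 : HasFDerivAt G (fderiv ℝ G q) (q.1, q.2) :=
      (hq.differentiableAt (by simp)).hasFDerivAt
    have h2 : HasFDerivAt (fun b : W => (q.1, b)) (.inr ℝ P W) q.2 := hasFDerivAt_prodMk_right _ _
    exact h1.comp q.2 h2
  have h0 := hG.self_of_nhds
  have hF0 : F (p₀, b₀) = 0 := by
    have := hFeq (p₀, b₀) h0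
    rw [← hcrit]; exact this.fderiv.symm
  -- second derivative
  have hsec : fderiv ℝ F (p₀, b₀) ∘L .inr ℝ P W = hess (fun b => G (p₀, b)) b₀ := by
    have h1 : HasFDerivAt F (fderiv ℝ F (p₀, b₀)) (p₀, b₀) :=
      (hF.self_of_nhds.differentiableAt (by simp)).hasFDerivAt
    have h2 : HasFDerivAt (fun b : W => (p₀, b)) (.inr ℝ P W) b₀ := hasFDerivAt_prodMk_right _ _
    have h3 : HasFDerivAt (fun b => F (p₀, b)) (fderiv ℝ F (p₀, b₀) ∘L .inr ℝ P W) b₀ :=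
      HasFDerivAt.comp (g := F) b₀ h1 h2
    have hcont : Tendsto (fun b : W => (p₀, b)) (𝓝 b₀) (𝓝 (p₀, b₀)) := by
      exact (continuousAt_const.prodMk continuousAt_id)
    have h4 : (fun b => F (p₀, b)) =ᶠ[𝓝 b₀] fderiv ℝ (fun b => G (p₀, b)) := by
      filter_upwards [hcont.eventually hG] with b hb
      exact (hFeq _ hb).fderiv.symm
    unfold hess
    rw [← h4.fderiv_eq]
    exact h3.fderiv.symm
  have hinj : Function.Injective (fderiv ℝ F (p₀, b₀) ∘L .inr ℝ P W) := by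
    rw [hsec]
    intro a b hab
    by_contra hne
    apply hpos (a - b) (sub_ne_zero.2 hne)
    have : hess (fun b => G (p₀, b)) b₀ (a - b) = 0 := by rw [map_sub, hab, sub_self]
    rw [this]; rfl
  have hinv : (fderiv ℝ F (p₀, b₀) ∘L .inr ℝ P W).IsInvertible := by
    have hfr : Module.finrank ℝ W = Module.finrank ℝ (W →L[ℝ] ℝ) := by
      rw [← (LinearMap.toContinuousLinearMap (𝕜 := ℝ) (E := W) (F' := ℝ)).finrank_eq]
      exact (Subspace.dual_finrank_eq (K := ℝ) (V := W)).symm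
    let L := LinearEquiv.ofInjectiveOfFinrankEq
      (fderiv ℝ F (p₀, b₀) ∘L .inr ℝ P W : W →L[ℝ] (W →L[ℝ] ℝ)).toLinearMap hinj hfr
    exact ⟨L.toContinuousLinearEquiv, by ext; rfl⟩
  obtain ⟨ψ, hψ0, hψs, hψiff⟩ := implicit_eventually hF hinv
  simp only at hψ0 hψs
  have hgt : Tendsto (fun p => (p, ψ p)) (𝓝 p₀) (𝓝 (p₀, b₀)) := by
    have : Tendsto (fun p => (p, ψ p)) (𝓝 p₀) (𝓝 (p₀, ψ p₀)) :=
      (continuousAt_id.prodMk hψs.self_of_nhds.continuousAt)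
    rwa [hψ0] at this
  -- neighbourhoods
  have hboth := (hψiff.and hG)
  rw [nhds_prod_eq] at hboth
  obtain ⟨U₁, hU₁, U₂, hU₂, hUU⟩ := Filter.eventually_prod_iff.1 hboth
  have hfeq : f =ᶠ[𝓝 p₀] fun p => G (p, ψ p) := by
    filter_upwards [hf {b | U₂ b} hU₂, hU₁] with p hp hp1
    obtain ⟨b, hb, hb1, hb2⟩ := hp
    obtain ⟨h1, h2⟩ := hUU hp1 hb
    have h3 : F (p, b) = F (p₀, b₀) := by
      rw [hF0, ← hb1]; exact (hFeq _ h2).fderiv.symm
    rw [hb2, h1.1 h3]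
  have hsm : ∀ᶠ p in 𝓝 p₀, ContDiffAt ℝ ∞ (fun p => G (p, ψ p)) p := by
    filter_upwards [hψs, hgt.eventually hG] with p h1 h2
    exact ContDiffAt.comp p h2 (contDiffAt_id.prodMk h1)
  filter_upwards [hfeq.eventually_nhds, hsm] with p h1 h2
  exact h2.congr_of_eventuallyEq h1

end

end Vale.Agent.P234
end
end

section

section

/-! Interface between the foundation layer and the main argument. -/

set_option maxSynthPendingDepth 3

open Bundle Manifold Set Filter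
open scoped ContDiff Manifold Topology

namespace Vale.Agent.P234

noncomputable section

variable {E : Type*} [NormedAddCommGroup E] [NormedSpace ℝ E]
  {M : Type*} [MetricSpace M] [ChartedSpace E M]

instance finDimTangent [FiniteDimensional ℝ E] (z : M) :
    FiniteDimensional ℝ (TangentSpace 𝓘(ℝ, E) z) :=
  inferInstanceAs (FiniteDimensional ℝ E)

/-- `cost` is smooth in a neighbourhood of the pair `(x, y)`. -/
def SmoothAt (E : Type*) [NormedAddCommGroup E] [NormedSpace ℝ E]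
    {M : Type*} [MetricSpace M] [ChartedSpace E M] (x y : M) : Prop :=
  ∀ᶠ p in 𝓝 (x, y),
    ContMDiffAt (𝓘(ℝ, E).prod 𝓘(ℝ, E)) 𝓘(ℝ, ℝ) ∞ (fun p : M × M => cost p.1 p.2) p

omit [MetricSpace M] [ChartedSpace E M] in
lemma SmoothAt.contMDiffAt {M : Type*} [MetricSpace M] [ChartedSpace E M] {x y : M}
    (h : SmoothAt E x y) :
    ContMDiffAt (𝓘(ℝ, E).prod 𝓘(ℝ, E)) 𝓘(ℝ, ℝ) ∞ (fun p : M × M => cost p.1 p.2) (x, y) :=
  h.self_of_nhds

variable [RiemannianBundle (fun x : M => TangentSpace 𝓘(ℝ, E) x)]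

/-- The set of minimizing tangent vectors at `x` (closure of the injectivity domain). -/
def segMin (e : ∀ x : M, TangentSpace 𝓘(ℝ, E) x → M) (x : M) :
    Set (TangentSpace 𝓘(ℝ, E) x) :=
  {v | dist x (e x v) = ‖v‖}

/-- The classical facts about the exponential map used by the main argument. -/
structure Facts [IsManifold 𝓘(ℝ, E) ∞ M] (e : ∀ x : M, TangentSpace 𝓘(ℝ, E) x → M) : Prop where
  isExp : IsExp e
  hopfRinow : ∀ x y : M, ∃ v : TangentSpace 𝓘(ℝ, E) x, e x v = y ∧ dist x y = ‖v‖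
  flow : ∀ (x : M) (v : TangentSpace 𝓘(ℝ, E) x) (s : ℝ),
    ∃ w : TangentSpace 𝓘(ℝ, E) (e x (s • v)), ‖w‖ = ‖v‖ ∧
      ∀ t : ℝ, e (e x (s • v)) (t • w) = e x ((s + t) • v)
  smooth_cost : ∀ (x : M) (v : TangentSpace 𝓘(ℝ, E) x), v ∈ injDomain e x →
    SmoothAt E x (e x v)

end

end Vale.Agent.P234
end
end

section

section

/-! Basic metric facts from `IsExp` only. -/

set_option maxSynthPendingDepth 3

open Bundle Manifold Set Filter
open scoped ContDiff Manifold Topology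

namespace Vale.Agent.P234

noncomputable section

section costs

variable {M : Type*} [MetricSpace M]

lemma cost_comm (x y : M) : cost x y = cost y x := by
  unfold cost
  rw [dist_comm]

lemma cost_nonneg (x y : M) : 0 ≤ cost x y := by
  unfold cost
  positivity

lemma cost_ineq (x m y : M) {s t : ℝ} (hs : 0 < s) (ht : 0 < t) :
    cost x y / (s + t) ≤ cost x m / s + cost m y / t := by
  unfold cost
  have h1 : dist x y ≤ dist x m + dist m y := dist_triangle x m y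
  have h2 : dist x y ^ 2 ≤ (dist x m + dist m y) ^ 2 :=
    pow_le_pow_left₀ dist_nonneg h1 2
  have h3 : (dist x m + dist m y) ^ 2 / 2 / (s + t) ≤
      dist x m ^ 2 / 2 / s + dist m y ^ 2 / 2 / t := by
    rw [div_add_div _ _ hs.ne' ht.ne', div_le_div_iff₀ (by positivity) (by positivity)]
    nlinarith [sq_nonneg (dist x m * t - dist m y * s)]
  refine le_trans ?_ h3
  gcongr

lemma continuous_cost : Continuous (fun p : M × M => cost p.1 p.2) := by
  unfold cost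
  fun_prop

end costs

variable {E : Type*} [NormedAddCommGroup E] [NormedSpace ℝ E]
  {M : Type*} [MetricSpace M] [ChartedSpace E M]
  [RiemannianBundle (fun x : M => TangentSpace 𝓘(ℝ, E) x)]
  [IsManifold 𝓘(ℝ, E) ∞ M]
  {e : ∀ x : M, TangentSpace 𝓘(ℝ, E) x → M}

lemma dist_exp_le (he : IsExp e) (x : M) (v : TangentSpace 𝓘(ℝ, E) x) (s t : ℝ) :
    dist (e x (s • v)) (e x (t • v)) ≤ |t - s| * ‖v‖ := by
  obtain ⟨ρ, hρ, hmin⟩ := he.minimizing
  obtain ⟨N, hN⟩ := exists_nat_gt (‖v‖ * |t - s| / ρ)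
  have hN0 : (0 : ℝ) < N := lt_of_le_of_lt (by positivity) hN
  set δ : ℝ := (t - s) / N with hδ
  have hδabs : |δ| = |t - s| / N := by
    rw [hδ, abs_div, abs_of_pos hN0]
  have hstep : ∀ r : ℝ, dist (e x (r • v)) (e x ((r + δ) • v)) = ‖v‖ * |δ| := by
    intro r
    have h := hmin x v r (r + δ) (by
      rw [add_sub_cancel_left, hδabs, ← mul_div_assoc, div_le_iff₀ hN0]
      rw [div_lt_iff₀ hρ] at hN
      linarith)
    rw [add_sub_cancel_left] at h
    exact h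
  have hk : ∀ k : ℕ, dist (e x (s • v)) (e x ((s + k * δ) • v)) ≤ k * (‖v‖ * |δ|) := by
    intro k
    induction k with
    | zero => simp
    | succ k ih =>
      have h1 := dist_triangle (e x (s • v)) (e x ((s + k * δ) • v)) (e x ((s + k * δ + δ) • v))
      have h2 := hstep (s + k * δ)
      have h3 : s + ((k + 1 : ℕ) : ℝ) * δ = s + k * δ + δ := by
        push_cast
        ring
      rw [h3]
      push_cast
      linarith
  have h := hk N
  have e1 : s + (N : ℝ) * δ = t := by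
    rw [hδ]
    field_simp
    ring
  rw [e1, hδabs] at h
  refine le_trans h (le_of_eq ?_)
  field_simp

lemma dist_exp_le' (he : IsExp e) (x : M) (v : TangentSpace 𝓘(ℝ, E) x) :
    dist x (e x v) ≤ ‖v‖ := by
  have h := dist_exp_le he x v 0 1
  rw [zero_smul, one_smul, he.map_zero] at h
  simpa using h

lemma cost_exp_le (he : IsExp e) (x : M) (v : TangentSpace 𝓘(ℝ, E) x) :
    cost x (e x v) ≤ ‖v‖ ^ 2 / 2 := by
  unfold cost
  have h := dist_exp_le' he x v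
  have h2 := pow_le_pow_left₀ dist_nonneg h 2
  linarith

lemma mem_segMin_iff_cost (he : IsExp e) (x : M) (v : TangentSpace 𝓘(ℝ, E) x) :
    v ∈ segMin e x ↔ ‖v‖ ^ 2 / 2 ≤ cost x (e x v) := by
  unfold cost
  change dist x (e x v) = ‖v‖ ↔ _
  constructor
  · intro h
    rw [h]
  · intro h
    refine le_antisymm (dist_exp_le' he x v) ?_
    have h2 : ‖v‖ ^ 2 ≤ dist x (e x v) ^ 2 := by linarith
    exact (pow_le_pow_iff_left₀ (norm_nonneg v) dist_nonneg two_ne_zero).1 h2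

lemma segMin_dist (he : IsExp e) {x : M} {v : TangentSpace 𝓘(ℝ, E) x} (hv : v ∈ segMin e x)
    {s t : ℝ} (hs : 0 ≤ s) (hst : s ≤ t) (ht : t ≤ 1) :
    dist (e x (s • v)) (e x (t • v)) = (t - s) * ‖v‖ := by
  have hv' : dist x (e x v) = ‖v‖ := hv
  have h1 := dist_exp_le he x v 0 s
  have h2 := dist_exp_le he x v s t
  have h3 := dist_exp_le he x v t 1
  rw [zero_smul, he.map_zero, sub_zero, abs_of_nonneg hs] at h1
  rw [abs_of_nonneg (sub_nonneg.2 hst)] at h2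
  rw [one_smul, abs_of_nonneg (sub_nonneg.2 ht)] at h3
  have h4 := dist_triangle x (e x (s • v)) (e x v)
  have h5 := dist_triangle (e x (s • v)) (e x (t • v)) (e x v)
  refine le_antisymm h2 ?_
  nlinarith

lemma segMin_cost (he : IsExp e) {x : M} {v : TangentSpace 𝓘(ℝ, E) x} (hv : v ∈ segMin e x)
    {s t : ℝ} (hs : 0 ≤ s) (hst : s ≤ t) (ht : t ≤ 1) :
    cost (e x (s • v)) (e x (t • v)) = (t - s) ^ 2 * ‖v‖ ^ 2 / 2 := by
  unfold cost
  rw [segMin_dist he hv hs hst ht]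
  ring

lemma smul_mem_segMin (he : IsExp e) {x : M} {v : TangentSpace 𝓘(ℝ, E) x}
    (hv : v ∈ segMin e x) {t : ℝ} (ht0 : 0 ≤ t) (ht1 : t ≤ 1) : t • v ∈ segMin e x := by
  have h := segMin_dist he hv le_rfl ht0 ht1
  rw [zero_smul, he.map_zero, sub_zero] at h
  change dist x (e x (t • v)) = ‖t • v‖
  rw [h, norm_smul, Real.norm_eq_abs, abs_of_nonneg ht0]

lemma injDomain_subset_segMin (he : IsExp e) (x : M) : injDomain e x ⊆ segMin e x := by
  rintro v ⟨a, ha, hd⟩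
  have ha0 : 0 < a := lt_trans one_pos ha
  have hv : a • v ∈ segMin e x := by
    change dist x (e x (a • v)) = ‖a • v‖
    rw [hd, norm_smul, Real.norm_eq_abs, abs_of_pos ha0]
  have h := smul_mem_segMin he hv (t := a⁻¹) (by positivity) (inv_le_one_of_one_le₀ ha.le)
  rwa [smul_smul, inv_mul_cancel₀ ha0.ne', one_smul] at h

lemma mem_injDomain_iff (he : IsExp e) {x : M} {v : TangentSpace 𝓘(ℝ, E) x} :
    v ∈ injDomain e x ↔ ∃ a : ℝ, 1 < a ∧ a • v ∈ segMin e x := by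
  have _ := he
  constructor
  · rintro ⟨a, ha, hd⟩
    refine ⟨a, ha, ?_⟩
    change dist x (e x (a • v)) = ‖a • v‖
    rw [hd, norm_smul, Real.norm_eq_abs, abs_of_pos (lt_trans one_pos ha)]
  · rintro ⟨a, ha, hd⟩
    refine ⟨a, ha, ?_⟩
    change dist x (e x (a • v)) = ‖a • v‖ at hd
    rw [hd, norm_smul, Real.norm_eq_abs, abs_of_pos (lt_trans one_pos ha)]

lemma smul_mem_injDomain (he : IsExp e) {x : M} {v : TangentSpace 𝓘(ℝ, E) x}
    (hv : v ∈ segMin e x) {t : ℝ} (ht0 : 0 ≤ t) (ht1 : t < 1) : t • v ∈ injDomain e x := by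
  rw [mem_injDomain_iff he]
  set a : ℝ := 2 / (1 + t) with ha
  have hpos : (0 : ℝ) < 1 + t := by linarith
  have ha1 : 1 < a := by
    rw [ha, lt_div_iff₀ hpos]
    linarith
  refine ⟨a, ha1, ?_⟩
  rw [smul_smul]
  refine smul_mem_segMin he hv (by positivity) ?_
  rw [ha, div_mul_eq_mul_div, div_le_one hpos]
  linarith

end

end Vale.Agent.P234
end
end

section

section

/-! Coordinates by the exponential map, basic metric facts and the gradient formula,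
from `IsExp` only. -/

set_option maxSynthPendingDepth 3

open Bundle Manifold Set Filter
open scoped ContDiff Manifold Topology

namespace Vale.Agent.P234

noncomputable section

variable {E : Type*} [NormedAddCommGroup E] [NormedSpace ℝ E] [FiniteDimensional ℝ E]
  {M : Type*} [MetricSpace M] [ChartedSpace E M]
  [RiemannianBundle (fun x : M => TangentSpace 𝓘(ℝ, E) x)]
  [IsManifold 𝓘(ℝ, E) ∞ M]
  [IsContMDiffRiemannianBundle 𝓘(ℝ, E) ∞ E (fun x : M => TangentSpace 𝓘(ℝ, E) x)]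
  {e : ∀ x : M, TangentSpace 𝓘(ℝ, E) x → M}

omit [FiniteDimensional ℝ E] [RiemannianBundle (fun x : M => TangentSpace 𝓘(ℝ, E) x)]
  [IsManifold 𝓘(ℝ, E) ∞ M]
  [IsContMDiffRiemannianBundle 𝓘(ℝ, E) ∞ E (fun x : M => TangentSpace 𝓘(ℝ, E) x)] in
lemma SmoothAt.symm {x y : M} (h : SmoothAt E x y) : SmoothAt E y x := by
  have h1 : Tendsto (fun p : M × M => (p.2, p.1)) (𝓝 (y, x)) (𝓝 (x, y)) :=
    (continuous_snd.prodMk continuous_fst).tendsto (y, x)
  filter_upwards [h1.eventually h] with p hp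
  have h2 : ContMDiffAt (𝓘(ℝ, E).prod 𝓘(ℝ, E)) (𝓘(ℝ, E).prod 𝓘(ℝ, E)) ∞
      (fun p : M × M => (p.2, p.1)) p := contMDiffAt_snd.prodMk contMDiffAt_fst
  have h3 := ContMDiffAt.comp p hp h2
  refine h3.congr_of_eventuallyEq (Filter.Eventually.of_forall fun q => ?_)
  exact cost_comm _ _

lemma SmoothAt.eventually {x y : M} (h : SmoothAt E x y) :
    ∀ᶠ p in 𝓝 (x, y), SmoothAt E p.1 p.2 :=
  eventually_eventually_nhds.2 h

lemma contMDiff_exp_fiber (he : IsExp e) (z : M) :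
    ContMDiff 𝓘(ℝ, TangentSpace 𝓘(ℝ, E) z) 𝓘(ℝ, E) ∞ (e z) := by
  have h1 : ContMDiff 𝓘(ℝ, TangentSpace 𝓘(ℝ, E) z) (𝓘(ℝ, E).tangent) ∞
      (fun v : TangentSpace 𝓘(ℝ, E) z => (⟨z, v⟩ : TangentBundle 𝓘(ℝ, E) M)) := by
    intro v
    rw [Bundle.contMDiffAt_totalSpace]
    refine ⟨contMDiffAt_const, ?_⟩
    have hz : z ∈ (trivializationAt E (TangentSpace 𝓘(ℝ, E)) z).baseSet :=
      FiberBundle.mem_baseSet_trivializationAt' z
    have h2 := ((trivializationAt E (TangentSpace 𝓘(ℝ, E)) z).continuousLinearMapAt ℝ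
      z).contMDiff.contMDiffAt (x := v) (n := ∞)
    refine h2.congr_of_eventuallyEq (Filter.Eventually.of_forall fun w => ?_)
    simp only [Trivialization.continuousLinearMapAt_apply,
      Trivialization.coe_linearMapAt_of_mem _ hz]
  exact he.smooth.comp h1

/-- `cost` in exponential coordinates is smooth. -/
lemma SmoothAt.coord (he : IsExp e) {x q : M} {a : TangentSpace 𝓘(ℝ, E) x}
    {b : TangentSpace 𝓘(ℝ, E) q} (h : SmoothAt E (e x a) (e q b)) :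
    ContDiffAt ℝ ∞ (fun p : TangentSpace 𝓘(ℝ, E) x × TangentSpace 𝓘(ℝ, E) q =>
      cost (e x p.1) (e q p.2)) (a, b) := by
  have h1 := (contMDiff_exp_fiber he x).contMDiffAt (x := a)
  have h2 := (contMDiff_exp_fiber he q).contMDiffAt (x := b)
  have h3 : ContMDiffAt (𝓘(ℝ, TangentSpace 𝓘(ℝ, E) x).prod 𝓘(ℝ, TangentSpace 𝓘(ℝ, E) q))
      (𝓘(ℝ, E).prod 𝓘(ℝ, E)) ∞ (fun p : TangentSpace 𝓘(ℝ, E) x × TangentSpace 𝓘(ℝ, E) q =>
        (e x p.1, e q p.2)) (a, b) :=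
    ContMDiffAt.prodMk (ContMDiffAt.comp (a, b) h1 contMDiffAt_fst)
      (ContMDiffAt.comp (a, b) h2 contMDiffAt_snd)
  have h4 := ContMDiffAt.comp (a, b) h.contMDiffAt h3
  rw [← modelWithCornersSelf_prod, chartedSpaceSelf_prod] at h4
  exact h4.contDiffAt

/-- Gradient formula in exponential coordinates, at the centre. -/
lemma hasFDerivAt_cost_zero (he : IsExp e) (z : M) (v : TangentSpace 𝓘(ℝ, E) z)
    (hv : v ∈ segMin e z) (hs : SmoothAt E z (e z v)) :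
    HasFDerivAt (fun a : TangentSpace 𝓘(ℝ, E) z => cost (e z a) (e z v)) (-(innerSL ℝ v)) 0 := by
  set g : TangentSpace 𝓘(ℝ, E) z → ℝ := fun a => cost (e z a) (e z v) with hg
  have hs' : SmoothAt E (e z 0) (e z v) := by rw [he.map_zero]; exact hs
  have h1 : ContDiffAt ℝ ∞ g 0 := by
    have h2 := hs'.coord he
    exact h2.comp (0 : TangentSpace 𝓘(ℝ, E) z) (f := fun a : TangentSpace 𝓘(ℝ, E) z => (a, v))
      (contDiffAt_id.prodMk contDiffAt_const)
  have h2 : ∀ᶠ a in 𝓝 (0 : TangentSpace 𝓘(ℝ, E) z), DifferentiableAt ℝ g a := by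
    have h3 : ContDiffAt ℝ 1 g 0 := h1.of_le (by exact_mod_cast le_top)
    filter_upwards [h3.eventually (by simp)] with a ha
    exact ha.differentiableAt (by simp)
  have h3 : ContinuousAt (fderiv ℝ g) 0 :=
    (h1.fderiv_right (m := 0) (by simp)).continuousAt
  -- the minimum property
  have hmin : ∀ t : ℝ, 0 < t → t < 1 → ∀ a : TangentSpace 𝓘(ℝ, E) z,
      g (t • v) + (1 - t) / (2 * t) * ‖t • v‖ ^ 2 ≤ g a + (1 - t) / (2 * t) * ‖a‖ ^ 2 := by
    intro t ht0 ht1 a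
    have e1 : g (t • v) = (1 - t) ^ 2 * ‖v‖ ^ 2 / 2 := by
      have := segMin_cost he hv ht0.le ht1.le le_rfl
      rw [one_smul] at this
      exact this
    have e2 : cost z (e z v) = ‖v‖ ^ 2 / 2 := by
      have h5 : dist z (e z v) = ‖v‖ := hv
      rw [cost, h5]
    have e3 := cost_ineq z (e z a) (e z v) ht0 (sub_pos.2 ht1)
    rw [e2, show t + (1 - t) = 1 by ring, div_one] at e3
    have e4 := cost_exp_le he z a
    have h1t : 0 < 1 - t := sub_pos.2 ht1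
    rw [e1, norm_smul, Real.norm_eq_abs, abs_of_pos ht0]
    have e5 : cost z (e z a) / t ≤ ‖a‖ ^ 2 / 2 / t := by gcongr
    have e6 : ‖v‖ ^ 2 / 2 ≤ ‖a‖ ^ 2 / 2 / t + g a / (1 - t) := by linarith
    have e7 : (1 - t) * (‖v‖ ^ 2 / 2) ≤ (1 - t) * (‖a‖ ^ 2 / 2 / t + g a / (1 - t)) :=
      mul_le_mul_of_nonneg_left e6 h1t.le
    have e8 : (1 - t) * (‖a‖ ^ 2 / 2 / t + g a / (1 - t)) =
        g a + (1 - t) / (2 * t) * ‖a‖ ^ 2 := by
      field_simp
      ring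
    have e9 : (1 - t) ^ 2 * ‖v‖ ^ 2 / 2 + (1 - t) / (2 * t) * (t * ‖v‖) ^ 2 =
        (1 - t) * (‖v‖ ^ 2 / 2) := by
      field_simp
      ring
    rw [e9]
    linarith
  have hT : Tendsto (fun t : ℝ => t • v) (𝓝[>] 0) (𝓝 (0 : TangentSpace 𝓘(ℝ, E) z)) := by
    have : Tendsto (fun t : ℝ => t • v) (𝓝 0) (𝓝 ((0 : ℝ) • v)) :=
      (continuous_id.smul continuous_const).tendsto 0
    rw [zero_smul] at this
    exact this.mono_left nhdsWithin_le_nhds
  have hder : ∀ᶠ t : ℝ in 𝓝[>] 0, fderiv ℝ g (t • v) = -((1 - t) • innerSL ℝ v) := by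
    have h01 : ∀ᶠ t : ℝ in 𝓝[>] 0, t < 1 := by
      filter_upwards [Ioo_mem_nhdsGT (show (0 : ℝ) < 1 by norm_num)] with t ht using ht.2
    filter_upwards [hT.eventually h2, self_mem_nhdsWithin, h01] with t hd ht0 ht1
    have ht0 : 0 < t := ht0
    have h4 : HasFDerivAt (fun a : TangentSpace 𝓘(ℝ, E) z => g a + (1 - t) / (2 * t) * ‖a‖ ^ 2)
        (fderiv ℝ g (t • v) + ((1 - t) / (2 * t)) • (2 • innerSL ℝ (t • v))) (t • v) :=
      hd.hasFDerivAt.add ((hasStrictFDerivAt_norm_sq (t • v)).hasFDerivAt.const_mul _)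
    have h5 : IsLocalMin (fun a : TangentSpace 𝓘(ℝ, E) z => g a + (1 - t) / (2 * t) * ‖a‖ ^ 2)
        (t • v) := Filter.Eventually.of_forall (hmin t ht0 ht1)
    have h6 := h5.hasFDerivAt_eq_zero h4
    have h7 : fderiv ℝ g (t • v) = -(((1 - t) / (2 * t)) • (2 • innerSL ℝ (t • v))) :=
      eq_neg_of_add_eq_zero_left h6
    rw [h7]
    ext w
    simp only [neg_apply, smul_apply, innerSL_apply_apply,
      inner_smul_left, smul_eq_mul, nsmul_eq_mul]
    simp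
    field_simp
  have hlim1 : Tendsto (fun t : ℝ => fderiv ℝ g (t • v)) (𝓝[>] 0) (𝓝 (fderiv ℝ g 0)) :=
    h3.tendsto.comp hT
  have hlim2 : Tendsto (fun t : ℝ => -((1 - t) • innerSL ℝ v)) (𝓝[>] 0)
      (𝓝 (-(innerSL ℝ v))) := by
    have h4 : Tendsto (fun t : ℝ => -((1 - t) • innerSL ℝ v)) (𝓝 0)
        (𝓝 (-((1 - (0 : ℝ)) • innerSL ℝ v))) := by
      refine Continuous.tendsto (f := fun t : ℝ => -((1 - t) • innerSL ℝ v)) ?_ 0
      fun_prop
    rw [sub_zero, one_smul] at h4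
    exact h4.mono_left nhdsWithin_le_nhds
  have h4 : fderiv ℝ g 0 = -(innerSL ℝ v) :=
    tendsto_nhds_unique (hlim1.congr' hder) hlim2
  have h5 := (h2.self_of_nhds).hasFDerivAt
  rw [h4] at h5
  exact h5

lemma mfderiv_congr_point {f : M → ℝ} {p q : M} (h : q = p) (w : E) :
    (mfderiv 𝓘(ℝ, E) 𝓘(ℝ, ℝ) f q : E →L[ℝ] ℝ) w = (mfderiv 𝓘(ℝ, E) 𝓘(ℝ, ℝ) f p : E →L[ℝ] ℝ) w := by
  subst h
  rfl

lemma mdifferentiableAt_cost {p y : M} (hs : SmoothAt E p y) :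
    MDifferentiableAt 𝓘(ℝ, E) 𝓘(ℝ, ℝ) (fun q : M => cost q y) p := by
  have h1 : ContMDiffAt 𝓘(ℝ, E) (𝓘(ℝ, E).prod 𝓘(ℝ, E)) ∞ (fun q : M => (q, y)) p :=
    contMDiffAt_id.prodMk contMDiffAt_const
  exact (ContMDiffAt.comp p hs.contMDiffAt h1).mdifferentiableAt (by simp)

/-- Gradient of the cost on the manifold. -/
lemma mfderiv_cost (he : IsExp e) (p : M) (v : TangentSpace 𝓘(ℝ, E) p) (hv : v ∈ segMin e p)
    (hs : SmoothAt E p (e p v)) (w : TangentSpace 𝓘(ℝ, E) p) :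
    mfderiv 𝓘(ℝ, E) 𝓘(ℝ, ℝ) (fun q : M => cost q (e p v)) p w = -inner ℝ v w := by
  have h0 := hasFDerivAt_cost_zero he p v hv hs
  have hc : MDifferentiableAt 𝓘(ℝ, ℝ) 𝓘(ℝ, E) (fun t : ℝ => e p (t • w)) 0 := by
    have h1 : ContMDiffAt 𝓘(ℝ, ℝ) 𝓘(ℝ, TangentSpace 𝓘(ℝ, E) p) ∞ (fun t : ℝ => t • w) 0 :=
      (contDiff_id.smul contDiff_const).contMDiff.contMDiffAt
    exact (ContMDiffAt.comp (0 : ℝ) ((contMDiff_exp_fiber he p).contMDiffAt)
      h1).mdifferentiableAt (by simp)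
  have hp0 : e p ((0 : ℝ) • w) = p := by rw [zero_smul, he.map_zero]
  have hf : MDifferentiableAt 𝓘(ℝ, E) 𝓘(ℝ, ℝ) (fun q : M => cost q (e p v))
      (e p ((0 : ℝ) • w)) := by
    rw [hp0]
    exact mdifferentiableAt_cost hs
  have h1 : mfderiv 𝓘(ℝ, ℝ) 𝓘(ℝ, ℝ) ((fun q : M => cost q (e p v)) ∘ fun t : ℝ => e p (t • w))
      0 (1 : ℝ) = mfderiv 𝓘(ℝ, E) 𝓘(ℝ, ℝ) (fun q : M => cost q (e p v)) (e p ((0 : ℝ) • w))
        (mfderiv 𝓘(ℝ, ℝ) 𝓘(ℝ, E) (fun t : ℝ => e p (t • w)) 0 (1 : ℝ)) :=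
    mfderiv_comp_apply (0 : ℝ) hf hc 1
  have h3 : HasFDerivAt (fun t : ℝ => cost (e p (t • w)) (e p v))
      ((-(innerSL ℝ v)).comp ((ContinuousLinearMap.id ℝ ℝ).smulRight w)) 0 := by
    have h4 : HasFDerivAt (fun t : ℝ => t • w) ((ContinuousLinearMap.id ℝ ℝ).smulRight w) 0 :=
      (hasFDerivAt_id (0 : ℝ)).smul_const w
    have h5 : HasFDerivAt (fun a : TangentSpace 𝓘(ℝ, E) p => cost (e p a) (e p v))
        (-(innerSL ℝ v)) ((0 : ℝ) • w) := by
      rw [zero_smul]; exact h0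
    exact h5.comp (0 : ℝ) h4
  have h4 : mfderiv 𝓘(ℝ, ℝ) 𝓘(ℝ, ℝ) ((fun q : M => cost q (e p v)) ∘ fun t : ℝ => e p (t • w))
      0 (1 : ℝ) = -inner ℝ v w := by
    rw [mfderiv_eq_fderiv]
    have h5 := h3.fderiv
    change (fderiv ℝ (fun t : ℝ => cost (e p (t • w)) (e p v)) 0) 1 = _
    rw [h5]
    simp
  have h5 := congrArg (fun u => mfderiv 𝓘(ℝ, E) 𝓘(ℝ, ℝ) (fun q : M => cost q (e p v))
    (e p ((0 : ℝ) • w)) u) (he.velocity p w)
  have h6 := mfderiv_congr_point (E := E) (f := fun q : M => cost q (e p v)) hp0 w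
  exact (h6.symm.trans (h5.symm.trans h1.symm)).trans h4

/-- Gradient formula in exponential coordinates, at a general point. -/
lemma hasFDerivAt_cost (he : IsExp e) (x : M) (a : TangentSpace 𝓘(ℝ, E) x)
    (v : TangentSpace 𝓘(ℝ, E) (e x a)) (hv : v ∈ segMin e (e x a))
    (hs : SmoothAt E (e x a) (e (e x a) v)) :
    HasFDerivAt (fun a' : TangentSpace 𝓘(ℝ, E) x => cost (e x a') (e (e x a) v))
      (-((innerSL ℝ v).comp (mfderiv 𝓘(ℝ, TangentSpace 𝓘(ℝ, E) x) 𝓘(ℝ, E) (e x) a))) a := by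
  have hex : MDifferentiableAt 𝓘(ℝ, TangentSpace 𝓘(ℝ, E) x) 𝓘(ℝ, E) (e x) a :=
    (contMDiff_exp_fiber he x).mdifferentiable (by simp) a
  have h1 : HasMFDerivAt 𝓘(ℝ, TangentSpace 𝓘(ℝ, E) x) 𝓘(ℝ, ℝ)
      ((fun q : M => cost q (e (e x a) v)) ∘ e x) a
      ((mfderiv 𝓘(ℝ, E) 𝓘(ℝ, ℝ) (fun q : M => cost q (e (e x a) v)) (e x a)).comp
        (mfderiv 𝓘(ℝ, TangentSpace 𝓘(ℝ, E) x) 𝓘(ℝ, E) (e x) a)) :=
    HasMFDerivAt.comp a (mdifferentiableAt_cost hs).hasMFDerivAt hex.hasMFDerivAt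
  have h2 := h1.hasFDerivAt
  have h3 : (mfderiv 𝓘(ℝ, E) 𝓘(ℝ, ℝ) (fun q : M => cost q (e (e x a) v)) (e x a)).comp
        (mfderiv 𝓘(ℝ, TangentSpace 𝓘(ℝ, E) x) 𝓘(ℝ, E) (e x) a) =
      -((innerSL ℝ v).comp (mfderiv 𝓘(ℝ, TangentSpace 𝓘(ℝ, E) x) 𝓘(ℝ, E) (e x) a)) := by
    ext w
    exact mfderiv_cost he (e x a) v hv hs _
  rw [h3] at h2
  exact h2

end

end Vale.Agent.P234
end
end

section

section

/-! Sequences in the tangent bundle. -/

set_option maxSynthPendingDepth 3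

open Bundle Manifold Set Filter
open scoped ContDiff Manifold Topology

namespace Vale.Agent.P234

noncomputable section

variable {E : Type*} [NormedAddCommGroup E] [NormedSpace ℝ E] [FiniteDimensional ℝ E]
  {M : Type*} [MetricSpace M] [ChartedSpace E M]
  [RiemannianBundle (fun x : M => TangentSpace 𝓘(ℝ, E) x)]
  [IsManifold 𝓘(ℝ, E) ∞ M]
  [IsContMDiffRiemannianBundle 𝓘(ℝ, E) ∞ E (fun x : M => TangentSpace 𝓘(ℝ, E) x)]
  {e : ∀ x : M, TangentSpace 𝓘(ℝ, E) x → M}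

/-- Convergence of tangent vectors with varying base points. -/
def TendstoTB {z : ℕ → M} (v : ∀ k, TangentSpace 𝓘(ℝ, E) (z k)) {z₀ : M}
    (v₀ : TangentSpace 𝓘(ℝ, E) z₀) : Prop :=
  Tendsto (fun k => (⟨z k, v k⟩ : TangentBundle 𝓘(ℝ, E) M)) atTop
    (𝓝 (⟨z₀, v₀⟩ : TangentBundle 𝓘(ℝ, E) M))

/-- The fibre coordinate of a tangent vector in the trivialization at `z₀`. -/
def bkCrd (z₀ : M) (z : M) : TangentSpace 𝓘(ℝ, E) z →L[ℝ] E :=
  (trivializationAt E (TangentSpace 𝓘(ℝ, E)) z₀).continuousLinearMapAt ℝ z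

lemma tendstoTB_iff {z : ℕ → M} {v : ∀ k, TangentSpace 𝓘(ℝ, E) (z k)} {z₀ : M}
    {v₀ : TangentSpace 𝓘(ℝ, E) z₀} :
    TendstoTB v v₀ ↔ Tendsto z atTop (𝓝 z₀) ∧
      Tendsto (fun k => bkCrd z₀ (z k) (v k)) atTop (𝓝 (bkCrd z₀ z₀ v₀)) := by
  have hz₀ : z₀ ∈ (trivializationAt E (TangentSpace 𝓘(ℝ, E)) z₀).baseSet :=
    FiberBundle.mem_baseSet_trivializationAt' z₀
  have hmem : (⟨z₀, v₀⟩ : TangentBundle 𝓘(ℝ, E) M) ∈
      (trivializationAt E (TangentSpace 𝓘(ℝ, E)) z₀).source := by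
    rw [Trivialization.mem_source]
    exact hz₀
  unfold TendstoTB
  rw [Trivialization.tendsto_nhds_iff _ hmem]
  refine and_congr_right fun hz => ?_
  have h1 : ∀ᶠ k in atTop, z k ∈ (trivializationAt E (TangentSpace 𝓘(ℝ, E)) z₀).baseSet :=
    hz ((trivializationAt E (TangentSpace 𝓘(ℝ, E)) z₀).open_baseSet.mem_nhds hz₀)
  have h2 : bkCrd z₀ z₀ v₀ = ((trivializationAt E (TangentSpace 𝓘(ℝ, E)) z₀)
      (⟨z₀, v₀⟩ : TangentBundle 𝓘(ℝ, E) M)).2 := by
    unfold bkCrd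
    rw [Trivialization.continuousLinearMapAt_apply, Trivialization.coe_linearMapAt_of_mem _ hz₀]
  rw [h2]
  refine tendsto_congr' ?_
  filter_upwards [h1] with k hk
  unfold bkCrd
  rw [Trivialization.continuousLinearMapAt_apply, Trivialization.coe_linearMapAt_of_mem _ hk]

omit [FiniteDimensional ℝ E] in
lemma isContinuousRiemannianBundle_tangent :
    IsContinuousRiemannianBundle E (fun x : M => TangentSpace 𝓘(ℝ, E) x) := by
  obtain ⟨g, hg, h⟩ := IsContMDiffRiemannianBundle.exists_contMDiff (IB := 𝓘(ℝ, E)) (n := ∞)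
    (F := E) (E := fun x : M => TangentSpace 𝓘(ℝ, E) x)
  exact ⟨g, hg.continuous, h⟩

omit [FiniteDimensional ℝ E] in
lemma continuous_norm_tangent :
    Continuous (fun p : TangentBundle 𝓘(ℝ, E) M => ‖p.snd‖) := by
  have := isContinuousRiemannianBundle_tangent (E := E) (M := M)
  have h := Continuous.inner_bundle (F := E) (E := fun x : M => TangentSpace 𝓘(ℝ, E) x)
    (b := fun p : TangentBundle 𝓘(ℝ, E) M => p.proj) (v := fun p => p.snd) (w := fun p => p.snd)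
    continuous_id continuous_id
  have h2 : (fun p : TangentBundle 𝓘(ℝ, E) M => ‖p.snd‖) =
      fun p => Real.sqrt (inner ℝ p.snd p.snd) := by
    funext p
    rw [real_inner_self_eq_norm_sq, Real.sqrt_sq (norm_nonneg _)]
  rw [h2]
  exact h.sqrt

lemma TendstoTB.base {z : ℕ → M} {v : ∀ k, TangentSpace 𝓘(ℝ, E) (z k)} {z₀ : M}
    {v₀ : TangentSpace 𝓘(ℝ, E) z₀} (h : TendstoTB v v₀) : Tendsto z atTop (𝓝 z₀) :=
  (tendstoTB_iff.1 h).1

lemma TendstoTB.subseq {z : ℕ → M} {v : ∀ k, TangentSpace 𝓘(ℝ, E) (z k)} {z₀ : M}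
    {v₀ : TangentSpace 𝓘(ℝ, E) z₀} (h : TendstoTB v v₀) {φ : ℕ → ℕ} (hφ : StrictMono φ) :
    TendstoTB (z := fun k => z (φ k)) (fun k => v (φ k)) v₀ := by
  unfold TendstoTB at h ⊢
  exact h.comp hφ.tendsto_atTop

lemma TendstoTB.norm {z : ℕ → M} {v : ∀ k, TangentSpace 𝓘(ℝ, E) (z k)} {z₀ : M}
    {v₀ : TangentSpace 𝓘(ℝ, E) z₀} (h : TendstoTB v v₀) :
    Tendsto (fun k => ‖v k‖) atTop (𝓝 ‖v₀‖) := by
  have h1 : Tendsto (fun p : TangentBundle 𝓘(ℝ, E) M => ‖p.snd‖)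
      (𝓝 (⟨z₀, v₀⟩ : TangentBundle 𝓘(ℝ, E) M)) (𝓝 ‖v₀‖) :=
    (continuous_norm_tangent (E := E) (M := M)).tendsto _
  unfold TendstoTB at h
  have h2 := h1.comp h
  simp only [Function.comp_def] at h2
  exact h2

lemma TendstoTB.smul {z : ℕ → M} {v : ∀ k, TangentSpace 𝓘(ℝ, E) (z k)} {z₀ : M}
    {v₀ : TangentSpace 𝓘(ℝ, E) z₀} (h : TendstoTB v v₀) {c : ℕ → ℝ} {c₀ : ℝ}
    (hc : Tendsto c atTop (𝓝 c₀)) :
    TendstoTB (fun k => c k • v k) (c₀ • v₀) := by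
  rw [tendstoTB_iff] at h ⊢
  refine ⟨h.1, ?_⟩
  simp only [map_smul]
  exact hc.smul h.2

lemma TendstoTB.sum {ι : Type*} [Fintype ι] {z : ℕ → M} {z₀ : M}
    {w : ∀ k, ι → TangentSpace 𝓘(ℝ, E) (z k)} {w₀ : ι → TangentSpace 𝓘(ℝ, E) z₀}
    {c : ℕ → ι → ℝ} {c₀ : ι → ℝ} (hz : Tendsto z atTop (𝓝 z₀))
    (hw : ∀ j, TendstoTB (fun k => w k j) (w₀ j)) (hc : ∀ j, Tendsto (fun k => c k j) atTop (𝓝 (c₀ j))) :
    TendstoTB (fun k => ∑ j, c k j • w k j) (∑ j, c₀ j • w₀ j) := by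
  rw [tendstoTB_iff]
  refine ⟨hz, ?_⟩
  simp only [map_sum, map_smul]
  exact tendsto_finsetSum _ fun j _ => (hc j).smul (tendstoTB_iff.1 (hw j)).2

lemma TendstoTB.exp (he : IsExp e) {z : ℕ → M} {v : ∀ k, TangentSpace 𝓘(ℝ, E) (z k)} {z₀ : M}
    {v₀ : TangentSpace 𝓘(ℝ, E) z₀} (h : TendstoTB v v₀) :
    Tendsto (fun k => e (z k) (v k)) atTop (𝓝 (e z₀ v₀)) :=
  (he.smooth.continuous.tendsto (⟨z₀, v₀⟩ : TangentBundle 𝓘(ℝ, E) M)).comp h

lemma bkCrd_symm (z₀ z : M) (hz : z ∈ (trivializationAt E (TangentSpace 𝓘(ℝ, E)) z₀).baseSet)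
    (v : TangentSpace 𝓘(ℝ, E) z) :
    (trivializationAt E (TangentSpace 𝓘(ℝ, E)) z₀).symmL ℝ z (bkCrd z₀ z v) = v := by
  unfold bkCrd
  exact Trivialization.symmL_continuousLinearMapAt _ hz v

lemma bkCrd_symm' (z₀ z : M) (hz : z ∈ (trivializationAt E (TangentSpace 𝓘(ℝ, E)) z₀).baseSet)
    (w : E) :
    bkCrd z₀ z ((trivializationAt E (TangentSpace 𝓘(ℝ, E)) z₀).symmL ℝ z w) = w := by
  unfold bkCrd
  exact Trivialization.continuousLinearMapAt_symmL _ hz w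

/-- Convergence in a fixed tangent space. -/
lemma tendstoTB_const_base {z₀ : M} {v : ℕ → TangentSpace 𝓘(ℝ, E) z₀}
    {v₀ : TangentSpace 𝓘(ℝ, E) z₀} :
    TendstoTB (z := fun _ => z₀) v v₀ ↔ Tendsto v atTop (𝓝 v₀) := by
  have hz₀ : z₀ ∈ (trivializationAt E (TangentSpace 𝓘(ℝ, E)) z₀).baseSet :=
    FiberBundle.mem_baseSet_trivializationAt' z₀
  rw [tendstoTB_iff]
  constructor
  · rintro ⟨-, h⟩
    have h2 := (((trivializationAt E (TangentSpace 𝓘(ℝ, E)) z₀).symmL ℝ z₀).continuous.tendsto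
      (bkCrd z₀ z₀ v₀)).comp h
    rw [bkCrd_symm z₀ z₀ hz₀] at h2
    refine h2.congr fun k => ?_
    exact bkCrd_symm z₀ z₀ hz₀ (v k)
  · intro h
    exact ⟨tendsto_const_nhds, ((bkCrd z₀ z₀).continuous.tendsto v₀).comp h⟩

/-- Limits of minimizing vectors are minimizing. -/
lemma TendstoTB.segMin (he : IsExp e) {z : ℕ → M} {v : ∀ k, TangentSpace 𝓘(ℝ, E) (z k)} {z₀ : M}
    {v₀ : TangentSpace 𝓘(ℝ, E) z₀} (h : TendstoTB v v₀) (hv : ∀ k, v k ∈ segMin e (z k)) :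
    v₀ ∈ Vale.Agent.P234.segMin e z₀ := by
  have h1 : Tendsto (fun k => dist (z k) (e (z k) (v k))) atTop (𝓝 (dist z₀ (e z₀ v₀))) :=
    h.base.dist (h.exp he)
  have h2 := h.norm
  have h3 : (fun k => dist (z k) (e (z k) (v k))) = fun k => ‖v k‖ := funext fun k => hv k
  rw [h3] at h1
  exact tendsto_nhds_unique h1 h2

/-- Compactness of bounded sequences in the tangent bundle. -/
lemma exists_tendstoTB [CompactSpace M] (z : ℕ → M) (v : ∀ k, TangentSpace 𝓘(ℝ, E) (z k)) (R : ℝ)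
    (hR : ∀ k, ‖v k‖ ≤ R) :
    ∃ (z₀ : M) (v₀ : TangentSpace 𝓘(ℝ, E) z₀) (φ : ℕ → ℕ), StrictMono φ ∧
      TendstoTB (z := fun k => z (φ k)) (fun k => v (φ k)) v₀ := by
  have := isContinuousRiemannianBundle_tangent (E := E) (M := M)
  obtain ⟨z₀, -, φ, hφ, hz⟩ := isCompact_univ.tendsto_subseq (x := z) fun k => mem_univ _
  obtain ⟨C, hC, hev⟩ := eventually_norm_trivializationAt_lt E
    (fun x : M => TangentSpace 𝓘(ℝ, E) x) z₀
  have hz₀ : z₀ ∈ (trivializationAt E (TangentSpace 𝓘(ℝ, E)) z₀).baseSet :=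
    FiberBundle.mem_baseSet_trivializationAt' z₀
  have h1 : ∀ᶠ k in atTop, bkCrd z₀ (z (φ k)) (v (φ k)) ∈ Metric.closedBall (0 : E) (C * R) := by
    filter_upwards [hz.eventually hev] with k hk
    rw [mem_closedBall_zero_iff]
    refine (ContinuousLinearMap.le_opNorm _ _).trans ?_
    exact mul_le_mul hk.le (hR _) (norm_nonneg _) hC.le
  have : ProperSpace E := FiniteDimensional.proper ℝ E
  obtain ⟨w, -, ψ, hψ, hw⟩ := tendsto_subseq_of_frequently_bounded Metric.isBounded_closedBall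
    h1.frequently
  refine ⟨z₀, (trivializationAt E (TangentSpace 𝓘(ℝ, E)) z₀).symmL ℝ z₀ w, φ ∘ ψ, hφ.comp hψ, ?_⟩
  rw [tendstoTB_iff]
  refine ⟨hz.comp hψ.tendsto_atTop, ?_⟩
  rw [bkCrd_symm' z₀ z₀ hz₀]
  exact hw

/-- Version for finitely many vectors over the same base points. -/
lemma exists_tendstoTB_fin [CompactSpace M] {ι : Type*} [Fintype ι] (z : ℕ → M)
    (v : ∀ k, ι → TangentSpace 𝓘(ℝ, E) (z k)) (R : ℝ) (hR : ∀ k j, ‖v k j‖ ≤ R) :
    ∃ (z₀ : M) (v₀ : ι → TangentSpace 𝓘(ℝ, E) z₀) (φ : ℕ → ℕ), StrictMono φ ∧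
      Tendsto (fun k => z (φ k)) atTop (𝓝 z₀) ∧
      ∀ j, TendstoTB (z := fun k => z (φ k)) (fun k => v (φ k) j) (v₀ j) := by
  have := isContinuousRiemannianBundle_tangent (E := E) (M := M)
  obtain ⟨z₀, -, φ, hφ, hz⟩ := isCompact_univ.tendsto_subseq (x := z) fun k => mem_univ _
  obtain ⟨C, hC, hev⟩ := eventually_norm_trivializationAt_lt E
    (fun x : M => TangentSpace 𝓘(ℝ, E) x) z₀
  have hz₀ : z₀ ∈ (trivializationAt E (TangentSpace 𝓘(ℝ, E)) z₀).baseSet :=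
    FiberBundle.mem_baseSet_trivializationAt' z₀
  have : ProperSpace E := FiniteDimensional.proper ℝ E
  have h1 : ∀ᶠ k in atTop, (fun j => bkCrd z₀ (z (φ k)) (v (φ k) j)) ∈
      Metric.closedBall (0 : ι → E) (C * |R|) := by
    filter_upwards [hz.eventually hev] with k hk
    rw [mem_closedBall_zero_iff, pi_norm_le_iff_of_nonneg (by positivity)]
    intro j
    refine (ContinuousLinearMap.le_opNorm _ _).trans ?_
    exact mul_le_mul hk.le ((hR _ _).trans (le_abs_self R)) (norm_nonneg _) hC.le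
  obtain ⟨w, -, ψ, hψ, hw⟩ := tendsto_subseq_of_frequently_bounded Metric.isBounded_closedBall
    h1.frequently
  refine ⟨z₀, fun j => (trivializationAt E (TangentSpace 𝓘(ℝ, E)) z₀).symmL ℝ z₀ (w j), φ ∘ ψ,
    hφ.comp hψ, hz.comp hψ.tendsto_atTop, fun j => ?_⟩
  rw [tendstoTB_iff]
  refine ⟨hz.comp hψ.tendsto_atTop, ?_⟩
  rw [bkCrd_symm' z₀ z₀ hz₀]
  exact (tendsto_pi_nhds.1 hw) j

end

end Vale.Agent.P234
end
end

section

section

/-! Consequences of `Facts`: uniqueness, betweenness, continuity. -/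

set_option maxSynthPendingDepth 3

open Bundle Manifold Set Filter
open scoped ContDiff Manifold Topology

namespace Vale.Agent.P234

noncomputable section

variable {E : Type*} [NormedAddCommGroup E] [NormedSpace ℝ E] [FiniteDimensional ℝ E]
  {M : Type*} [MetricSpace M] [ChartedSpace E M]
  [RiemannianBundle (fun x : M => TangentSpace 𝓘(ℝ, E) x)]
  [IsManifold 𝓘(ℝ, E) ∞ M]
  [IsContMDiffRiemannianBundle 𝓘(ℝ, E) ∞ E (fun x : M => TangentSpace 𝓘(ℝ, E) x)]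
  [CompactSpace M]
  {e : ∀ x : M, TangentSpace 𝓘(ℝ, E) x → M}

/-- Flow property with a free base point. -/
lemma Facts.flow' (F : Facts e) {x : M} (v : TangentSpace 𝓘(ℝ, E) x) (s : ℝ) {x' : M}
    (hx' : e x (s • v) = x') :
    ∃ w : TangentSpace 𝓘(ℝ, E) x', ‖w‖ = ‖v‖ ∧ ∀ t : ℝ, e x' (t • w) = e x ((s + t) • v) := by
  subst hx'
  exact F.flow x v s

/-- A vector is determined by the germ of its geodesic. -/
lemma eq_of_exp_smul_eq (he : IsExp e) {x : M} {v w : TangentSpace 𝓘(ℝ, E) x}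
    (h : ∀ t : ℝ, e x (t • v) = e x (t • w)) : v = w := by
  have h0 : (fun t : ℝ => e x (t • v)) = fun t : ℝ => e x (t • w) := funext h
  have key : ∀ f g : ℝ → M, f = g →
      (mfderiv 𝓘(ℝ, ℝ) 𝓘(ℝ, E) f 0 (1 : ℝ) : E) = mfderiv 𝓘(ℝ, ℝ) 𝓘(ℝ, E) g 0 (1 : ℝ) := by
    rintro f g rfl
    rfl
  have h1 := he.velocity x v
  have h2 := he.velocity x w
  have h3 := key _ _ h0
  exact h1.symm.trans (h3.trans h2)

/-- Uniqueness of the minimizing vector when the cost is smooth. -/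
lemma segMin_unique (he : IsExp e) {x : M} {v w : TangentSpace 𝓘(ℝ, E) x}
    (hv : v ∈ segMin e x) (hw : w ∈ segMin e x) (hs : SmoothAt E x (e x v))
    (hvw : e x w = e x v) : w = v := by
  have h1 := hasFDerivAt_cost_zero he x v hv hs
  have h2 := hasFDerivAt_cost_zero he x w hw (by rw [hvw]; exact hs)
  rw [hvw] at h2
  have h3 := h1.unique h2
  have h4 : ∀ ξ : TangentSpace 𝓘(ℝ, E) x, inner ℝ v ξ = inner ℝ w ξ := by
    intro ξ
    have := congrArg (fun L => L ξ) h3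
    simpa using this
  exact (ext_inner_right ℝ h4).symm

lemma Facts.injDomain_unique (F : Facts e) {x : M} {v w : TangentSpace 𝓘(ℝ, E) x}
    (hv : v ∈ injDomain e x) (hw : w ∈ segMin e x) (hvw : e x w = e x v) : w = v :=
  segMin_unique F.isExp (injDomain_subset_segMin F.isExp x hv) hw (F.smooth_cost x v hv) hvw

/-- The cost is smooth at small scale, and geodesics minimize at a uniform scale. -/
lemma Facts.short (F : Facts e) : ∃ ρ : ℝ, 0 < ρ ∧
    (∀ (x : M) (v : TangentSpace 𝓘(ℝ, E) x) (s t : ℝ),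
      ‖v‖ * |t - s| ≤ ρ → dist (e x (s • v)) (e x (t • v)) = ‖v‖ * |t - s|) ∧
    (∀ x y : M, dist x y < ρ → SmoothAt E x y) := by
  obtain ⟨ρ, hρ, h⟩ := F.isExp.minimizing
  refine ⟨ρ / 2, by positivity, fun x v s t hst => h x v s t (by linarith), ?_⟩
  intro x y hxy
  obtain ⟨v, hv, hd⟩ := F.hopfRinow x y
  rw [← hv]
  refine F.smooth_cost x v ⟨2, one_lt_two, ?_⟩
  have h1 := h x v 0 2 (by rw [hd] at hxy; norm_num; linarith)
  rw [zero_smul, F.isExp.map_zero] at h1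
  rw [h1]
  norm_num
  ring

/-- Points between `x` and `y` at every fraction. -/
lemma Facts.exists_between (F : Facts e) (x y : M) {s t : ℝ} (hs : 0 < s) (ht : 0 < t) :
    ∃ m : M, cost x y / (s + t) = cost x m / s + cost m y / t := by
  obtain ⟨v, hv, hd⟩ := F.hopfRinow x y
  have hmin : v ∈ segMin e x := by
    change dist x (e x v) = ‖v‖
    rw [hv, hd]
  have hst : 0 < s + t := by positivity
  have hr0 : 0 ≤ s / (s + t) := by positivity
  have hr1 : s / (s + t) ≤ 1 := by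
    rw [div_le_one hst]; linarith
  refine ⟨e x ((s / (s + t)) • v), ?_⟩
  have h1 := segMin_cost F.isExp hmin le_rfl hr0 hr1
  have h2 := segMin_cost F.isExp hmin hr0 hr1 le_rfl
  have h3 := segMin_cost F.isExp hmin le_rfl zero_le_one le_rfl
  rw [zero_smul, F.isExp.map_zero] at h1 h3
  rw [one_smul, hv] at h2 h3
  rw [h1, h2, h3]
  field_simp
  ring

/-- Distances along a minimizing geodesic, without order. -/
lemma segMin_dist_abs (he : IsExp e) {x : M} {v : TangentSpace 𝓘(ℝ, E) x} (hv : v ∈ segMin e x)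
    {s t : ℝ} (hs0 : 0 ≤ s) (hs1 : s ≤ 1) (ht0 : 0 ≤ t) (ht1 : t ≤ 1) :
    dist (e x (s • v)) (e x (t • v)) = |t - s| * ‖v‖ := by
  rcases le_total s t with h | h
  · rw [segMin_dist he hv hs0 h ht1, abs_of_nonneg (by linarith)]
  · rw [dist_comm, segMin_dist he hv ht0 h hs1, abs_of_nonpos (by linarith)]
    ring

lemma zero_mem_injDomain (he : IsExp e) (x : M) : (0 : TangentSpace 𝓘(ℝ, E) x) ∈ injDomain e x :=
  ⟨2, one_lt_two, by simp [he.map_zero]⟩

/-- The vector pointing from `e x (s • v)` towards `e x (t' • v)`, shortened. -/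
lemma flow_mem_injDomain (he : IsExp e) {x : M} {v : TangentSpace 𝓘(ℝ, E) x}
    (hv : v ∈ segMin e x) {s t' θ : ℝ} (hs0 : 0 ≤ s) (hs1 : s ≤ 1) (ht0 : 0 ≤ t') (ht1 : t' ≤ 1)
    (hθ0 : 0 ≤ θ) (hθ1 : θ < 1) {w : TangentSpace 𝓘(ℝ, E) (e x (s • v))} (hw : ‖w‖ = ‖v‖)
    (hfl : ∀ t : ℝ, e (e x (s • v)) (t • w) = e x ((s + t) • v)) :
    (θ * (t' - s)) • w ∈ injDomain e (e x (s • v)) := by
  rcases hθ0.eq_or_lt with rfl | hθ0
  · rw [zero_mul, zero_smul]
    exact zero_mem_injDomain he _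
  · refine ⟨1 / θ, by rw [lt_div_iff₀ hθ0]; linarith, ?_⟩
    rw [smul_smul, hfl, norm_smul, hw]
    have h1 : s + 1 / θ * (θ * (t' - s)) = t' := by field_simp; ring
    rw [h1, segMin_dist_abs he hv hs0 hs1 ht0 ht1, norm_mul, Real.norm_eq_abs, Real.norm_eq_abs,
      abs_of_pos hθ0]
    field_simp

/-- The cost is smooth at pairs of points of a minimizing geodesic, except the two endpoints. -/
lemma Facts.smooth_between (F : Facts e) {x : M} {v : TangentSpace 𝓘(ℝ, E) x}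
    (hv : v ∈ segMin e x) {s t : ℝ} (hs0 : 0 ≤ s) (hs1 : s ≤ 1) (ht0 : 0 ≤ t) (ht1 : t ≤ 1)
    (hst : |t - s| < 1) : SmoothAt E (e x (s • v)) (e x (t • v)) := by
  have main : ∀ s t t' θ : ℝ, 0 ≤ s → s ≤ 1 → 0 ≤ t' → t' ≤ 1 → 0 ≤ θ → θ < 1 →
      t - s = θ * (t' - s) → SmoothAt E (e x (s • v)) (e x (t • v)) := by
    intro s t t' θ hs0 hs1 ht0 ht1 hθ0 hθ1 h
    obtain ⟨w, hw, hfl⟩ := F.flow x v s
    have h1 := F.smooth_cost _ _ (flow_mem_injDomain F.isExp hv hs0 hs1 ht0 ht1 hθ0 hθ1 hw hfl)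
    rw [hfl, ← h] at h1
    have h2 : s + (t - s) = t := by ring
    rwa [h2] at h1
  have main2 : ∀ s t : ℝ, 0 ≤ s → s ≤ t → t ≤ 1 → t - s < 1 →
      SmoothAt E (e x (s • v)) (e x (t • v)) := by
    intro s t hs hst ht h
    rcases ht.lt_or_eq with ht' | rfl
    · have h1 : 0 < 1 - s := by linarith
      refine main s t 1 ((t - s) / (1 - s)) hs (by linarith) zero_le_one le_rfl
        (div_nonneg (by linarith) h1.le) ?_ ?_
      · rw [div_lt_one h1]; linarith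
      · field_simp
    · refine SmoothAt.symm ?_
      exact main 1 s 0 (1 - s) zero_le_one le_rfl le_rfl zero_le_one (by linarith) h (by ring)
  rcases le_total s t with h | h
  · exact main2 s t hs0 h ht1 (by rwa [abs_of_nonneg (by linarith)] at hst)
  · exact SmoothAt.symm (main2 t s ht0 h hs1 (by
      rw [abs_of_nonpos (by linarith)] at hst; linarith))

/-- Continuity of the unique minimizing vector: if `n k → e z v` with `v` in the injectivity
domain and `w k` minimizing from `z k → z` to `n k`, then `w k → v`. -/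
lemma Facts.segMin_tendsto (F : Facts e) {z : ℕ → M} {z₀ : M} (hz : Tendsto z atTop (𝓝 z₀))
    {v : TangentSpace 𝓘(ℝ, E) z₀} (hv : v ∈ injDomain e z₀)
    (w : ∀ k, TangentSpace 𝓘(ℝ, E) (z k)) (hw : ∀ k, w k ∈ segMin e (z k))
    (hn : Tendsto (fun k => e (z k) (w k)) atTop (𝓝 (e z₀ v))) :
    TendstoTB w v := by
  refine tendsto_of_subseq_tendsto fun ns hns => ?_
  have hbd : Bornology.IsBounded (Set.univ : Set M) := isCompact_univ.isBounded
  obtain ⟨z₁, v₁, φ, hφ, h1⟩ := exists_tendstoTB (fun k => z (ns k)) (fun k => w (ns k))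
    (Metric.diam (Set.univ : Set M)) (fun k => by
      rw [← show dist (z (ns k)) (e (z (ns k)) (w (ns k))) = ‖w (ns k)‖ from hw (ns k)]
      exact Metric.dist_le_diam_of_mem hbd (Set.mem_univ _) (Set.mem_univ _))
  have hsub : Tendsto (fun k => ns (φ k)) atTop atTop := hns.comp hφ.tendsto_atTop
  have h2 : z₁ = z₀ := tendsto_nhds_unique h1.base (hz.comp hsub)
  subst h2
  have h3 : v₁ ∈ segMin e z₁ := h1.segMin F.isExp fun k => hw _
  have h4 : e z₁ v₁ = e z₁ v := tendsto_nhds_unique (h1.exp F.isExp) (hn.comp hsub)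
  have h5 : v₁ = v := F.injDomain_unique hv h3 h4
  subst h5
  exact ⟨φ, h1⟩

/-- No corner: if `p₁` and `p₂` are small minimizing vectors at `q` of the same length `ε` whose
end points have distance `2 ε` then `p₁ = -p₂`. -/
lemma Facts.no_corner (F : Facts e) {ρ : ℝ} (hρ : ∀ x y : M, dist x y < ρ → SmoothAt E x y)
    {q : M} {p₁ p₂ : TangentSpace 𝓘(ℝ, E) q} (h1 : p₁ ∈ segMin e q) (h2 : p₂ ∈ segMin e q)
    {ε : ℝ} (hε : 0 < ε) (hε' : ε < ρ) (hn1 : ‖p₁‖ = ε) (hn2 : ‖p₂‖ = ε)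
    (hd : 2 * ε ≤ dist (e q p₁) (e q p₂)) : p₁ + p₂ = 0 := by
  have hd1 : dist q (e q p₁) = ε := by rw [← hn1]; exact h1
  have hd2 : dist q (e q p₂) = ε := by rw [← hn2]; exact h2
  have s1 : SmoothAt E q (e q p₁) := hρ _ _ (by rw [hd1]; exact hε')
  have s2 : SmoothAt E q (e q p₂) := hρ _ _ (by rw [hd2]; exact hε')
  have g1 := hasFDerivAt_cost_zero F.isExp q p₁ h1 s1
  have g2 := hasFDerivAt_cost_zero F.isExp q p₂ h2 s2
  have g3 := g1.add g2
  have hmin : IsLocalMin (fun a : TangentSpace 𝓘(ℝ, E) q =>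
      cost (e q a) (e q p₁) + cost (e q a) (e q p₂)) 0 := by
    refine Filter.Eventually.of_forall fun a => ?_
    simp only [F.isExp.map_zero]
    have h5 := cost_ineq (e q p₁) (e q a) (e q p₂) hε hε
    have h6 : cost q (e q p₁) = ε ^ 2 / 2 := by simp only [cost, hd1]
    have h7 : cost q (e q p₂) = ε ^ 2 / 2 := by simp only [cost, hd2]
    have h8 : 2 * ε ^ 2 ≤ cost (e q p₁) (e q p₂) := by
      simp only [cost]
      nlinarith
    rw [h6, h7]
    rw [cost_comm (e q p₁) (e q a), ← add_div, div_le_div_iff₀ (by positivity) hε] at h5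
    nlinarith
  have h9 := hmin.hasFDerivAt_eq_zero g3
  have h10 : ∀ ξ : TangentSpace 𝓘(ℝ, E) q, inner ℝ (p₁ + p₂) ξ = 0 := by
    intro ξ
    have := congrArg (fun L => L ξ) h9
    simp only [_root_.add_apply, _root_.neg_apply, innerSL_apply_apply,
      _root_.zero_apply] at this
    rw [inner_add_left]
    linarith
  exact inner_self_eq_zero.1 (h10 (p₁ + p₂))

/-- A point between `x` and `y` lies on a minimizing geodesic. -/
lemma Facts.between (F : Facts e) {x q y : M} (h : dist x q + dist q y = dist x y) :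
    ∃ w ∈ segMin e x, e x w = y ∧ ∃ t : ℝ, 0 ≤ t ∧ t ≤ 1 ∧ e x (t • w) = q ∧
      dist x q = t * ‖w‖ := by
  have he := F.isExp
  rcases eq_or_ne x q with rfl | hxq
  · obtain ⟨w, hw, hd⟩ := F.hopfRinow x y
    exact ⟨w, by change dist x (e x w) = ‖w‖; rw [hw, hd], hw, 0, le_rfl, zero_le_one,
      by rw [zero_smul, he.map_zero], by simp⟩
  rcases eq_or_ne q y with rfl | hqy
  · obtain ⟨w, hw, hd⟩ := F.hopfRinow x q
    exact ⟨w, by change dist x (e x w) = ‖w‖; rw [hw, hd], hw, 1, zero_le_one, le_rfl,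
      by rw [one_smul, hw], by rw [one_mul, hd]⟩
  obtain ⟨v₁, hv₁, hd₁⟩ := F.hopfRinow x q
  obtain ⟨v₂, hv₂, hd₂⟩ := F.hopfRinow q y
  have hm₁ : v₁ ∈ segMin e x := by change dist x (e x v₁) = ‖v₁‖; rw [hv₁, hd₁]
  have hm₂ : v₂ ∈ segMin e q := by change dist q (e q v₂) = ‖v₂‖; rw [hv₂, hd₂]
  obtain ⟨ρ, hρ, hmin, hsm⟩ := F.short
  have hpos₁ : 0 < ‖v₁‖ := by rw [← hd₁]; exact dist_pos.2 hxq
  have hpos₂ : 0 < ‖v₂‖ := by rw [← hd₂]; exact dist_pos.2 hqy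
  obtain ⟨w₁, hw₁, hfl⟩ := F.flow' v₁ 1 (x' := q) (by rw [one_smul, hv₁])
  obtain ⟨ε, hε, hερ, hε₁, hε₂⟩ : ∃ ε : ℝ, 0 < ε ∧ ε < ρ ∧ ε < ‖v₁‖ ∧ ε < ‖v₂‖ := by
    obtain ⟨ε, hε, hlt⟩ := _root_.exists_between (lt_min hρ (lt_min hpos₁ hpos₂))
    rw [lt_min_iff, lt_min_iff] at hlt
    exact ⟨ε, hε, hlt.1, hlt.2.1, hlt.2.2⟩
  -- the two short vectors at `q`
  set p₁ : TangentSpace 𝓘(ℝ, E) q := (-(ε / ‖v₁‖)) • w₁ with hp₁
  set p₂ : TangentSpace 𝓘(ℝ, E) q := (ε / ‖v₂‖) • v₂ with hp₂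
  have hr₁ : 0 < ε / ‖v₁‖ := by positivity
  have hr₁' : ε / ‖v₁‖ < 1 := by rw [div_lt_one hpos₁]; exact hε₁
  have hr₂ : 0 < ε / ‖v₂‖ := by positivity
  have hr₂' : ε / ‖v₂‖ < 1 := by rw [div_lt_one hpos₂]; exact hε₂
  have hn₁ : ‖p₁‖ = ε := by
    rw [hp₁, norm_smul, hw₁, norm_neg, Real.norm_eq_abs, abs_of_pos hr₁]
    field_simp
  have hn₂ : ‖p₂‖ = ε := by
    rw [hp₂, norm_smul, Real.norm_eq_abs, abs_of_pos hr₂]
    field_simp
  have hq₁ : e q p₁ = e x ((1 - ε / ‖v₁‖) • v₁) := by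
    rw [hp₁, hfl, sub_eq_add_neg]
  have hdq₁ : dist (e x ((1 - ε / ‖v₁‖) • v₁)) q = ε := by
    have := segMin_dist he hm₁ (s := 1 - ε / ‖v₁‖) (t := 1) (by linarith) (by linarith) le_rfl
    rw [one_smul, hv₁] at this
    rw [this]
    field_simp
    ring
  have hs₁ : p₁ ∈ segMin e q := by
    change dist q (e q p₁) = ‖p₁‖
    rw [hn₁, hq₁, dist_comm, hdq₁]
  have hs₂ : p₂ ∈ segMin e q := smul_mem_segMin he hm₂ hr₂.le hr₂'.le
  have hx₁ : dist x (e q p₁) = ‖v₁‖ - ε := by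
    have := segMin_dist he hm₁ (s := 0) (t := 1 - ε / ‖v₁‖) le_rfl (by linarith) (by linarith)
    rw [zero_smul, he.map_zero] at this
    rw [hq₁, this]
    field_simp
    ring
  have hy₂ : dist (e q p₂) y = ‖v₂‖ - ε := by
    have := segMin_dist he hm₂ (s := ε / ‖v₂‖) (t := 1) hr₂.le hr₂'.le le_rfl
    rw [one_smul, hv₂] at this
    rw [hp₂, this]
    field_simp
  have hcorner : 2 * ε ≤ dist (e q p₁) (e q p₂) := by
    have t1 := dist_triangle4 x (e q p₁) (e q p₂) y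
    rw [hx₁, hy₂, ← h, hd₁, hd₂] at t1
    linarith
  have hzero := F.no_corner hsm hs₁ hs₂ hε hερ hn₁ hn₂ hcorner
  have hv₂w : v₂ = (‖v₂‖ / ‖v₁‖) • w₁ := by
    have h1 : (ε / ‖v₂‖) • v₂ = (ε / ‖v₁‖) • w₁ := by
      rw [hp₁, hp₂, neg_smul] at hzero
      rw [eq_comm, ← sub_eq_zero, ← neg_eq_zero, neg_sub, sub_eq_neg_add]
      exact hzero
    have h2 := congrArg (fun u => (‖v₂‖ / ε) • u) h1
    simp only [smul_smul] at h2
    have h3 : ‖v₂‖ / ε * (ε / ‖v₂‖) = 1 := by field_simp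
    have h4 : ‖v₂‖ / ε * (ε / ‖v₁‖) = ‖v₂‖ / ‖v₁‖ := by field_simp
    rw [h3, h4, one_smul] at h2
    exact h2
  have hsum : 0 < 1 + ‖v₂‖ / ‖v₁‖ := by positivity
  have hy : e x ((1 + ‖v₂‖ / ‖v₁‖) • v₁) = y := by
    rw [← hfl, ← hv₂w, hv₂]
  have hnw : ‖(1 + ‖v₂‖ / ‖v₁‖) • v₁‖ = ‖v₁‖ + ‖v₂‖ := by
    rw [norm_smul, Real.norm_eq_abs, abs_of_pos hsum]
    field_simp
  refine ⟨(1 + ‖v₂‖ / ‖v₁‖) • v₁, ?_, hy, 1 / (1 + ‖v₂‖ / ‖v₁‖), by positivity, ?_, ?_, ?_⟩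
  · change dist x (e x ((1 + ‖v₂‖ / ‖v₁‖) • v₁)) = ‖(1 + ‖v₂‖ / ‖v₁‖) • v₁‖
    rw [hy, hnw, ← h, hd₁, hd₂]
  · rw [div_le_one hsum]
    have : 0 < ‖v₂‖ / ‖v₁‖ := by positivity
    linarith
  · rw [smul_smul, one_div_mul_cancel hsum.ne', one_smul, hv₁]
  · rw [hnw, hd₁]
    field_simp

end

end Vale.Agent.P234
end
end

section

section

/-! Consequences of `Facts`: the smooth logarithm and openness of the injectivity domain. -/

set_option maxSynthPendingDepth 3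

open Bundle Manifold Set Filter
open scoped ContDiff Manifold Topology

namespace Vale.Agent.P234

noncomputable section

variable {E : Type*} [NormedAddCommGroup E] [NormedSpace ℝ E] [FiniteDimensional ℝ E]
  {M : Type*} [MetricSpace M] [ChartedSpace E M]
  [RiemannianBundle (fun x : M => TangentSpace 𝓘(ℝ, E) x)]
  [IsManifold 𝓘(ℝ, E) ∞ M]
  [IsContMDiffRiemannianBundle 𝓘(ℝ, E) ∞ E (fun x : M => TangentSpace 𝓘(ℝ, E) x)]
  {e : ∀ x : M, TangentSpace 𝓘(ℝ, E) x → M}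

/-- Minus the gradient at the centre of `a ↦ cost (e z a) y`. -/
def logMap (e : ∀ x : M, TangentSpace 𝓘(ℝ, E) x → M) (z y : M) : TangentSpace 𝓘(ℝ, E) z :=
  haveI : FiniteDimensional ℝ (TangentSpace 𝓘(ℝ, E) z) := inferInstanceAs (FiniteDimensional ℝ E)
  haveI : CompleteSpace (TangentSpace 𝓘(ℝ, E) z) := FiniteDimensional.complete ℝ _
  (InnerProductSpace.toDual ℝ (TangentSpace 𝓘(ℝ, E) z)).symm
    (-(fderiv ℝ (fun a : TangentSpace 𝓘(ℝ, E) z => cost (e z a) y) 0))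

/-- cost in exponential coordinates in the first variable and a chart in the second -/
lemma contDiffAt_cost_chart (he : IsExp e) {z y₀ : M} (hs : SmoothAt E z y₀) :
    ContDiffAt ℝ ∞ (fun p : E × TangentSpace 𝓘(ℝ, E) z =>
      cost (e z p.2) ((extChartAt 𝓘(ℝ, E) y₀).symm p.1)) (extChartAt 𝓘(ℝ, E) y₀ y₀, 0) := by
  rw [← contMDiffAt_iff_contDiffAt]
  have h1 : ContMDiffAt (𝓘(ℝ, E).prod 𝓘(ℝ, TangentSpace 𝓘(ℝ, E) z)) 𝓘(ℝ, E) ∞
      (fun p : E × TangentSpace 𝓘(ℝ, E) z => e z p.2) (extChartAt 𝓘(ℝ, E) y₀ y₀, 0) :=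
    (contMDiff_exp_fiber he z).contMDiffAt.comp _ contMDiffAt_snd
  have h0 : ContMDiffAt 𝓘(ℝ, E) 𝓘(ℝ, E) ∞ (extChartAt 𝓘(ℝ, E) y₀).symm
      (extChartAt 𝓘(ℝ, E) y₀ y₀) :=
    (contMDiffOn_extChartAt_symm y₀).contMDiffAt (extChartAt_target_mem_nhds y₀)
  have h2 : ContMDiffAt (𝓘(ℝ, E).prod 𝓘(ℝ, TangentSpace 𝓘(ℝ, E) z)) 𝓘(ℝ, E) ∞
      (fun p : E × TangentSpace 𝓘(ℝ, E) z => (extChartAt 𝓘(ℝ, E) y₀).symm p.1)
      (extChartAt 𝓘(ℝ, E) y₀ y₀, 0) := ContMDiffAt.comp _ h0 contMDiffAt_fst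
  have h3 := h1.prodMk h2
  have h4 : ContMDiffAt (𝓘(ℝ, E).prod 𝓘(ℝ, E)) 𝓘(ℝ, ℝ) ∞ (fun p : M × M => cost p.1 p.2)
      (e z 0, (extChartAt 𝓘(ℝ, E) y₀).symm (extChartAt 𝓘(ℝ, E) y₀ y₀)) := by
    rw [he.map_zero, extChartAt_to_inv]
    exact hs.contMDiffAt
  have h5 := ContMDiffAt.comp (extChartAt 𝓘(ℝ, E) y₀ y₀, (0 : TangentSpace 𝓘(ℝ, E) z)) h4 h3
  rw [modelWithCornersSelf_prod, ← chartedSpaceSelf_prod]
  exact h5

lemma contMDiffAt_logMap (he : IsExp e) {z y₀ : M} (hs : SmoothAt E z y₀) :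
    ContMDiffAt 𝓘(ℝ, E) 𝓘(ℝ, TangentSpace 𝓘(ℝ, E) z) ∞ (logMap e z) y₀ := by
  have h1 : ContDiffAt ℝ ∞ (fun u : E => fderiv ℝ (fun a : TangentSpace 𝓘(ℝ, E) z =>
      cost (e z a) ((extChartAt 𝓘(ℝ, E) y₀).symm u)) 0) (extChartAt 𝓘(ℝ, E) y₀ y₀) :=
    ContDiffAt.fderiv (n := ∞) (contDiffAt_cost_chart he hs) contDiffAt_const (by simp)
  have h2 : ContMDiffAt 𝓘(ℝ, E) 𝓘(ℝ, E) ∞ (extChartAt 𝓘(ℝ, E) y₀) y₀ :=
    contMDiffAt_extChartAt
  have h3 := h1.contMDiffAt.comp y₀ h2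
  have : FiniteDimensional ℝ (TangentSpace 𝓘(ℝ, E) z) := inferInstanceAs (FiniteDimensional ℝ E)
  have : CompleteSpace (TangentSpace 𝓘(ℝ, E) z) := FiniteDimensional.complete ℝ _
  have h4 : ContDiff ℝ ∞ (fun l : TangentSpace 𝓘(ℝ, E) z →L[ℝ] ℝ =>
      (InnerProductSpace.toDual ℝ (TangentSpace 𝓘(ℝ, E) z)).symm (-l)) :=
    (LinearIsometryEquiv.contDiff _).comp contDiff_neg
  have h5 := h4.contMDiff.contMDiffAt.comp y₀ h3
  refine h5.congr_of_eventuallyEq ?_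
  filter_upwards [extChartAt_source_mem_nhds (I := 𝓘(ℝ, E)) y₀] with y hy
  simp only [Function.comp_apply, logMap]
  rw [(extChartAt 𝓘(ℝ, E) y₀).left_inv hy]

lemma logMap_eq (he : IsExp e) {z : M} {w : TangentSpace 𝓘(ℝ, E) z} (hw : w ∈ segMin e z)
    (hs : SmoothAt E z (e z w)) : logMap e z (e z w) = w := by
  unfold logMap
  rw [(hasFDerivAt_cost_zero he z w hw hs).fderiv, neg_neg]
  have : FiniteDimensional ℝ (TangentSpace 𝓘(ℝ, E) z) := inferInstanceAs (FiniteDimensional ℝ E)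
  have : CompleteSpace (TangentSpace 𝓘(ℝ, E) z) := FiniteDimensional.complete ℝ _
  rw [LinearIsometryEquiv.symm_apply_eq]
  ext ξ
  simp

/-- The logarithm is a local inverse of the exponential map. -/
lemma eventually_logMap (he : IsExp e)
    (hr : ∀ x y : M, ∃ v : TangentSpace 𝓘(ℝ, E) x, e x v = y ∧ dist x y = ‖v‖) {z : M} {y₀ : M}
    (hs : SmoothAt E z y₀) :
    ∀ᶠ y in 𝓝 y₀, logMap e z y ∈ segMin e z ∧ e z (logMap e z y) = y := by
  have h1 : ∀ᶠ y in 𝓝 y₀, SmoothAt E z y := by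
    have := hs.eventually
    rw [nhds_prod_eq] at this
    exact this.curry.self_of_nhds
  filter_upwards [h1] with y hy
  obtain ⟨w, hw, hd⟩ := hr z y
  have hwm : w ∈ segMin e z := by
    change dist z (e z w) = ‖w‖
    rw [hw, hd]
  have h2 : logMap e z y = w := by
    rw [← hw]
    exact logMap_eq he hwm (by rw [hw]; exact hy)
  rw [h2]
  exact ⟨hwm, hw⟩

lemma eventually_logMap_exp (he : IsExp e)
    (hr : ∀ x y : M, ∃ v : TangentSpace 𝓘(ℝ, E) x, e x v = y ∧ dist x y = ‖v‖) {z : M}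
    {v : TangentSpace 𝓘(ℝ, E) z} (hv : v ∈ segMin e z) (hs : SmoothAt E z (e z v)) :
    ∀ᶠ b in 𝓝 v, logMap e z (e z b) = b := by
  set y₀ := e z v with hy₀
  set φ := extChartAt 𝓘(ℝ, E) y₀ with hφ
  set u₀ := φ y₀ with hu₀
  have : FiniteDimensional ℝ (TangentSpace 𝓘(ℝ, E) z) := inferInstanceAs (FiniteDimensional ℝ E)
  have : CompleteSpace (TangentSpace 𝓘(ℝ, E) z) := FiniteDimensional.complete ℝ _
  have : CompleteSpace E := FiniteDimensional.complete ℝ _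
  have hψ : ContMDiffAt 𝓘(ℝ, E) 𝓘(ℝ, E) ∞ φ.symm u₀ :=
    (contMDiffOn_extChartAt_symm y₀).contMDiffAt (extChartAt_target_mem_nhds y₀)
  have hψ0 : φ.symm u₀ = y₀ := extChartAt_to_inv y₀
  have hL0 : logMap e z y₀ = v := logMap_eq he hv hs
  have hl : ContDiffAt ℝ ∞ (fun u : E => logMap e z (φ.symm u)) u₀ := by
    have h1 : ContMDiffAt 𝓘(ℝ, E) 𝓘(ℝ, TangentSpace 𝓘(ℝ, E) z) ∞ (logMap e z) (φ.symm u₀) := by
      rw [hψ0]
      exact contMDiffAt_logMap he hs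
    exact (h1.comp u₀ hψ).contDiffAt
  have hl0 : logMap e z (φ.symm u₀) = v := by rw [hψ0, hL0]
  have hg : ContDiffAt ℝ ∞ (fun b : TangentSpace 𝓘(ℝ, E) z => φ (e z b)) v := by
    have h2 : ContMDiffAt 𝓘(ℝ, E) 𝓘(ℝ, E) ∞ φ (e z v) := contMDiffAt_extChartAt
    exact (h2.comp v (contMDiff_exp_fiber he z).contMDiffAt).contDiffAt
  have hev : ∀ᶠ u in 𝓝 u₀, e z (logMap e z (φ.symm u)) = φ.symm u := by
    have h3 := hψ.continuousAt.eventually (by rw [hψ0]; exact eventually_logMap he hr hs)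
    filter_upwards [h3] with u hu using hu.2
  have hgl : ∀ᶠ u in 𝓝 u₀, (fun b : TangentSpace 𝓘(ℝ, E) z => φ (e z b))
      (logMap e z (φ.symm u)) = u := by
    filter_upwards [hev, extChartAt_target_mem_nhds (I := 𝓘(ℝ, E)) y₀] with u hu hut
    simp only [hu]
    exact φ.right_inv hut
  have hdl := (hl.differentiableAt (by simp)).hasFDerivAt
  have hdg : HasFDerivAt (fun b : TangentSpace 𝓘(ℝ, E) z => φ (e z b))
      (fderiv ℝ (fun b : TangentSpace 𝓘(ℝ, E) z => φ (e z b)) v)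
      (logMap e z (φ.symm u₀)) := by
    rw [hl0]
    exact (hg.differentiableAt (by simp)).hasFDerivAt
  have hcomp := hdg.comp u₀ hdl
  have hid : (fderiv ℝ (fun b : TangentSpace 𝓘(ℝ, E) z => φ (e z b)) v).comp
      (fderiv ℝ (fun u : E => logMap e z (φ.symm u)) u₀) = ContinuousLinearMap.id ℝ E := by
    refine hcomp.unique ?_
    exact (hasFDerivAt_id u₀).congr_of_eventuallyEq hgl
  have hinj : Function.Injective (fderiv ℝ (fun u : E => logMap e z (φ.symm u)) u₀) := by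
    intro a b hab
    have h4 := congrArg (fun A : E →L[ℝ] E => A a) hid
    have h5 := congrArg (fun A : E →L[ℝ] E => A b) hid
    simp only [ContinuousLinearMap.comp_apply, ContinuousLinearMap.id_apply] at h4 h5
    rw [← h4, ← h5, hab]
  have hsurj : Function.Surjective (fderiv ℝ (fun u : E => logMap e z (φ.symm u)) u₀) := by
    have hfr : Module.finrank ℝ E = Module.finrank ℝ (TangentSpace 𝓘(ℝ, E) z) := rfl
    exact (LinearMap.injective_iff_surjective_of_finrank_eq_finrank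
      (f := (fderiv ℝ (fun u : E => logMap e z (φ.symm u)) u₀).toLinearMap) hfr).mp hinj
  have hmap := (hl.hasStrictFDerivAt (by simp)).map_nhds_eq_of_surj
    (LinearMap.range_eq_top.mpr hsurj)
  rw [hl0] at hmap
  rw [← hmap]
  change ∀ᶠ u in 𝓝 u₀, logMap e z (e z (logMap e z (φ.symm u))) = logMap e z (φ.symm u)
  filter_upwards [hev] with u hu
  rw [hu]

/-- Smooth local inverse of `e z` at a point `v` of the injectivity domain: take
`L y` representing minus the derivative at `0` of `a ↦ cost (e z a) y`. -/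
lemma Facts.smoothLog (F : Facts e) {z : M} {v : TangentSpace 𝓘(ℝ, E) z}
    (hv : v ∈ injDomain e z) :
    ∃ L : M → TangentSpace 𝓘(ℝ, E) z,
      ContMDiffAt 𝓘(ℝ, E) 𝓘(ℝ, TangentSpace 𝓘(ℝ, E) z) ∞ L (e z v) ∧ L (e z v) = v ∧
      (∀ᶠ y in 𝓝 (e z v), L y ∈ segMin e z ∧ e z (L y) = y) ∧
      (∀ᶠ b in 𝓝 v, L (e z b) = b) := by
  have hs := F.smooth_cost z v hv
  have hm := injDomain_subset_segMin F.isExp z hv
  exact ⟨logMap e z, contMDiffAt_logMap F.isExp hs, logMap_eq F.isExp hm hs,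
    eventually_logMap F.isExp F.hopfRinow hs, eventually_logMap_exp F.isExp F.hopfRinow hm hs⟩

lemma Facts.eventually_segMin (F : Facts e) {z : M} {v : TangentSpace 𝓘(ℝ, E) z}
    (hv : v ∈ injDomain e z) : ∀ᶠ b in 𝓝 v, b ∈ segMin e z := by
  obtain ⟨L, -, -, h1, h2⟩ := F.smoothLog hv
  have h3 := (contMDiff_exp_fiber F.isExp z).continuous.continuousAt.eventually h1
  filter_upwards [h2, h3] with b hb hb'
  rw [hb] at hb'
  exact hb'.1

/-- The injectivity domain is open in the tangent space. -/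
lemma Facts.isOpen_injDomain (F : Facts e) (z : M) : IsOpen (injDomain e z) := by
  rw [isOpen_iff_mem_nhds]
  intro v hv
  obtain ⟨a, ha, hav⟩ := (mem_injDomain_iff F.isExp).mp hv
  set b : ℝ := (1 + a) / 2 with hb
  have hb1 : 1 < b := by rw [hb]; linarith
  have hba : b < a := by rw [hb]; linarith
  have ha0 : 0 < a := by linarith
  have hbv : b • v ∈ injDomain e z := by
    have := smul_mem_injDomain F.isExp hav (t := b / a) (by positivity)
      ((div_lt_one ha0).mpr hba)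
    rwa [smul_smul, div_mul_cancel₀ _ ha0.ne'] at this
  have h1 := F.eventually_segMin hbv
  have h2 : Filter.Tendsto (fun w : TangentSpace 𝓘(ℝ, E) z => b • w) (𝓝 v) (𝓝 (b • v)) :=
    (continuous_const_smul b).continuousAt
  filter_upwards [h2.eventually h1] with w hw
  exact (mem_injDomain_iff F.isExp).mpr ⟨b, hb1, hw⟩

end

end Vale.Agent.P234
end
end

section

section

/-! Potentials, their subdifferentials, and the statements of the main steps. -/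

set_option maxSynthPendingDepth 3
set_option linter.unusedSectionVars false

open Bundle Manifold Set Filter
open scoped ContDiff Manifold Topology

namespace Vale.Agent.P234

noncomputable section

/-- A finite maximum of functions `a i - cost · (y i)`. -/
structure Pot (M : Type*) [MetricSpace M] where
  N : ℕ
  a : Fin N → ℝ
  y : Fin N → M
  phi : M → ℝ
  lower : ∀ i x, a i - cost x (y i) ≤ phi x
  attained : ∀ x, ∃ i, phi x = a i - cost x (y i)

variable {E : Type*} [NormedAddCommGroup E] [NormedSpace ℝ E] [FiniteDimensional ℝ E]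
  {M : Type*} [MetricSpace M] [ChartedSpace E M]
  [RiemannianBundle (fun x : M => TangentSpace 𝓘(ℝ, E) x)]

/-- Vertices of the subdifferential: minimizing vectors towards active points. -/
def Pot.vtx (P : Pot M) (e : ∀ x : M, TangentSpace 𝓘(ℝ, E) x → M) (z : M) :
    Set (TangentSpace 𝓘(ℝ, E) z) :=
  {w | w ∈ segMin e z ∧ ∃ i, e z w = P.y i ∧ P.phi z = P.a i - cost z (P.y i)}

/-- The subdifferential. -/
def Pot.sub (P : Pot M) (e : ∀ x : M, TangentSpace 𝓘(ℝ, E) x → M) (z : M) :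
    Set (TangentSpace 𝓘(ℝ, E) z) :=
  convexHull ℝ (P.vtx e z)

/-- The support property at time `τ`. -/
def Pot.A (P : Pot M) (e : ∀ x : M, TangentSpace 𝓘(ℝ, E) x → M) (τ : ℝ) : Prop :=
  ∀ (z : M), ∀ u ∈ P.sub e z, ∀ x : M,
    τ * ‖u‖ ^ 2 / 2 + P.phi z ≤ cost x (e z (τ • u)) / τ + P.phi x

variable [IsManifold 𝓘(ℝ, E) ∞ M]
  [IsContMDiffRiemannianBundle 𝓘(ℝ, E) ∞ E (fun x : M => TangentSpace 𝓘(ℝ, E) x)]
  [CompactSpace M]
  {e : ∀ x : M, TangentSpace 𝓘(ℝ, E) x → M}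

omit [ChartedSpace E M] [RiemannianBundle (fun x : M => TangentSpace 𝓘(ℝ, E) x)]
  [IsManifold 𝓘(ℝ, E) ∞ M]
  [IsContMDiffRiemannianBundle 𝓘(ℝ, E) ∞ E (fun x : M => TangentSpace 𝓘(ℝ, E) x)] in
lemma dist_le_diam_univ (x y : M) : dist x y ≤ Metric.diam (univ : Set M) :=
  Metric.dist_le_diam_of_mem isCompact_univ.isBounded (mem_univ x) (mem_univ y)

lemma Pot.phi_sub_le (P : Pot M) (x x' : M) :
    P.phi x - P.phi x' ≤ Metric.diam (univ : Set M) * dist x x' := by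
  obtain ⟨i, hi⟩ := P.attained x
  have h1 := P.lower i x'
  have h2 := dist_le_diam_univ x (P.y i)
  have h3 := dist_le_diam_univ x' (P.y i)
  have h4 : dist x' (P.y i) ≤ dist x x' + dist x (P.y i) := by
    have := dist_triangle x' x (P.y i)
    rwa [dist_comm x' x] at this
  have h5 : 0 ≤ dist x (P.y i) := dist_nonneg
  have h6 : 0 ≤ dist x' (P.y i) := dist_nonneg
  have h7 : 0 ≤ dist x x' := dist_nonneg
  have h8 : P.phi x - P.phi x' ≤ cost x' (P.y i) - cost x (P.y i) := by linarith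
  refine h8.trans ?_
  rw [cost, cost]
  nlinarith [mul_nonneg h7 (sub_nonneg.mpr h2), mul_nonneg h7 (sub_nonneg.mpr h3),
    mul_nonneg (sub_nonneg.mpr h4) (add_nonneg h5 h6)]

/-- Lipschitz bound for the potential. -/
lemma Pot.phi_lipschitz (P : Pot M) (x x' : M) :
    |P.phi x - P.phi x'| ≤ Metric.diam (univ : Set M) * dist x x' := by
  rw [abs_le]
  constructor
  · have := P.phi_sub_le x' x
    rw [dist_comm] at this
    linarith
  · exact P.phi_sub_le x x'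

lemma Pot.continuous_phi (P : Pot M) : Continuous P.phi := by
  have : LipschitzWith (Real.toNNReal (Metric.diam (univ : Set M))) P.phi := by
    apply LipschitzWith.of_dist_le_mul
    intro x x'
    rw [Real.dist_eq, Real.coe_toNNReal _ Metric.diam_nonneg]
    exact P.phi_lipschitz x x'
  exact this.continuous

lemma Pot.norm_le_of_mem_vtx (P : Pot M) {z : M} {u : TangentSpace 𝓘(ℝ, E) z}
    (hu : u ∈ P.vtx e z) : ‖u‖ ≤ Metric.diam (univ : Set M) := by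
  have h : dist z (e z u) = ‖u‖ := hu.1
  rw [← h]
  exact dist_le_diam_univ _ _

lemma Pot.norm_le_of_mem_sub (P : Pot M) {z : M} {u : TangentSpace 𝓘(ℝ, E) z}
    (hu : u ∈ P.sub e z) : ‖u‖ ≤ Metric.diam (univ : Set M) := by
  have h : P.sub e z ⊆ Metric.closedBall (0 : TangentSpace 𝓘(ℝ, E) z)
      (Metric.diam (univ : Set M)) := by
    apply convexHull_min
    · intro w hw
      rw [mem_closedBall_zero_iff]
      exact P.norm_le_of_mem_vtx hw
    · exact convex_closedBall _ _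
  have := h hu
  rwa [mem_closedBall_zero_iff] at this

/-- Semiconvexity-type lower bound of the potential by smooth functions. -/
lemma Pot.phi_lower (P : Pot M) (he : IsExp e) {z : M} {w : TangentSpace 𝓘(ℝ, E) z}
    (hw : w ∈ P.vtx e z) {t : ℝ} (ht0 : 0 < t) (ht1 : t < 1) (x : M) :
    P.phi z + t * ‖w‖ ^ 2 / 2 - cost x (e z (t • w)) / t ≤ P.phi x := by
  obtain ⟨hseg, i, hi, hphi⟩ := hw
  have h1 := P.lower i x
  have h2 : cost z (e z w) = ‖w‖ ^ 2 / 2 := by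
    have : dist z (e z w) = ‖w‖ := hseg
    rw [cost, this]
  rw [← hi] at h1 hphi
  have h3 := cost_ineq x (e z (t • w)) (e z w) ht0 (sub_pos.mpr ht1)
  have h4 := segMin_cost he hseg ht0.le ht1.le (le_refl (1 : ℝ))
  rw [one_smul] at h4
  rw [h4] at h3
  have h5 : (1 - t) ^ 2 * ‖w‖ ^ 2 / 2 / (1 - t) = (1 - t) * ‖w‖ ^ 2 / 2 := by
    have : (1 - t) ≠ 0 := (sub_pos.mpr ht1).ne'
    field_simp
  rw [h5, add_sub_cancel, div_one] at h3
  rw [h2] at hphi
  linarith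

/-- Limits of vertices are vertices. -/
lemma Pot.vtx_closed (P : Pot M) (he : IsExp e) {z : ℕ → M}
    {w : ∀ k, TangentSpace 𝓘(ℝ, E) (z k)} {z₀ : M} {w₀ : TangentSpace 𝓘(ℝ, E) z₀}
    (h : TendstoTB w w₀) (hw : ∀ k, w k ∈ P.vtx e (z k)) : w₀ ∈ P.vtx e z₀ := by
  refine ⟨h.segMin he (fun k => (hw k).1), ?_⟩
  have hclosed : IsClosed (⋃ i : Fin P.N, {p : M × M | p.2 = P.y i ∧
      P.phi p.1 = P.a i - cost p.1 (P.y i)}) := by
    apply isClosed_iUnion_of_finite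
    intro i
    apply IsClosed.inter
    · exact isClosed_eq continuous_snd continuous_const
    · refine isClosed_eq (P.continuous_phi.comp continuous_fst) ?_
      have hc : Continuous (fun p : M × M => cost p.1 (P.y i)) :=
        continuous_cost.comp (continuous_fst.prodMk continuous_const)
      exact continuous_const.sub hc
  have hlim : Tendsto (fun k => (z k, e (z k) (w k))) atTop (𝓝 (z₀, e z₀ w₀)) :=
    h.base.prodMk_nhds (h.exp he)
  have hmem := hclosed.mem_of_tendsto hlim (Eventually.of_forall fun k => by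
    obtain ⟨i, hi1, hi2⟩ := (hw k).2
    exact mem_iUnion.mpr ⟨i, hi1, hi2⟩)
  obtain ⟨i, hi1, hi2⟩ := mem_iUnion.mp hmem
  exact ⟨i, hi1, hi2⟩

lemma Pot.isCompact_vtx (P : Pot M) (he : IsExp e) (z : M) : IsCompact (P.vtx e z) := by
  have : FiniteDimensional ℝ (TangentSpace 𝓘(ℝ, E) z) := inferInstanceAs (FiniteDimensional ℝ E)
  have : ProperSpace (TangentSpace 𝓘(ℝ, E) z) := FiniteDimensional.proper ℝ _
  apply Metric.isCompact_of_isClosed_isBounded
  · apply IsSeqClosed.isClosed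
    intro v v₀ hv hlim
    exact P.vtx_closed he (z := fun _ => z) (tendstoTB_const_base.mpr hlim) hv
  · refine (Metric.isBounded_closedBall (x := (0 : TangentSpace 𝓘(ℝ, E) z))
      (r := Metric.diam (univ : Set M))).subset ?_
    intro w hw
    rw [mem_closedBall_zero_iff]
    exact P.norm_le_of_mem_vtx hw

/-- Caratheodory with a fixed number of vertices. -/
lemma Pot.exists_rep (P : Pot M) {z : M} {u : TangentSpace 𝓘(ℝ, E) z} (hu : u ∈ P.sub e z) :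
    ∃ (lam : Fin (Module.finrank ℝ E + 1) → ℝ)
      (w : Fin (Module.finrank ℝ E + 1) → TangentSpace 𝓘(ℝ, E) z),
      (∀ j, 0 ≤ lam j) ∧ ∑ j, lam j = 1 ∧ (∀ j, w j ∈ P.vtx e z) ∧ ∑ j, lam j • w j = u := by
  classical
  have : FiniteDimensional ℝ (TangentSpace 𝓘(ℝ, E) z) := inferInstanceAs (FiniteDimensional ℝ E)
  obtain ⟨ι, hι, w, c, hw, hind, hc, hsum, hcomb⟩ := eq_pos_convex_span_of_mem_convexHull hu
  have hcard : Fintype.card ι ≤ Module.finrank ℝ E + 1 := by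
    have h1 := hind.card_le_finrank_succ
    have h2 : Module.finrank ℝ (vectorSpan ℝ (Set.range w))
        ≤ Module.finrank ℝ (TangentSpace 𝓘(ℝ, E) z) := Submodule.finrank_le _
    have h3 : Module.finrank ℝ (TangentSpace 𝓘(ℝ, E) z) = Module.finrank ℝ E := rfl
    omega
  have hne : Nonempty ι := by
    by_contra hemp
    rw [not_nonempty_iff] at hemp
    rw [Fintype.sum_empty] at hsum
    exact zero_ne_one hsum
  obtain ⟨i₀⟩ := hne
  obtain ⟨f⟩ : Nonempty (ι ↪ Fin (Module.finrank ℝ E + 1)) := by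
    apply Function.Embedding.nonempty_of_card_le
    rwa [Fintype.card_fin]
  refine ⟨Function.extend f c 0, Function.extend f w (fun _ => w i₀), ?_, ?_, ?_, ?_⟩
  · intro j
    by_cases hj : ∃ i, f i = j
    · obtain ⟨i, rfl⟩ := hj
      rw [f.injective.extend_apply]
      exact (hc i).le
    · rw [Function.extend_apply' _ _ _ hj]
      exact le_rfl
  · rw [← hsum]
    symm
    apply Fintype.sum_of_injective f f.injective
    · intro j hj
      rw [Function.extend_apply' _ _ _ (by simpa using hj)]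
      rfl
    · intro i
      rw [f.injective.extend_apply]
  · intro j
    by_cases hj : ∃ i, f i = j
    · obtain ⟨i, rfl⟩ := hj
      rw [f.injective.extend_apply]
      exact hw ⟨i, rfl⟩
    · rw [Function.extend_apply' _ _ _ hj]
      exact hw ⟨i₀, rfl⟩
  · rw [← hcomb]
    symm
    apply Fintype.sum_of_injective f f.injective
    · intro j hj
      rw [Function.extend_apply' c (0 : Fin (Module.finrank ℝ E + 1) → ℝ) j (by simpa using hj)]
      exact zero_smul ℝ _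
    · intro i
      rw [f.injective.extend_apply, f.injective.extend_apply]

/-- Extraction of convergent subsequences of subgradients with their representations. -/
lemma Pot.extract (P : Pot M) (he : IsExp e) (z : ℕ → M) (u : ∀ k, TangentSpace 𝓘(ℝ, E) (z k))
    (hu : ∀ k, u k ∈ P.sub e (z k)) :
    ∃ (φ : ℕ → ℕ) (z₀ : M) (lam : ℕ → Fin (Module.finrank ℝ E + 1) → ℝ)
      (w : ∀ k, Fin (Module.finrank ℝ E + 1) → TangentSpace 𝓘(ℝ, E) (z (φ k)))
      (lam₀ : Fin (Module.finrank ℝ E + 1) → ℝ)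
      (w₀ : Fin (Module.finrank ℝ E + 1) → TangentSpace 𝓘(ℝ, E) z₀),
      StrictMono φ ∧
      (∀ k j, 0 ≤ lam k j) ∧ (∀ k, ∑ j, lam k j = 1) ∧ (∀ k j, w k j ∈ P.vtx e (z (φ k))) ∧
      (∀ k, ∑ j, lam k j • w k j = u (φ k)) ∧
      (∀ j, Tendsto (fun k => lam k j) atTop (𝓝 (lam₀ j))) ∧
      (∀ j, TendstoTB (z := fun k => z (φ k)) (fun k => w k j) (w₀ j)) ∧
      Tendsto (fun k => z (φ k)) atTop (𝓝 z₀) ∧
      (∀ j, 0 ≤ lam₀ j) ∧ ∑ j, lam₀ j = 1 ∧ (∀ j, w₀ j ∈ P.vtx e z₀) ∧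
      TendstoTB (z := fun k => z (φ k)) (fun k => u (φ k)) (∑ j, lam₀ j • w₀ j) := by
  choose lam w h0 h1 hw hcomb using fun k => P.exists_rep (hu k)
  obtain ⟨z₀, w₀, φ₁, hφ₁, hz₁, hw₁⟩ := exists_tendstoTB_fin z w (Metric.diam (univ : Set M))
    (fun k j => P.norm_le_of_mem_vtx (hw k j))
  have hcpt : IsCompact (Set.pi univ (fun _ : Fin (Module.finrank ℝ E + 1) => Icc (0 : ℝ) 1)) :=
    isCompact_univ_pi fun _ => isCompact_Icc
  have hmem : ∀ k, lam (φ₁ k) ∈ Set.pi univ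
      (fun _ : Fin (Module.finrank ℝ E + 1) => Icc (0 : ℝ) 1) := by
    intro k j _
    refine ⟨h0 _ j, ?_⟩
    rw [← h1 (φ₁ k)]
    exact Finset.single_le_sum (f := fun j => lam (φ₁ k) j) (fun i _ => h0 _ i)
      (Finset.mem_univ j)
  obtain ⟨lam₀, hlam₀, φ₂, hφ₂, hlim⟩ := hcpt.tendsto_subseq hmem
  have hl : ∀ j, Tendsto (fun k => lam (φ₁ (φ₂ k)) j) atTop (𝓝 (lam₀ j)) := by
    intro j
    exact (tendsto_pi_nhds.mp hlim) j
  have hwl : ∀ j, TendstoTB (z := fun k => z (φ₁ (φ₂ k))) (fun k => w (φ₁ (φ₂ k)) j) (w₀ j) :=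
    fun j => (hw₁ j).subseq hφ₂
  have hzl : Tendsto (fun k => z (φ₁ (φ₂ k))) atTop (𝓝 z₀) := hz₁.comp hφ₂.tendsto_atTop
  have hsum0 : ∑ j, lam₀ j = 1 := by
    have h2 : Tendsto (fun k => ∑ j, lam (φ₁ (φ₂ k)) j) atTop (𝓝 (∑ j, lam₀ j)) :=
      tendsto_finsetSum _ fun j _ => hl j
    have h3 : (fun k => ∑ j, lam (φ₁ (φ₂ k)) j) = fun _ => (1 : ℝ) := by
      funext k; exact h1 _
    rw [h3] at h2
    exact (tendsto_nhds_unique h2 tendsto_const_nhds)
  refine ⟨fun k => φ₁ (φ₂ k), z₀, fun k => lam (φ₁ (φ₂ k)), fun k => w (φ₁ (φ₂ k)), lam₀, w₀,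
    hφ₁.comp hφ₂, fun k j => h0 _ j, fun k => h1 _, fun k j => hw _ j, fun k => hcomb _, hl, hwl,
    hzl, fun j => (hlam₀ j (mem_univ j)).1, hsum0,
    fun j => P.vtx_closed he (hwl j) (fun k => hw _ j), ?_⟩
  have h4 := TendstoTB.sum (z := fun k => z (φ₁ (φ₂ k))) (w := fun k => w (φ₁ (φ₂ k)))
    (c := fun k => lam (φ₁ (φ₂ k))) hzl hwl hl
  have h5 : (fun k => ∑ j, lam (φ₁ (φ₂ k)) j • w (φ₁ (φ₂ k)) j) = fun k => u (φ₁ (φ₂ k)) := by
    funext k; exact hcomb _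
  rw [h5] at h4
  exact h4

/-- `A τ` implies that `τ u` is minimizing. -/
lemma Pot.A.segMin {P : Pot M} (he : IsExp e) {τ : ℝ} (hτ : 0 < τ) (h : P.A e τ) {z : M}
    {u : TangentSpace 𝓘(ℝ, E) z} (hu : u ∈ P.sub e z) : τ • u ∈ Vale.Agent.P234.segMin e z := by
  rw [mem_segMin_iff_cost he]
  have h1 := h z u hu z
  have h2 : τ * ‖u‖ ^ 2 / 2 ≤ cost z (e z (τ • u)) / τ := by linarith
  rw [le_div_iff₀ hτ] at h2
  rw [norm_smul, Real.norm_of_nonneg hτ.le, mul_pow]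
  nlinarith

/-- Closedness. -/
lemma Pot.A.of_tendsto {P : Pot M} (he : IsExp e) {τ : ℕ → ℝ} {τ₀ : ℝ} (hτ₀ : 0 < τ₀)
    (hτ : Tendsto τ atTop (𝓝 τ₀)) (h : ∀ k, P.A e (τ k)) : P.A e τ₀ := by
  intro z u hu x
  have h1 : Tendsto (fun k => τ k * ‖u‖ ^ 2 / 2 + P.phi z) atTop
      (𝓝 (τ₀ * ‖u‖ ^ 2 / 2 + P.phi z)) :=
    ((hτ.mul_const _).div_const _).add_const _
  have h2 : Tendsto (fun k => e z (τ k • u)) atTop (𝓝 (e z (τ₀ • u))) := by
    rw [tendsto_iff_dist_tendsto_zero]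
    have h5 : Tendsto (fun k => |τ₀ - τ k| * ‖u‖) atTop (𝓝 0) := by
      have h6 : Tendsto (fun k => |τ₀ - τ k| * ‖u‖) atTop (𝓝 (|τ₀ - τ₀| * ‖u‖)) :=
        ((tendsto_const_nhds.sub hτ).abs).mul_const _
      simpa using h6
    exact squeeze_zero (fun _ => dist_nonneg) (fun k => dist_exp_le he z u (τ k) τ₀) h5
  have hc : Continuous (fun q : M => cost x q) := by
    have h7 : Continuous (fun q : M => (x, q)) := by fun_prop
    exact (continuous_cost (M := M)).comp h7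
  generalize e z (τ₀ • u) = q₀ at h2 ⊢
  have h3 : Tendsto (fun k => cost x (e z (τ k • u))) atTop (𝓝 (cost x q₀)) :=
    (hc.tendsto q₀).comp h2
  have h4 : Tendsto (fun k => cost x (e z (τ k • u)) / τ k + P.phi x) atTop
      (𝓝 (cost x q₀ / τ₀ + P.phi x)) :=
    (h3.div hτ hτ₀.ne').add_const _
  exact le_of_tendsto_of_tendsto' h1 h4 (fun k => h k z u hu x)

/-- Two-piece cost with durations `θ` and `δ`. -/
def two (θ δ : ℝ) (x m y : M) : ℝ := cost x m / θ + cost m y / δ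

end

end Vale.Agent.P234
end
end

section

section

/-! Base case of the continuity method. -/

set_option maxSynthPendingDepth 3

open Bundle Manifold Set Filter
open scoped ContDiff Manifold Topology

namespace Vale.Agent.P234

noncomputable section

lemma base_two_le_infty : (2 : ℕ∞ω) ≤ ∞ := WithTop.coe_le_coe.2 (le_top : (2 : ℕ∞) ≤ ⊤)

/-- Taylor expansion in the first variable. -/
lemma taylor_partial {V W : Type*} [NormedAddCommGroup V] [NormedSpace ℝ V]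
    [NormedAddCommGroup W] [NormedSpace ℝ W] {F : V × W → ℝ} {a₀ : V} {b₀ : W}
    (hF : ContDiffAt ℝ 2 F (a₀, b₀)) {ε : ℝ} (hε : 0 < ε) :
    ∃ δ > 0, ∀ (a h : V) (b : W), ‖a - a₀‖ < δ → ‖b - b₀‖ < δ → ‖h‖ < δ →
      ∀ D : V →L[ℝ] ℝ, HasFDerivAt (fun a' : V => F (a', b)) D a →
      |F (a + h, b) - F (a, b) - D h - (1 / 2) * hess F (a₀, b₀) (h, 0) (h, 0)| ≤ ε * ‖h‖ ^ 2 := by
  obtain ⟨δ₁, hδ₁, h1⟩ := taylor2 hF hε
  have hev : ∀ᶠ p in 𝓝 (a₀, b₀), DifferentiableAt ℝ F p := by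
    filter_upwards [hF.eventually (by simp)] with p hp
    exact hp.differentiableAt (by norm_num)
  obtain ⟨δ₂, hδ₂, h2⟩ := Metric.eventually_nhds_iff.1 hev
  refine ⟨min δ₁ δ₂, lt_min hδ₁ hδ₂, ?_⟩
  intro a h b ha hb hh D hD
  have hnorm : ‖((a, b) : V × W) - (a₀, b₀)‖ < min δ₁ δ₂ := by
    rw [Prod.mk_sub_mk, Prod.norm_mk]
    exact max_lt ha hb
  have hnormh : ‖((h, 0) : V × W)‖ = ‖h‖ := by
    rw [Prod.norm_mk, norm_zero]
    exact max_eq_left (norm_nonneg _)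
  have h3 := h1 (a, b) (h, 0) (hnorm.trans_le (min_le_left _ _))
    (by rw [hnormh]; exact hh.trans_le (min_le_left _ _))
  have hdiff : DifferentiableAt ℝ F (a, b) := by
    apply h2
    rw [dist_eq_norm]
    exact hnorm.trans_le (min_le_right _ _)
  have h4 : HasFDerivAt (fun a' : V => F (a', b))
      ((fderiv ℝ F (a, b)).comp (ContinuousLinearMap.inl ℝ V W)) a :=
    hdiff.hasFDerivAt.comp a (hasFDerivAt_prodMk_left a b)
  have h5 : D h = fderiv ℝ F (a, b) (h, 0) := by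
    rw [hD.unique h4]
    simp
  rw [h5]
  rw [hnormh] at h3
  simpa using h3

lemma iteratedDeriv_two_sq (c : ℝ) : iteratedDeriv 2 (fun t : ℝ => t ^ 2 * c / 2) 0 = c := by
  have h1 : deriv (fun t : ℝ => t ^ 2 * c / 2) = fun t => t * c := by
    funext t
    have : HasDerivAt (fun t : ℝ => t ^ 2 * c / 2) (t * c) t := by
      have h := ((hasDerivAt_pow 2 t).mul_const c).div_const 2
      have h2 : (((2 : ℕ) : ℝ) * t ^ (2 - 1) * c / 2) = t * c := by
        norm_num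
        ring
      rw [h2] at h
      exact h
    exact this.deriv
  rw [iteratedDeriv_succ, iteratedDeriv_one, h1]
  have : HasDerivAt (fun t : ℝ => t * c) c 0 := by
    simpa using (hasDerivAt_id (0 : ℝ)).mul_const c
  exact this.deriv

variable {E : Type*} [NormedAddCommGroup E] [NormedSpace ℝ E] [FiniteDimensional ℝ E]
  {M : Type*} [MetricSpace M] [ChartedSpace E M]
  [RiemannianBundle (fun x : M => TangentSpace 𝓘(ℝ, E) x)]
  [IsManifold 𝓘(ℝ, E) ∞ M]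
  [IsContMDiffRiemannianBundle 𝓘(ℝ, E) ∞ E (fun x : M => TangentSpace 𝓘(ℝ, E) x)]
  [CompactSpace M]
  {e : ∀ x : M, TangentSpace 𝓘(ℝ, E) x → M}

omit [CompactSpace M] in
/-- The derivatives of all costs at a point of a coordinate system factor through one linear
map. -/
lemma exists_deriv_map (he : IsExp e) {z₀ z' : M} {β : TangentSpace 𝓘(ℝ, E) z₀}
    (hβ : e z₀ β = z') :
    ∃ A : TangentSpace 𝓘(ℝ, E) z₀ →L[ℝ] TangentSpace 𝓘(ℝ, E) z',
      ∀ v ∈ segMin e z', SmoothAt E z' (e z' v) →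
        HasFDerivAt (fun a' : TangentSpace 𝓘(ℝ, E) z₀ => cost (e z₀ a') (e z' v))
          (-((innerSL ℝ v).comp A)) β := by
  subst hβ
  exact ⟨mfderiv 𝓘(ℝ, TangentSpace 𝓘(ℝ, E) z₀) 𝓘(ℝ, E) (e z₀) β,
    fun v hv hs => hasFDerivAt_cost he z₀ β v hv hs⟩

omit [CompactSpace M] in
/-- The pure second derivative of the cost in the first variable at the diagonal. -/
lemma hess_diag (he : IsExp e) {z₀ : M} (hs : SmoothAt E z₀ z₀) (h : TangentSpace 𝓘(ℝ, E) z₀) :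
    hess (fun p : TangentSpace 𝓘(ℝ, E) z₀ × TangentSpace 𝓘(ℝ, E) z₀ =>
      cost (e z₀ p.1) (e z₀ p.2)) (0, 0) (h, 0) (h, 0) = ‖h‖ ^ 2 := by
  have hs' : SmoothAt E (e z₀ (0 : TangentSpace 𝓘(ℝ, E) z₀)) (e z₀ (0 : TangentSpace 𝓘(ℝ, E) z₀)) := by
    rw [he.map_zero]; exact hs
  have hc := (SmoothAt.coord he hs').of_le (m := 2) base_two_le_infty
  rw [← iteratedDeriv_two_line hc (h, 0)]
  obtain ⟨ρ, hρ, hmin⟩ := he.minimizing
  have hev : (fun t : ℝ => cost (e z₀ ((0, 0) + t • (h, (0 : TangentSpace 𝓘(ℝ, E) z₀))).1)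
      (e z₀ (((0 : TangentSpace 𝓘(ℝ, E) z₀), (0 : TangentSpace 𝓘(ℝ, E) z₀)) + t • (h, 0)).2)) =ᶠ[𝓝 0]
      (fun t : ℝ => t ^ 2 * ‖h‖ ^ 2 / 2) := by
    have hev2 : ∀ᶠ t : ℝ in 𝓝 0, ‖h‖ * |t| < ρ := by
      have : Tendsto (fun t : ℝ => ‖h‖ * |t|) (𝓝 0) (𝓝 (‖h‖ * |0|)) := by
        apply Continuous.tendsto
        fun_prop
      rw [abs_zero, mul_zero] at this
      exact this.eventually_lt_const hρ
    filter_upwards [hev2] with t ht
    have h1 := hmin z₀ h t 0 (by simpa using ht.le)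
    simp only [Prod.smul_mk, Prod.mk_add_mk, zero_add, smul_zero]
    rw [zero_smul] at h1
    unfold cost
    rw [h1]
    simp only [zero_sub, abs_neg]
    rw [mul_pow, sq_abs]
    ring
  rw [hev.iteratedDeriv_eq]
  exact iteratedDeriv_two_sq _

/-- The main second order comparison behind the base case: contradiction from sequences. -/
lemma base_contra (F : Facts e) (P : Pot M) (z : ℕ → M) (u : ∀ k, TangentSpace 𝓘(ℝ, E) (z k))
    (x : ℕ → M) (τ : ℕ → ℝ) (hτ0 : ∀ k, 0 < τ k) (hτ : Tendsto τ atTop (𝓝 0))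
    {n : ℕ} (lam : ℕ → Fin n → ℝ) (w : ∀ k, Fin n → TangentSpace 𝓘(ℝ, E) (z k))
    {z₀ : M} (w₀ : Fin n → TangentSpace 𝓘(ℝ, E) z₀)
    (hlam : ∀ k j, 0 ≤ lam k j) (hsum : ∀ k, ∑ j, lam k j = 1)
    (hw : ∀ k j, w k j ∈ P.vtx e (z k)) (hu : ∀ k, ∑ j, lam k j • w k j = u k)
    (hwt : ∀ j, TendstoTB (z := z) (fun k => w k j) (w₀ j))
    (hz : Tendsto z atTop (𝓝 z₀)) (hw₀ : ∀ j, w₀ j ∈ P.vtx e z₀)
    {u₀ : TangentSpace 𝓘(ℝ, E) z₀} (hut : TendstoTB (z := z) (fun k => u k) u₀)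
    (hneg : ∀ k, cost (x k) (e (z k) (τ k • u k)) / τ k + P.phi (x k) <
      τ k * ‖u k‖ ^ 2 / 2 + P.phi (z k)) : False := by
  have he := F.isExp
  obtain ⟨ρ, hρ, hmin, hsmooth⟩ := F.short
  -- the points `y k`
  have hy : Tendsto (fun k => e (z k) (τ k • u k)) atTop (𝓝 z₀) := by
    have h1 := (hut.smul hτ).exp he
    rwa [zero_smul, he.map_zero] at h1
  -- the points `m k j`
  have hm : ∀ j, Tendsto (fun k => e (z k) ((1 / 2 : ℝ) • w k j)) atTop
      (𝓝 (e z₀ ((1 / 2 : ℝ) • w₀ j))) := fun j =>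
    ((hwt j).smul (c := fun _ => (1 / 2 : ℝ)) tendsto_const_nhds).exp he
  -- `x k` tends to `z₀`
  have hnormu : Tendsto (fun k => ‖u k‖) atTop (𝓝 ‖u₀‖) := hut.norm
  have hx : Tendsto x atTop (𝓝 z₀) := by
    set D := Metric.diam (univ : Set M) with hD
    have hD0 : 0 ≤ D := Metric.diam_nonneg
    have hcost : Tendsto (fun k => cost (x k) (e (z k) (τ k • u k))) atTop (𝓝 0) := by
      have h1 : Tendsto (fun k => τ k * (τ k * ‖u k‖ ^ 2 / 2 + D * D)) atTop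
          (𝓝 (0 * (0 * ‖u₀‖ ^ 2 / 2 + D * D))) :=
        hτ.mul (((hτ.mul (hnormu.pow 2)).div_const 2).add tendsto_const_nhds)
      rw [zero_mul] at h1
      apply squeeze_zero (fun k => cost_nonneg _ _) _ h1
      intro k
      have h2 := hneg k
      have h3 := P.phi_lipschitz (z k) (x k)
      have h4 : dist (z k) (x k) ≤ D :=
        Metric.dist_le_diam_of_mem isCompact_univ.isBounded (mem_univ _) (mem_univ _)
      have h5 : P.phi (z k) - P.phi (x k) ≤ D * D := by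
        have h6 := (abs_le.1 h3).2
        have h7 : D * dist (z k) (x k) ≤ D * D := by gcongr
        linarith
      have h8 : cost (x k) (e (z k) (τ k • u k)) / τ k ≤ τ k * ‖u k‖ ^ 2 / 2 + D * D := by
        linarith
      rw [div_le_iff₀ (hτ0 k)] at h8
      linarith
    have hdist : Tendsto (fun k => dist (x k) (e (z k) (τ k • u k))) atTop (𝓝 0) := by
      have h1 : Tendsto (fun k => Real.sqrt (2 * cost (x k) (e (z k) (τ k • u k)))) atTop
          (𝓝 (Real.sqrt (2 * 0))) := (hcost.const_mul 2).sqrt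
      rw [mul_zero, Real.sqrt_zero] at h1
      refine h1.congr fun k => ?_
      unfold cost
      rw [mul_div_cancel₀ _ (two_ne_zero)]
      exact Real.sqrt_sq dist_nonneg
    rw [tendsto_iff_dist_tendsto_zero]
    have h1 : Tendsto (fun k => dist (x k) (e (z k) (τ k • u k)) +
        dist (e (z k) (τ k • u k)) z₀) atTop (𝓝 (0 + 0)) :=
      hdist.add (tendsto_iff_dist_tendsto_zero.1 hy)
    rw [add_zero] at h1
    exact squeeze_zero (fun k => dist_nonneg) (fun k => dist_triangle _ _ _) h1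
  -- coordinates at `z₀`
  have h0mem : (0 : TangentSpace 𝓘(ℝ, E) z₀) ∈ injDomain e z₀ := by
    refine ⟨2, by norm_num, ?_⟩
    rw [smul_zero, he.map_zero, dist_self, norm_zero, mul_zero]
  have hBmem : ∀ j, ((1 / 2 : ℝ) • w₀ j) ∈ injDomain e z₀ := fun j =>
    smul_mem_injDomain he (hw₀ j).1 (by norm_num) (by norm_num)
  obtain ⟨L₀, hL₀s, hL₀0, hL₀1, -⟩ := F.smoothLog h0mem
  rw [he.map_zero] at hL₀s hL₀0 hL₀1
  choose L hLs hL0 hL1 _ using fun j => F.smoothLog (hBmem j)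
  have hs00 : SmoothAt E z₀ z₀ := by
    have := F.smooth_cost z₀ 0 h0mem
    rwa [he.map_zero] at this
  have hsB : ∀ j, SmoothAt E z₀ (e z₀ ((1 / 2 : ℝ) • w₀ j)) := fun j =>
    F.smooth_cost z₀ _ (hBmem j)
  set G : TangentSpace 𝓘(ℝ, E) z₀ × TangentSpace 𝓘(ℝ, E) z₀ → ℝ :=
    fun p => cost (e z₀ p.1) (e z₀ p.2) with hG
  have hG00 : ContDiffAt ℝ 2 G (0, 0) := by
    have hs' : SmoothAt E (e z₀ (0 : TangentSpace 𝓘(ℝ, E) z₀))
        (e z₀ (0 : TangentSpace 𝓘(ℝ, E) z₀)) := by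
      rw [he.map_zero]; exact hs00
    exact (SmoothAt.coord he hs').of_le base_two_le_infty
  have hGB : ∀ j, ContDiffAt ℝ 2 G (0, (1 / 2 : ℝ) • w₀ j) := by
    intro j
    have hs' : SmoothAt E (e z₀ (0 : TangentSpace 𝓘(ℝ, E) z₀)) (e z₀ ((1 / 2 : ℝ) • w₀ j)) := by
      rw [he.map_zero]; exact hsB j
    exact (SmoothAt.coord he hs').of_le base_two_le_infty
  have hhess := hess_diag he hs00
  obtain ⟨δ₀, hδ₀, ht0⟩ := taylor_partial hG00 (ε := 1 / 4) (by norm_num)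
  choose δ hδ ht using fun j => taylor_partial (hGB j) (ε := 1) (by norm_num)
  -- limits of coordinates
  have hcont0 : ContinuousAt L₀ z₀ := hL₀s.continuousAt
  have hlim0 : ∀ q : ℕ → M, Tendsto q atTop (𝓝 z₀) → Tendsto (fun k => L₀ (q k)) atTop (𝓝 0) := by
    intro q hq
    have := hcont0.tendsto.comp hq
    rwa [hL₀0] at this
  have hevcoord : ∀ q : ℕ → M, Tendsto q atTop (𝓝 z₀) →
      ∀ᶠ k in atTop, e z₀ (L₀ (q k)) = q k := by
    intro q hq
    filter_upwards [hq.eventually hL₀1] with k hk using hk.2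
  have hnorm0 : ∀ q : ℕ → M, Tendsto q atTop (𝓝 z₀) → ∀ r : ℝ, 0 < r →
      ∀ᶠ k in atTop, ‖L₀ (q k)‖ < r := by
    intro q hq r hr
    have h1 := (hlim0 q hq).norm
    rw [norm_zero] at h1
    exact h1.eventually_lt_const hr
  have hmj : ∀ j, ∀ᶠ k in atTop, e z₀ (L j (e (z k) ((1 / 2 : ℝ) • w k j))) =
      e (z k) ((1 / 2 : ℝ) • w k j) := by
    intro j
    filter_upwards [(hm j).eventually (hL1 j)] with k hk using hk.2
  have hmn : ∀ j, ∀ᶠ k in atTop, ‖L j (e (z k) ((1 / 2 : ℝ) • w k j)) - (1 / 2 : ℝ) • w₀ j‖ < δ j := by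
    intro j
    have h1 : Tendsto (fun k => L j (e (z k) ((1 / 2 : ℝ) • w k j))) atTop
        (𝓝 ((1 / 2 : ℝ) • w₀ j)) := by
      have := (hLs j).continuousAt.tendsto.comp (hm j)
      rwa [hL0 j] at this
    have h2 := (tendsto_iff_norm_sub_tendsto_zero.1 h1)
    exact h2.eventually_lt_const (hδ j)
  have hsm0 : ∀ᶠ k in atTop, SmoothAt E (z k) (e (z k) (τ k • u k)) :=
    (hz.prodMk_nhds hy).eventually hs00.eventually
  have hsmj : ∀ j, ∀ᶠ k in atTop, SmoothAt E (z k) (e (z k) ((1 / 2 : ℝ) • w k j)) := fun j =>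
    (hz.prodMk_nhds (hm j)).eventually (hsB j).eventually
  have hsmall : ∀ᶠ k in atTop, ‖τ k • u k‖ < ρ := by
    have h1 : Tendsto (fun k => τ k * ‖u k‖) atTop (𝓝 (0 * ‖u₀‖)) := hτ.mul hnormu
    rw [zero_mul] at h1
    filter_upwards [h1.eventually_lt_const hρ] with k hk
    rwa [norm_smul, Real.norm_eq_abs, abs_of_pos (hτ0 k)]
  set C : Fin n → ℝ := fun j => (1 / 2) * ‖hess G (0, (1 / 2 : ℝ) • w₀ j)‖ + 1 with hC
  have hC0 : ∀ j, 0 ≤ C j := fun j => by simp only [hC]; positivity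
  have htau : ∀ᶠ k in atTop, τ k * (2 * (∑ j, C j)) < 1 / 4 := by
    have h1 : Tendsto (fun k => τ k * (2 * (∑ j, C j))) atTop (𝓝 (0 * (2 * (∑ j, C j)))) :=
      hτ.mul_const _
    rw [zero_mul] at h1
    exact h1.eventually_lt_const (by norm_num)
  -- smallness of all the coordinates
  have hallδ : ∃ r : ℝ, 0 < r ∧ r ≤ δ₀ ∧ ∀ j, r ≤ δ j := by
    by_cases hn : Nonempty (Fin n)
    · refine ⟨min δ₀ (Finset.univ.inf' Finset.univ_nonempty δ), ?_, min_le_left _ _, ?_⟩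
      · apply lt_min hδ₀
        rw [Finset.lt_inf'_iff]
        intro j _
        exact hδ j
      · intro j
        exact (min_le_right _ _).trans (Finset.inf'_le _ (Finset.mem_univ j))
    · exact ⟨δ₀, hδ₀, le_rfl, fun j => (hn ⟨j⟩).elim⟩
  obtain ⟨r, hr0, hrδ₀, hrδ⟩ := hallδ
  obtain ⟨k, hkx, hkz, hky, hknx, hknz, hkny, hkm, hkmn, hks0, hksj, hksm, hktau⟩ :=
    ((hevcoord x hx).and ((hevcoord z hz).and ((hevcoord _ hy).and
      ((hnorm0 x hx (r / 2) (by linarith)).and ((hnorm0 z hz (r / 2) (by linarith)).and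
      ((hnorm0 _ hy (r / 2) (by linarith)).and
      ((eventually_all.2 hmj).and ((eventually_all.2 hmn).and (hsm0.and
      ((eventually_all.2 hsmj).and (hsmall.and htau))))))))))).exists
  -- fix this `k`
  obtain ⟨A, hA⟩ := exists_deriv_map he hkz
  set β := L₀ (z k) with hβ
  set h := L₀ (x k) - L₀ (z k) with hh
  have hβh : β + h = L₀ (x k) := by rw [hh, hβ]; abel
  have hnh : ‖h‖ < r := by
    calc ‖h‖ ≤ ‖L₀ (x k)‖ + ‖L₀ (z k)‖ := norm_sub_le _ _
      _ < r / 2 + r / 2 := by linarith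
      _ = r := by ring
  have hnβ : ‖β - 0‖ < r := by rw [sub_zero]; linarith
  have hτk := hτ0 k
  -- main term
  have hseg0 : τ k • u k ∈ segMin e (z k) := by
    have h1 := hmin (z k) (τ k • u k) 0 1 (by simpa using hksm.le)
    rw [zero_smul, one_smul, he.map_zero] at h1
    change dist _ _ = _
    simpa using h1
  have hD0 := hA _ hseg0 hks0
  have hT0 := ht0 β h (L₀ (e (z k) (τ k • u k))) (hnβ.trans_le hrδ₀)
    (by rw [sub_zero]; linarith) (hnh.trans_le hrδ₀) (-((innerSL ℝ (τ k • u k)).comp A))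
    (by simp only [hG, hky]; exact hD0)
  have hval0 : G (β, L₀ (e (z k) (τ k • u k))) = (τ k) ^ 2 * ‖u k‖ ^ 2 / 2 := by
    simp only [hG, hky, hkz]
    have h1 := segMin_cost he hseg0 (s := 0) (t := 1) le_rfl zero_le_one le_rfl
    rw [zero_smul, one_smul, he.map_zero] at h1
    rw [h1, norm_smul, Real.norm_eq_abs, mul_pow, sq_abs]
    ring
  have hval0' : G (β + h, L₀ (e (z k) (τ k • u k))) = cost (x k) (e (z k) (τ k • u k)) := by
    rw [hβh]
    simp only [hG, hky, hkx]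
  rw [hval0, hval0', hhess] at hT0
  -- the other terms
  have hTj : ∀ j, cost (x k) (e (z k) ((1 / 2 : ℝ) • w k j)) ≤
      (1 / 2) ^ 2 * ‖w k j‖ ^ 2 / 2 - (1 / 2) * inner ℝ (w k j) (A h) + C j * ‖h‖ ^ 2 := by
    intro j
    have hseg : (1 / 2 : ℝ) • w k j ∈ segMin e (z k) :=
      smul_mem_segMin he (hw k j).1 (by norm_num) (by norm_num)
    have hD := hA _ hseg (hksj j)
    have hT := ht j β h (L j (e (z k) ((1 / 2 : ℝ) • w k j))) (hnβ.trans_le (hrδ j))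
      (hkmn j) (hnh.trans_le (hrδ j)) (-((innerSL ℝ ((1 / 2 : ℝ) • w k j)).comp A))
      (by simp only [hG, hkm j]; exact hD)
    have hval : G (β, L j (e (z k) ((1 / 2 : ℝ) • w k j))) = (1 / 2) ^ 2 * ‖w k j‖ ^ 2 / 2 := by
      simp only [hG, hkm j, hkz]
      have h1 := segMin_cost he hseg (s := 0) (t := 1) le_rfl zero_le_one le_rfl
      rw [zero_smul, one_smul, he.map_zero] at h1
      rw [h1, norm_smul, Real.norm_eq_abs, mul_pow, sq_abs]
      ring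
    have hval' : G (β + h, L j (e (z k) ((1 / 2 : ℝ) • w k j))) =
        cost (x k) (e (z k) ((1 / 2 : ℝ) • w k j)) := by
      rw [hβh]
      simp only [hG, hkm j, hkx]
    rw [hval, hval'] at hT
    have h2 := (abs_le.1 hT).2
    have h3 : (-((innerSL ℝ ((1 / 2 : ℝ) • w k j)).comp A)) h = -((1 / 2) * inner ℝ (w k j) (A h)) := by
      simp
    rw [h3] at h2
    have h4 : hess G (0, (1 / 2 : ℝ) • w₀ j) (h, 0) (h, 0) ≤
        ‖hess G (0, (1 / 2 : ℝ) • w₀ j)‖ * ‖h‖ ^ 2 := by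
      have h5 : ‖((h, 0) : TangentSpace 𝓘(ℝ, E) z₀ × TangentSpace 𝓘(ℝ, E) z₀)‖ = ‖h‖ := by
        rw [Prod.norm_mk, norm_zero]
        exact max_eq_left (norm_nonneg _)
      have h6 := (le_abs_self _).trans
        ((hess G (0, (1 / 2 : ℝ) • w₀ j)).le_opNorm₂ (h, 0) (h, 0))
      rw [h5] at h6
      calc _ ≤ _ := h6
        _ = _ := by ring
    simp only [hC]
    nlinarith
  -- combination
  have h3 : (-((innerSL ℝ (τ k • u k)).comp A)) h = -(τ k * inner ℝ (u k) (A h)) := by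
    simp
  rw [h3] at hT0
  have hT0' := (abs_le.1 hT0).1
  have hlow : ∀ j, P.phi (z k) + (1 / 2) * ‖w k j‖ ^ 2 / 2 -
      cost (x k) (e (z k) ((1 / 2 : ℝ) • w k j)) / (1 / 2) ≤ P.phi (x k) := fun j =>
    P.phi_lower he (hw k j) (by norm_num) (by norm_num) (x k)
  have hlow' : ∀ j, P.phi (z k) - P.phi (x k) ≤
      - inner ℝ (w k j) (A h) + 2 * C j * ‖h‖ ^ 2 := by
    intro j
    have h1 := hlow j
    have h2 := hTj j
    have h4 : cost (x k) (e (z k) ((1 / 2 : ℝ) • w k j)) / (1 / 2) =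
      2 * cost (x k) (e (z k) ((1 / 2 : ℝ) • w k j)) := by ring
    rw [h4] at h1
    linarith
  have hcomb : P.phi (z k) - P.phi (x k) ≤ - inner ℝ (u k) (A h) + 2 * (∑ j, C j) * ‖h‖ ^ 2 := by
    have h1 : P.phi (z k) - P.phi (x k) = ∑ j, lam k j * (P.phi (z k) - P.phi (x k)) := by
      rw [← Finset.sum_mul, hsum k, one_mul]
    have h2 : inner ℝ (u k) (A h) = ∑ j, lam k j * inner ℝ (w k j) (A h) := by
      rw [← hu k, sum_inner]
      apply Finset.sum_congr rfl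
      intro j _
      rw [real_inner_smul_left]
    have hlam1 : ∀ j, lam k j ≤ 1 := by
      intro j
      rw [← hsum k]
      exact Finset.single_le_sum (fun i _ => hlam k i) (Finset.mem_univ j)
    rw [h1, h2]
    calc ∑ j, lam k j * (P.phi (z k) - P.phi (x k))
        ≤ ∑ j, (-(lam k j * inner ℝ (w k j) (A h)) + 2 * C j * ‖h‖ ^ 2) := by
          apply Finset.sum_le_sum
          intro j _
          have h4 := mul_le_mul_of_nonneg_left (hlow' j) (hlam k j)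
          have h5 : lam k j * (2 * C j * ‖h‖ ^ 2) ≤ 1 * (2 * C j * ‖h‖ ^ 2) := by
            apply mul_le_mul_of_nonneg_right (hlam1 j)
            have := hC0 j
            positivity
          linarith
      _ = _ := by
          rw [Finset.sum_add_distrib, Finset.sum_neg_distrib, ← Finset.sum_mul, ← Finset.mul_sum]
  have hk := hneg k
  have hfin : cost (x k) (e (z k) (τ k • u k)) <
      τ k * (τ k * ‖u k‖ ^ 2 / 2 + (- inner ℝ (u k) (A h) + 2 * (∑ j, C j) * ‖h‖ ^ 2)) := by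
    have h1 : cost (x k) (e (z k) (τ k • u k)) / τ k <
        τ k * ‖u k‖ ^ 2 / 2 + (- inner ℝ (u k) (A h) + 2 * (∑ j, C j) * ‖h‖ ^ 2) := by linarith
    rw [div_lt_iff₀ hτk] at h1
    linarith
  have hh2 : 0 ≤ ‖h‖ ^ 2 := by positivity
  have hfin2 : (1 / 4) * ‖h‖ ^ 2 < τ k * (2 * (∑ j, C j)) * ‖h‖ ^ 2 := by
    nlinarith
  have hfin3 : τ k * (2 * (∑ j, C j)) * ‖h‖ ^ 2 ≤ (1 / 4) * ‖h‖ ^ 2 :=
    mul_le_mul_of_nonneg_right hktau.le hh2
  linarith

/-- Base case: the support property holds for small times. -/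
theorem baseCase (F : Facts e) (P : Pot M) : ∃ τ₀ : ℝ, 0 < τ₀ ∧ τ₀ < 1 ∧ P.A e τ₀ := by
  by_contra hcon
  push Not at hcon
  have hτpos : ∀ k : ℕ, (0 : ℝ) < 1 / ((k : ℝ) + 2) := fun k => by positivity
  have hτlt : ∀ k : ℕ, 1 / ((k : ℝ) + 2) < 1 := by
    intro k
    rw [div_lt_one (by positivity)]
    have : (0 : ℝ) ≤ k := by positivity
    linarith
  have hfail : ∀ k : ℕ, ∃ (z : M) (u : TangentSpace 𝓘(ℝ, E) z) (x : M), u ∈ P.sub e z ∧
      cost x (e z ((1 / ((k : ℝ) + 2)) • u)) / (1 / ((k : ℝ) + 2)) + P.phi x <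
        (1 / ((k : ℝ) + 2)) * ‖u‖ ^ 2 / 2 + P.phi z := by
    intro k
    have h := hcon _ (hτpos k) (hτlt k)
    unfold Pot.A at h
    push Not at h
    obtain ⟨z, u, hu, x, hx⟩ := h
    exact ⟨z, u, x, hu, hx⟩
  choose z u x hu hx using hfail
  obtain ⟨φ, z₀, lam, w, lam₀, w₀, hφ, hlam, hsum, hw, hwu, -, hwt, hz, -, -, hw₀, hut⟩ :=
    P.extract F.isExp z u hu
  have hτlim : Tendsto (fun k : ℕ => 1 / (((φ k : ℕ) : ℝ) + 2)) atTop (𝓝 0) := by
    have h1 : Tendsto (fun k : ℕ => 1 / ((k : ℝ) + 2)) atTop (𝓝 0) := by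
      have h2 : Tendsto (fun k : ℕ => (k : ℝ) + 2) atTop atTop :=
        tendsto_atTop_add_const_right _ _ tendsto_natCast_atTop_atTop
      exact h2.inv_tendsto_atTop.congr fun k => by simp [one_div]
    exact h1.comp hφ.tendsto_atTop
  exact base_contra F P (fun k => z (φ k)) (fun k => u (φ k)) (fun k => x (φ k))
    (fun k => 1 / (((φ k : ℕ) : ℝ) + 2)) (fun k => hτpos (φ k)) hτlim lam w w₀ hlam hsum hw hwu
    hwt hz hw₀ hut (fun k => hx (φ k))

end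

end Vale.Agent.P234
end
end

section

section

/-! Foundation 1: the exponential map near the zero section. -/

set_option maxSynthPendingDepth 3
set_option linter.unusedSectionVars false

open Bundle Manifold Set Filter
open scoped ContDiff Manifold Topology

namespace Vale.Agent.P234

noncomputable section

/-- Inverse function theorem, smooth on a neighbourhood. -/
lemma exists_smooth_local_inverse {E : Type*} [NormedAddCommGroup E] [NormedSpace ℝ E]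
    [FiniteDimensional ℝ E] {G : E → E} {U : Set E} (hU : IsOpen U)
    (hG : ContDiffOn ℝ ∞ G U) {p₀ : E} (hp : p₀ ∈ U)
    (hinj : ∀ ξ, fderiv ℝ G p₀ ξ = 0 → ξ = 0) :
    ∃ H : E → E, H (G p₀) = p₀ ∧
      ∀ᶠ w in 𝓝 (G p₀), ContDiffAt ℝ ∞ H w ∧ H w ∈ U ∧ G (H w) = w := by
  have : CompleteSpace E := FiniteDimensional.complete ℝ E
  have hG0 : ContDiffAt ℝ ∞ G p₀ := hG.contDiffAt (hU.mem_nhds hp)
  have hn : (∞ : WithTop ℕ∞) ≠ 0 := by simp
  have hd : DifferentiableAt ℝ G p₀ := hG0.differentiableAt hn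
  have hinj' : Function.Injective (fderiv ℝ G p₀) :=
    (injective_iff_map_eq_zero _).2 hinj
  let L : E ≃L[ℝ] E := (LinearEquiv.ofInjectiveEndo (fderiv ℝ G p₀).toLinearMap
    hinj').toContinuousLinearEquiv
  have hL : (L : E →L[ℝ] E) = fderiv ℝ G p₀ := by
    ext x; rfl
  have hL' : HasFDerivAt G (L : E →L[ℝ] E) p₀ := by rw [hL]; exact hd.hasFDerivAt
  let g := hG0.toOpenPartialHomeomorph G hL' hn
  have hgc : ∀ x, g x = G x := fun x => rfl
  have hgs : p₀ ∈ g.source := hG0.mem_toOpenPartialHomeomorph_source hL' hn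
  refine ⟨g.symm, g.left_inv hgs, ?_⟩
  have ht : g.target ∈ 𝓝 (G p₀) := g.open_target.mem_nhds (g.map_source hgs)
  have hcont : ContinuousAt g.symm (G p₀) := g.continuousAt_symm (g.map_source hgs)
  have hsymm : g.symm (G p₀) = p₀ := g.left_inv hgs
  have hfd : ContinuousAt (fderiv ℝ G) p₀ := (hG0.fderiv_right (m := 0) (by simp)).continuousAt
  have hopen : ∀ᶠ x in 𝓝 p₀, ∃ L' : E ≃L[ℝ] E, (L' : E →L[ℝ] E) = fderiv ℝ G x := by
    have h1 : Set.range ((↑) : (E ≃L[ℝ] E) → E →L[ℝ] E) ∈ 𝓝 (fderiv ℝ G p₀) := by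
      rw [← hL]; exact ContinuousLinearEquiv.nhds L
    exact hfd h1
  have hU' : ∀ᶠ x in 𝓝 p₀, x ∈ U := hU.mem_nhds hp
  have hcont' : Tendsto g.symm (𝓝 (G p₀)) (𝓝 p₀) := by
    have := hcont.tendsto
    rwa [hsymm] at this
  filter_upwards [ht, hcont'.eventually hopen, hcont'.eventually hU'] with w hw hw2 hw3
  refine ⟨?_, hw3, g.right_inv hw⟩
  obtain ⟨L', hL'⟩ := hw2
  have hGw : ContDiffAt ℝ ∞ G (g.symm w) := hG.contDiffAt (hU.mem_nhds hw3)
  apply g.contDiffAt_symm hw (f₀' := L')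
  · have : HasFDerivAt G (fderiv ℝ G (g.symm w)) (g.symm w) :=
      (hGw.differentiableAt hn).hasFDerivAt
    rw [← hL'] at this
    exact this
  · exact hGw

section param

variable {E : Type*} [NormedAddCommGroup E] [NormedSpace ℝ E]
  {M : Type*} [MetricSpace M] [ChartedSpace E M]
  [IsManifold 𝓘(ℝ, E) ∞ M]

/-- local parametrization of the tangent bundle -/
def prm (x₀ : M) (q : E × E) : TangentBundle 𝓘(ℝ, E) M :=
  (trivializationAt E (TangentSpace 𝓘(ℝ, E)) x₀).toOpenPartialHomeomorph.symm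
    ((extChartAt 𝓘(ℝ, E) x₀).symm q.1, q.2)

lemma prm_mem_target (x₀ : M) {q : E × E} (hq : q.1 ∈ (extChartAt 𝓘(ℝ, E) x₀).target) :
    ((extChartAt 𝓘(ℝ, E) x₀).symm q.1, q.2) ∈
      (trivializationAt E (TangentSpace 𝓘(ℝ, E)) x₀).target := by
  rw [Trivialization.mem_target]
  have h := (extChartAt 𝓘(ℝ, E) x₀).map_target hq
  rw [extChartAt_source] at h
  exact h

lemma prm_proj (x₀ : M) {q : E × E} (hq : q.1 ∈ (extChartAt 𝓘(ℝ, E) x₀).target) :
    (prm x₀ q).proj = (extChartAt 𝓘(ℝ, E) x₀).symm q.1 :=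
  Trivialization.proj_symm_apply _ (prm_mem_target x₀ hq)

lemma contMDiffOn_prm (x₀ : M) : ContMDiffOn 𝓘(ℝ, E × E) (𝓘(ℝ, E).tangent) ∞ (prm (E := E) x₀)
    ((extChartAt 𝓘(ℝ, E) x₀).target ×ˢ univ) := by
  have hmaps : MapsTo (prm (E := E) x₀) ((extChartAt 𝓘(ℝ, E) x₀).target ×ˢ univ)
      (trivializationAt E (TangentSpace 𝓘(ℝ, E)) x₀).source := by
    intro q hq
    exact (trivializationAt E (TangentSpace 𝓘(ℝ, E)) x₀).toOpenPartialHomeomorph.map_target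
      (prm_mem_target x₀ hq.1)
  refine (Trivialization.contMDiffOn_iff hmaps).2 ⟨?_, ?_⟩
  · have h1 : ContMDiffOn 𝓘(ℝ, E × E) 𝓘(ℝ, E) ∞
        (fun q : E × E => (extChartAt 𝓘(ℝ, E) x₀).symm q.1)
        ((extChartAt 𝓘(ℝ, E) x₀).target ×ˢ univ) := by
      refine (contMDiffOn_extChartAt_symm x₀).comp (contDiff_fst.contMDiff.contMDiffOn) ?_
      intro q hq
      exact hq.1
    exact h1.congr (fun q hq => prm_proj x₀ hq.1)
  · have h2 : ContMDiffOn 𝓘(ℝ, E × E) 𝓘(ℝ, E) ∞ (fun q : E × E => q.2)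
        ((extChartAt 𝓘(ℝ, E) x₀).target ×ˢ univ) := contDiff_snd.contMDiff.contMDiffOn
    refine h2.congr (fun q hq => ?_)
    rw [prm, Trivialization.apply_symm_apply _ (prm_mem_target x₀ hq.1)]

/-- value of the parametrization on the fibre over the centre -/
lemma prm_center (x₀ : M) (b : E) :
    prm x₀ (extChartAt 𝓘(ℝ, E) x₀ x₀, b) =
      (⟨x₀, (trivializationAt E (TangentSpace 𝓘(ℝ, E)) x₀).symmL ℝ x₀ b⟩ :
        TangentBundle 𝓘(ℝ, E) M) := by
  rw [prm]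
  simp only [extChartAt_to_inv]
  rw [Trivialization.symmL_apply _ (mem_baseSet_trivializationAt E _ x₀)]
  exact (Trivialization.mk_symm _ (mem_baseSet_trivializationAt E _ x₀) b).symm

lemma isOpen_prm_domain (x₀ : M) :
    IsOpen (((extChartAt 𝓘(ℝ, E) x₀).target ×ˢ univ : Set (E × E))) :=
  (isOpen_extChartAt_target x₀).prod isOpen_univ

lemma symmL_center_injective (x₀ : M) {b : E}
    (h : (trivializationAt E (TangentSpace 𝓘(ℝ, E)) x₀).symmL ℝ x₀ b = 0) : b = 0 := by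
  have h1 := (trivializationAt E (TangentSpace 𝓘(ℝ, E)) x₀).continuousLinearMapAt_symmL (R := ℝ)
    (mem_baseSet_trivializationAt E _ x₀) b
  rw [h, map_zero] at h1
  exact h1.symm

end param

variable {E : Type*} [NormedAddCommGroup E] [NormedSpace ℝ E] [FiniteDimensional ℝ E]
  {M : Type*} [MetricSpace M] [ChartedSpace E M]
  [RiemannianBundle (fun x : M => TangentSpace 𝓘(ℝ, E) x)]
  [IsManifold 𝓘(ℝ, E) ∞ M]
  [IsContMDiffRiemannianBundle 𝓘(ℝ, E) ∞ E (fun x : M => TangentSpace 𝓘(ℝ, E) x)]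
  {e : ∀ x : M, TangentSpace 𝓘(ℝ, E) x → M}

lemma contMDiff_ray (he : IsExp e) (x : M) (v : TangentSpace 𝓘(ℝ, E) x) :
    ContMDiff 𝓘(ℝ, ℝ) 𝓘(ℝ, E) ∞ (fun t : ℝ => e x (t • v)) := by
  have h1 : ContMDiff 𝓘(ℝ, ℝ) 𝓘(ℝ, TangentSpace 𝓘(ℝ, E) x) ∞ (fun t : ℝ => t • v) :=
    (contDiff_id.smul contDiff_const).contMDiff
  exact (contMDiff_exp_fiber he x).comp h1

lemma hasDerivAt_exp_chart (he : IsExp e) (x : M) (v : TangentSpace 𝓘(ℝ, E) x) :
    HasDerivAt (fun t : ℝ => extChartAt 𝓘(ℝ, E) x (e x (t • v))) (v : E) 0 := by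
  have hdiff : MDifferentiableAt 𝓘(ℝ, ℝ) 𝓘(ℝ, E) (fun t : ℝ => e x (t • v)) 0 :=
    (contMDiff_ray he x v).mdifferentiableAt (by simp)
  have h := he.velocity x v
  rw [hdiff.mfderiv] at h
  have hd := hdiff.differentiableWithinAt_writtenInExtChartAt
  have h0 : e x ((0 : ℝ) • v) = x := by rw [zero_smul]; exact he.map_zero x
  simp only [writtenInExtChartAt, h0, mfld_simps] at h hd
  rw [differentiableWithinAt_univ] at hd
  rw [fderivWithin_univ] at h
  have h2 := hd.hasFDerivAt.hasDerivAt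
  simp only [Function.comp_def] at h2 h
  exact h2.congr_deriv h

/-- the map `(x, v) ↦ (x, e x v)` in coordinates -/
def expCoord (e : ∀ x : M, TangentSpace 𝓘(ℝ, E) x → M) (x₀ : M) (q : E × E) : E × E :=
  (q.1, extChartAt 𝓘(ℝ, E) x₀ (e (prm x₀ q).proj (prm x₀ q).snd))

/-- its domain -/
def expDom (e : ∀ x : M, TangentSpace 𝓘(ℝ, E) x → M) (x₀ : M) : Set (E × E) :=
  ((extChartAt 𝓘(ℝ, E) x₀).target ×ˢ univ) ∩
    (fun q => e (prm x₀ q).proj (prm x₀ q).snd) ⁻¹' (extChartAt 𝓘(ℝ, E) x₀).source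

lemma contMDiffOn_expPrm (he : IsExp e) (x₀ : M) :
    ContMDiffOn 𝓘(ℝ, E × E) 𝓘(ℝ, E) ∞
      (fun q => e (prm (E := E) x₀ q).proj (prm x₀ q).snd)
      ((extChartAt 𝓘(ℝ, E) x₀).target ×ˢ univ) :=
  he.smooth.comp_contMDiffOn (contMDiffOn_prm x₀)

lemma isOpen_expDom (he : IsExp e) (x₀ : M) : IsOpen (expDom e x₀) :=
  (contMDiffOn_expPrm he x₀).continuousOn.isOpen_inter_preimage (isOpen_prm_domain x₀)
    (isOpen_extChartAt_source x₀)

lemma exp_prm_center (he : IsExp e) (x₀ : M) :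
    e (prm x₀ (extChartAt 𝓘(ℝ, E) x₀ x₀, (0 : E))).proj
      (prm x₀ (extChartAt 𝓘(ℝ, E) x₀ x₀, (0 : E))).snd = x₀ := by
  rw [prm_center, map_zero]
  exact he.map_zero x₀

lemma center_mem_expDom (he : IsExp e) (x₀ : M) :
    (extChartAt 𝓘(ℝ, E) x₀ x₀, (0 : E)) ∈ expDom e x₀ := by
  refine ⟨⟨mem_extChartAt_target x₀, mem_univ _⟩, ?_⟩
  rw [mem_preimage, exp_prm_center he]
  exact mem_extChartAt_source x₀

lemma contDiffOn_expCoord (he : IsExp e) (x₀ : M) :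
    ContDiffOn ℝ ∞ (expCoord e x₀) (expDom e x₀) := by
  apply contDiff_fst.contDiffOn.prodMk
  rw [← contMDiffOn_iff_contDiffOn]
  have h1 : ContMDiffOn 𝓘(ℝ, E) 𝓘(ℝ, E) ∞ (extChartAt 𝓘(ℝ, E) x₀) (chartAt E x₀).source :=
    contMDiffOn_extChartAt
  refine h1.comp ((contMDiffOn_expPrm he x₀).mono inter_subset_left) ?_
  intro q hq
  have := hq.2
  rw [mem_preimage, extChartAt_source] at this
  exact this

lemma expCoord_center (he : IsExp e) (x₀ : M) :
    expCoord e x₀ (extChartAt 𝓘(ℝ, E) x₀ x₀, (0 : E))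
      = (extChartAt 𝓘(ℝ, E) x₀ x₀, extChartAt 𝓘(ℝ, E) x₀ x₀) := by
  rw [expCoord, exp_prm_center he]

lemma expCoord_injective (he : IsExp e) (x₀ : M) (ξ : E × E)
    (h : fderiv ℝ (expCoord e x₀) (extChartAt 𝓘(ℝ, E) x₀ x₀, (0 : E)) ξ = 0) : ξ = 0 := by
  have hd : DifferentiableAt ℝ (expCoord e x₀) (extChartAt 𝓘(ℝ, E) x₀ x₀, (0 : E)) :=
    ((contDiffOn_expCoord he x₀).contDiffAt
      ((isOpen_expDom he x₀).mem_nhds (center_mem_expDom he x₀))).differentiableAt (by simp)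
  have hf := hd.hasFDerivAt
  have h1 : HasFDerivAt (fun q => (expCoord e x₀ q).1)
      ((ContinuousLinearMap.fst ℝ E E).comp
        (fderiv ℝ (expCoord e x₀) (extChartAt 𝓘(ℝ, E) x₀ x₀, (0 : E))))
      (extChartAt 𝓘(ℝ, E) x₀ x₀, (0 : E)) := hasFDerivAt_fst.comp _ hf
  have h2 : HasFDerivAt (fun q => (expCoord e x₀ q).1) (ContinuousLinearMap.fst ℝ E E)
      (extChartAt 𝓘(ℝ, E) x₀ x₀, (0 : E)) := hasFDerivAt_fst
  have h3 := h1.unique h2
  have h4 : ξ.1 = 0 := by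
    have := congrArg (fun L => L ξ) h3
    simp only [ContinuousLinearMap.comp_apply, h, map_zero, ContinuousLinearMap.coe_fst'] at this
    exact this.symm
  have hline : HasDerivAt (fun t : ℝ => ((extChartAt 𝓘(ℝ, E) x₀ x₀, (0 : E)) : E × E) + t • ξ)
      ξ 0 := by
    simpa using ((hasDerivAt_id (0 : ℝ)).smul_const ξ).const_add
      ((extChartAt 𝓘(ℝ, E) x₀ x₀, (0 : E)) : E × E)
  have hf' : HasFDerivAt (expCoord e x₀)
      (fderiv ℝ (expCoord e x₀) (extChartAt 𝓘(ℝ, E) x₀ x₀, (0 : E)))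
      ((fun t : ℝ => ((extChartAt 𝓘(ℝ, E) x₀ x₀, (0 : E)) : E × E) + t • ξ) 0) := by
    simpa using hf
  have h5 := hf'.comp_hasDerivAt (0 : ℝ) hline
  rw [h] at h5
  have h6 : HasDerivAt (fun t : ℝ => (expCoord e x₀
      (((extChartAt 𝓘(ℝ, E) x₀ x₀, (0 : E)) : E × E) + t • ξ)).2) (0 : E) 0 := by
    exact hasFDerivAt_snd.comp_hasDerivAt (0 : ℝ) h5
  have h7 : (fun t : ℝ => (expCoord e x₀
      (((extChartAt 𝓘(ℝ, E) x₀ x₀, (0 : E)) : E × E) + t • ξ)).2)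
      = fun t : ℝ => extChartAt 𝓘(ℝ, E) x₀ (e x₀
        (t • (trivializationAt E (TangentSpace 𝓘(ℝ, E)) x₀).symmL ℝ x₀ ξ.2)) := by
    funext t
    have h8 : ((extChartAt 𝓘(ℝ, E) x₀ x₀, (0 : E)) : E × E) + t • ξ
        = (extChartAt 𝓘(ℝ, E) x₀ x₀, t • ξ.2) := by
      ext <;> simp [h4]
    rw [h8, expCoord, prm_center, map_smul]
  rw [h7] at h6
  have h9 := hasDerivAt_exp_chart he x₀
    ((trivializationAt E (TangentSpace 𝓘(ℝ, E)) x₀).symmL ℝ x₀ ξ.2)
  have h10 := h6.unique h9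
  have h11 : ξ.2 = 0 := symmL_center_injective x₀ h10.symm
  exact Prod.ext h4 h11

/-- Local inverse of the exponential map near the zero section, smooth on a neighbourhood. -/
lemma exists_local_log_open (he : IsExp e) (x₀ : M) :
    ∃ V : M × M → TangentBundle 𝓘(ℝ, E) M,
      V (x₀, x₀) = ⟨x₀, 0⟩ ∧
      ∀ᶠ p in 𝓝 ((x₀, x₀) : M × M),
        ContMDiffAt (𝓘(ℝ, E).prod 𝓘(ℝ, E)) 𝓘(ℝ, E).tangent ∞ V p ∧
        (V p).proj = p.1 ∧ e (V p).proj (V p).snd = p.2 := by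
  obtain ⟨H, hH0, hH⟩ := exists_smooth_local_inverse (isOpen_expDom he x₀)
    (contDiffOn_expCoord he x₀) (center_mem_expDom he x₀) (expCoord_injective he x₀)
  rw [expCoord_center he] at hH0 hH
  refine ⟨fun p => prm x₀ (H (extChartAt 𝓘(ℝ, E) x₀ p.1, extChartAt 𝓘(ℝ, E) x₀ p.2)), ?_, ?_⟩
  · simp only
    rw [hH0, prm_center, map_zero]
  · have hs : ∀ᶠ p in 𝓝 ((x₀, x₀) : M × M), p.1 ∈ (extChartAt 𝓘(ℝ, E) x₀).source ∧
        p.2 ∈ (extChartAt 𝓘(ℝ, E) x₀).source := by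
      have h1 : (extChartAt 𝓘(ℝ, E) x₀).source ∈ 𝓝 x₀ := extChartAt_source_mem_nhds x₀
      exact prod_mem_nhds h1 h1
    have hc : Tendsto (fun p : M × M => (extChartAt 𝓘(ℝ, E) x₀ p.1, extChartAt 𝓘(ℝ, E) x₀ p.2))
        (𝓝 (x₀, x₀)) (𝓝 (extChartAt 𝓘(ℝ, E) x₀ x₀, extChartAt 𝓘(ℝ, E) x₀ x₀)) := by
      have h1 : ContinuousAt (extChartAt 𝓘(ℝ, E) x₀) x₀ := continuousAt_extChartAt x₀
      have h2 : ContinuousAt (fun p : M × M => extChartAt 𝓘(ℝ, E) x₀ p.1) (x₀, x₀) :=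
        ContinuousAt.comp (f := Prod.fst) h1 continuousAt_fst
      have h3 : ContinuousAt (fun p : M × M => extChartAt 𝓘(ℝ, E) x₀ p.2) (x₀, x₀) :=
        ContinuousAt.comp (f := Prod.snd) h1 continuousAt_snd
      exact (h2.prodMk h3).tendsto
    filter_upwards [hs, hc.eventually hH] with p hp hp2
    obtain ⟨hp3, hp4, hp5⟩ := hp2
    refine ⟨?_, ?_, ?_⟩
    · have h1 : ContMDiffAt (𝓘(ℝ, E).prod 𝓘(ℝ, E)) 𝓘(ℝ, E) ∞
          (fun p : M × M => extChartAt 𝓘(ℝ, E) x₀ p.1) p := by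
        have := contMDiffAt_extChartAt' (I := 𝓘(ℝ, E)) (n := ∞) (x := x₀) (x' := p.1)
          (by rw [← extChartAt_source 𝓘(ℝ, E)]; exact hp.1)
        exact this.comp p contMDiffAt_fst
      have h2 : ContMDiffAt (𝓘(ℝ, E).prod 𝓘(ℝ, E)) 𝓘(ℝ, E) ∞
          (fun p : M × M => extChartAt 𝓘(ℝ, E) x₀ p.2) p := by
        have := contMDiffAt_extChartAt' (I := 𝓘(ℝ, E)) (n := ∞) (x := x₀) (x' := p.2)
          (by rw [← extChartAt_source 𝓘(ℝ, E)]; exact hp.2)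
        exact this.comp p contMDiffAt_snd
      have h3 := h1.prodMk_space h2
      have h4 : ContMDiffAt 𝓘(ℝ, E × E) 𝓘(ℝ, E × E) ∞ H
          (extChartAt 𝓘(ℝ, E) x₀ p.1, extChartAt 𝓘(ℝ, E) x₀ p.2) := hp3.contMDiffAt
      have h5 : ContMDiffAt 𝓘(ℝ, E × E) (𝓘(ℝ, E).tangent) ∞ (prm (E := E) x₀)
          (H (extChartAt 𝓘(ℝ, E) x₀ p.1, extChartAt 𝓘(ℝ, E) x₀ p.2)) :=
        (contMDiffOn_prm x₀).contMDiffAt ((isOpen_prm_domain x₀).mem_nhds hp4.1)
      have h6 := h4.comp p h3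
      exact ContMDiffAt.comp (g := prm (E := E) x₀)
        (f := H ∘ fun p : M × M => (extChartAt 𝓘(ℝ, E) x₀ p.1, extChartAt 𝓘(ℝ, E) x₀ p.2)) p h5 h6
    · rw [prm_proj x₀ hp4.1.1]
      have := congrArg Prod.fst hp5
      simp only [expCoord] at this
      rw [this]
      exact (extChartAt 𝓘(ℝ, E) x₀).left_inv hp.1
    · have h1 := congrArg Prod.snd hp5
      simp only [expCoord] at h1
      exact (extChartAt 𝓘(ℝ, E) x₀).injOn hp4.2 hp.2 h1

/-- the squared norm is a smooth function on the tangent bundle -/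
lemma contMDiff_normSq : ContMDiff (𝓘(ℝ, E).tangent) 𝓘(ℝ, ℝ) ∞
    (fun p : TangentBundle 𝓘(ℝ, E) M => inner ℝ p.snd p.snd) := by
  have h : ContMDiff (𝓘(ℝ, E).tangent) (𝓘(ℝ, E).prod 𝓘(ℝ, E)) ∞
      (fun p : TangentBundle 𝓘(ℝ, E) M => (⟨p.proj, p.snd⟩ : TangentBundle 𝓘(ℝ, E) M)) :=
    contMDiff_id
  exact ContMDiff.inner_bundle h h

lemma continuous_norm_snd : Continuous (fun p : TangentBundle 𝓘(ℝ, E) M => ‖p.snd‖) := by
  have h : Continuous (fun p : TangentBundle 𝓘(ℝ, E) M => Real.sqrt (inner ℝ p.snd p.snd)) :=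
    Real.continuous_sqrt.comp contMDiff_normSq.continuous
  refine h.congr (fun p => ?_)
  rw [real_inner_self_eq_norm_sq, Real.sqrt_sq (norm_nonneg _)]

/-- Near the diagonal the cost is smooth and minimizing vectors exist. -/
lemma exists_near_diag [CompactSpace M] (he : IsExp e) : ∃ ρ : ℝ, 0 < ρ ∧ ∀ x y : M, dist x y < ρ →
    ContMDiffAt (𝓘(ℝ, E).prod 𝓘(ℝ, E)) 𝓘(ℝ, ℝ) ∞ (fun p : M × M => cost p.1 p.2) (x, y) ∧
      ∃ v : TangentSpace 𝓘(ℝ, E) x, e x v = y ∧ dist x y = ‖v‖ := by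
  obtain ⟨ρ₀, hρ₀, hmin⟩ := he.minimizing
  have key : ∀ x₀ : M, ∀ᶠ p in 𝓝 ((x₀, x₀) : M × M),
      ContMDiffAt (𝓘(ℝ, E).prod 𝓘(ℝ, E)) 𝓘(ℝ, ℝ) ∞ (fun p : M × M => cost p.1 p.2) p ∧
      ∃ v : TangentSpace 𝓘(ℝ, E) p.1, e p.1 v = p.2 ∧ dist p.1 p.2 = ‖v‖ := by
    intro x₀
    obtain ⟨V, hV0, hV⟩ := exists_local_log_open he x₀
    have hc : Tendsto (fun p => ‖(V p).snd‖) (𝓝 (x₀, x₀)) (𝓝 0) := by
      have h1 : ContinuousAt (fun p => ‖(V p).snd‖) (x₀, x₀) :=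
        continuous_norm_snd.continuousAt.comp hV.self_of_nhds.1.continuousAt
      have h2 := h1.tendsto
      rw [hV0] at h2
      simpa using h2
    have hnear : ∀ᶠ p in 𝓝 ((x₀, x₀) : M × M),
        ContMDiffAt (𝓘(ℝ, E).prod 𝓘(ℝ, E)) 𝓘(ℝ, E).tangent ∞ V p ∧
        (V p).proj = p.1 ∧ e (V p).proj (V p).snd = p.2 ∧ dist p.1 p.2 = ‖(V p).snd‖ := by
      filter_upwards [hV, hc.eventually (gt_mem_nhds hρ₀)] with p hp hp2
      refine ⟨hp.1, hp.2.1, hp.2.2, ?_⟩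
      have h3 := hmin (V p).proj (V p).snd 0 1 (by simpa using hp2.le)
      rw [zero_smul, one_smul, he.map_zero, hp.2.2] at h3
      rw [← hp.2.1]
      simpa using h3
    have hnear2 := eventually_eventually_nhds.2 hnear
    filter_upwards [hnear, hnear2] with p hp hp2
    refine ⟨?_, ?_⟩
    · have h1 : (fun q : M × M => cost q.1 q.2) =ᶠ[𝓝 p]
          (fun q => (1 / 2 : ℝ) * inner ℝ (V q).snd (V q).snd) := by
        filter_upwards [hp2] with q hq
        rw [cost, hq.2.2.2, real_inner_self_eq_norm_sq]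
        ring
      have h2 : ContMDiffAt (𝓘(ℝ, E).prod 𝓘(ℝ, E)) 𝓘(ℝ, ℝ) ∞
          (fun q => inner ℝ (V q).snd (V q).snd) p :=
        (contMDiff_normSq (V p)).comp p hp.1
      have h3 : ContMDiffAt (𝓘(ℝ, E).prod 𝓘(ℝ, E)) 𝓘(ℝ, ℝ) ∞
          (fun q => (1 / 2 : ℝ) * inner ℝ (V q).snd (V q).snd) p :=
        (contMDiffAt_const (c := (1 / 2 : ℝ))).mul h2
      exact h3.congr_of_eventuallyEq h1
    · obtain ⟨-, h1, h2, h3⟩ := hp
      generalize V p = w at h1 h2 h3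
      obtain ⟨x, y⟩ := p
      simp only at h1 h2 h3 ⊢
      subst h1
      exact ⟨w.snd, h2, h3⟩
  have hdiag : ∀ᶠ p in 𝓝ˢ (diagonal M),
      ContMDiffAt (𝓘(ℝ, E).prod 𝓘(ℝ, E)) 𝓘(ℝ, ℝ) ∞ (fun p : M × M => cost p.1 p.2) p ∧
      ∃ v : TangentSpace 𝓘(ℝ, E) p.1, e p.1 v = p.2 ∧ dist p.1 p.2 = ‖v‖ := by
    rw [eventually_nhdsSet_iff_forall]
    rintro ⟨x, y⟩ hxy
    have : x = y := hxy
    subst this
    exact key x
  rw [nhdsSet_diagonal_eq_uniformity] at hdiag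
  obtain ⟨ρ, hρ, h⟩ := Metric.mem_uniformity_dist.1 hdiag
  exact ⟨ρ, hρ, fun x y hxy => h hxy⟩

/-- Near the diagonal the cost is smooth and minimizing vectors exist. -/
lemma exists_near [CompactSpace M] (he : IsExp e) : ∃ ρ : ℝ, 0 < ρ ∧ ∀ x y : M, dist x y < ρ →
    SmoothAt E x y ∧ ∃ v : TangentSpace 𝓘(ℝ, E) x, e x v = y ∧ dist x y = ‖v‖ := by
  obtain ⟨ρ, hρ, h⟩ := exists_near_diag he
  refine ⟨ρ, hρ, fun x y hxy => ⟨?_, (h x y hxy).2⟩⟩
  have h1 : ∀ᶠ p in 𝓝 (x, y), dist p.1 p.2 < ρ :=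
    (continuous_dist.tendsto (x, y)).eventually (gt_mem_nhds hxy)
  filter_upwards [h1] with p hp
  exact (h p.1 p.2 hp).1

end

end Vale.Agent.P234
end
end

section

section

/-! Foundation 2: short geodesics and the flow property. -/

set_option maxSynthPendingDepth 3

open Bundle Manifold Set Filter
open scoped ContDiff Manifold Topology

namespace Vale.Agent.P234

noncomputable section

variable {E : Type*} [NormedAddCommGroup E] [NormedSpace ℝ E] [FiniteDimensional ℝ E]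
  {M : Type*} [MetricSpace M] [ChartedSpace E M]
  [RiemannianBundle (fun x : M => TangentSpace 𝓘(ℝ, E) x)]
  [IsManifold 𝓘(ℝ, E) ∞ M]
  [IsContMDiffRiemannianBundle 𝓘(ℝ, E) ∞ E (fun x : M => TangentSpace 𝓘(ℝ, E) x)]
  {e : ∀ x : M, TangentSpace 𝓘(ℝ, E) x → M}

/-- Uniqueness of the minimizing vector when the cost is smooth. -/
lemma sh_unique (he : IsExp e) {x : M} {v w : TangentSpace 𝓘(ℝ, E) x}
    (hv : v ∈ segMin e x) (hw : w ∈ segMin e x) (hs : SmoothAt E x (e x v))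
    (hvw : e x w = e x v) : w = v := by
  have h1 := hasFDerivAt_cost_zero he x v hv hs
  have h2 := hasFDerivAt_cost_zero he x w hw (by rw [hvw]; exact hs)
  rw [hvw] at h2
  have h3 := h2.unique h1
  have h4 : innerSL ℝ w = innerSL ℝ v := neg_injective h3
  have h5 : ∀ u : TangentSpace 𝓘(ℝ, E) x, inner ℝ w u = inner ℝ v u := by
    intro u
    have := DFunLike.congr_fun h4 u
    simpa using this
  exact ext_inner_right ℝ h5

/-- No corner at an intermediate point. -/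
lemma sh_corner (he : IsExp e) {x q y : M} {s t : ℝ} (hs : 0 < s) (ht : 0 < t)
    {p w : TangentSpace 𝓘(ℝ, E) q} (hp : p ∈ segMin e q) (hpx : e q p = x)
    (hw : w ∈ segMin e q) (hwy : e q w = y) (hxq : dist q x = s) (hqy : dist q y = t)
    (hxy : dist x y = s + t) (h1 : SmoothAt E q x) (h2 : SmoothAt E q y) :
    w = -((t / s) • p) := by
  subst hpx
  subst hwy
  have d1 := hasFDerivAt_cost_zero he q p hp h1
  have d2 := hasFDerivAt_cost_zero he q w hw h2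
  have d3 := (d1.const_mul s⁻¹).add (d2.const_mul t⁻¹)
  have hmin : IsLocalMin (fun a : TangentSpace 𝓘(ℝ, E) q =>
      s⁻¹ * cost (e q a) (e q p) + t⁻¹ * cost (e q a) (e q w)) 0 := by
    apply Filter.Eventually.of_forall
    intro a
    have h3 := cost_ineq (e q p) (e q a) (e q w) hs ht
    rw [cost_comm (e q p) (e q a)] at h3
    have h4 : cost (e q p) (e q w) / (s + t) = (s + t) / 2 := by
      unfold cost
      rw [hxy]
      field_simp
    have h5 : s⁻¹ * cost (e q 0) (e q p) + t⁻¹ * cost (e q 0) (e q w) = (s + t) / 2 := by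
      rw [he.map_zero]
      unfold cost
      rw [hxq, hqy]
      field_simp
    simp only
    rw [h5, ← h4]
    calc _ ≤ _ := h3
      _ = _ := by ring
  have h6 := hmin.hasFDerivAt_eq_zero d3
  have h7 : ∀ u : TangentSpace 𝓘(ℝ, E) q, inner ℝ (s⁻¹ • p + t⁻¹ • w) u = (0 : ℝ) := by
    intro u
    have h8 := DFunLike.congr_fun h6 u
    have h9 : s⁻¹ * -(inner ℝ p u) + t⁻¹ * -(inner ℝ w u) = (0 : ℝ) := by
      simpa using h8
    rw [inner_add_left, real_inner_smul_left, real_inner_smul_left]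
    linarith
  have h10 : s⁻¹ • p + t⁻¹ • w = 0 := ext_inner_right ℝ (fun u => by rw [h7 u, inner_zero_left])
  have h11 : t⁻¹ • w = -(s⁻¹ • p) := by
    rw [← sub_eq_zero, sub_neg_eq_add, add_comm]
    exact h10
  calc w = t • (t⁻¹ • w) := by rw [smul_smul, mul_inv_cancel₀ ht.ne', one_smul]
    _ = t • (-(s⁻¹ • p)) := by rw [h11]
    _ = _ := by rw [smul_neg, smul_smul, div_eq_mul_inv]

variable [CompactSpace M]

/-- A common small scale. -/
lemma sh_scale (he : IsExp e) : ∃ ρ : ℝ, 0 < ρ ∧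
    (∀ (x : M) (v : TangentSpace 𝓘(ℝ, E) x) (s t : ℝ),
      ‖v‖ * |t - s| ≤ ρ → dist (e x (s • v)) (e x (t • v)) = ‖v‖ * |t - s|) ∧
    (∀ x y : M, dist x y < ρ → SmoothAt E x y ∧
      ∃ v : TangentSpace 𝓘(ℝ, E) x, v ∈ segMin e x ∧ e x v = y) := by
  obtain ⟨ρ1, h1, hm⟩ := he.minimizing
  obtain ⟨ρ2, h2, hn⟩ := exists_near he
  refine ⟨min ρ1 ρ2, lt_min h1 h2, ?_, ?_⟩
  · intro x v s t h
    exact hm x v s t (h.trans (min_le_left _ _))
  · intro x y h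
    obtain ⟨hs, v, hv, hd⟩ := hn x y (h.trans_le (min_le_right _ _))
    refine ⟨hs, v, ?_, hv⟩
    change dist x (e x v) = ‖v‖
    rw [hv, hd]

lemma sh_between_aux (he : IsExp e) {ρ : ℝ}
    (hm : ∀ (x : M) (v : TangentSpace 𝓘(ℝ, E) x) (s t : ℝ),
      ‖v‖ * |t - s| ≤ ρ → dist (e x (s • v)) (e x (t • v)) = ‖v‖ * |t - s|)
    (hn : ∀ x y : M, dist x y < ρ → SmoothAt E x y ∧
      ∃ v : TangentSpace 𝓘(ℝ, E) x, v ∈ segMin e x ∧ e x v = y)
    (x : M) (v : TangentSpace 𝓘(ℝ, E) x) (hv : ‖v‖ < ρ / 2) (q : M)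
    (hq : dist x q + dist q (e x v) = dist x (e x v)) :
      ∃ t : ℝ, 0 ≤ t ∧ t ≤ 1 ∧ e x (t • v) = q := by
  have hv0 : 0 ≤ ‖v‖ := norm_nonneg v
  have hρ : 0 < ρ := by linarith
  -- distances along the curve
  have e0 : e x ((0 : ℝ) • v) = x := by rw [zero_smul, he.map_zero]
  have e1 : e x ((1 : ℝ) • v) = e x v := by rw [one_smul]
  have hxy : dist x (e x v) = ‖v‖ := by
    have := hm x v 0 1 (by norm_num; linarith)
    rw [e0, e1] at this
    simpa using this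
  rcases eq_or_lt_of_le (dist_nonneg (x := q) (y := e x v)) with h0 | hpos
  · refine ⟨1, zero_le_one, le_rfl, ?_⟩
    rw [e1]
    exact (dist_eq_zero.1 h0.symm).symm
  have hvpos : 0 < ‖v‖ := by
    have : 0 ≤ dist x q := dist_nonneg
    linarith
  set τ := dist x q / ‖v‖ with hτ
  have hτ0 : 0 ≤ τ := by positivity
  have hτv : τ * ‖v‖ = dist x q := by rw [hτ]; field_simp
  have hτ1 : τ ≤ 1 := by
    rw [hτ, div_le_one hvpos]
    linarith
  refine ⟨τ, hτ0, hτ1, ?_⟩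
  set y := e x v with hy
  set y1 := e x ((2 : ℝ) • v) with hy1
  set q' := e x (τ • v) with hq'
  set t := dist q y with ht
  have d1 : dist y y1 = ‖v‖ := by
    have := hm x v 1 2 (by norm_num; linarith)
    rw [e1, ← hy1] at this
    rw [this]; norm_num
  have d2 : dist x y1 = 2 * ‖v‖ := by
    have := hm x v 0 2 (by norm_num; linarith)
    rw [e0, ← hy1] at this
    rw [this]; norm_num; ring
  have d3 : dist q y1 = t + ‖v‖ := by
    have h1 := dist_triangle q y y1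
    have h2 := dist_triangle x q y1
    linarith
  have d4 : dist q' y = t := by
    have h1 : |1 - τ| = 1 - τ := abs_of_nonneg (by linarith)
    have := hm x v τ 1 (by rw [h1]; nlinarith)
    rw [e1, ← hq', h1] at this
    rw [this]
    nlinarith
  have d5 : dist q' y1 = t + ‖v‖ := by
    have h1 : |2 - τ| = 2 - τ := abs_of_nonneg (by linarith)
    have := hm x v τ 2 (by rw [h1]; nlinarith)
    rw [← hy1, ← hq', h1] at this
    rw [this]
    nlinarith
  have htv : t ≤ ‖v‖ := by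
    have : 0 ≤ dist x q := dist_nonneg
    linarith
  obtain ⟨hs1, p, hp, hpq⟩ := hn y q (by rw [dist_comm]; linarith)
  obtain ⟨hs2, p', hp', hpq'⟩ := hn y q' (by rw [dist_comm, d4]; linarith)
  obtain ⟨hs3, w, hw, hwy⟩ := hn y y1 (by linarith)
  have c1 := sh_corner he hpos hvpos hp hpq hw hwy (by rw [dist_comm]) d1 d3 hs1 hs3
  have c2 := sh_corner he hpos hvpos hp' hpq' hw hwy (by rw [dist_comm, d4]) d1 d5 hs2 hs3
  rw [c2] at c1
  have c3 : (‖v‖ / t) • p' = (‖v‖ / t) • p := neg_injective c1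
  have hne : ‖v‖ / t ≠ 0 := by positivity
  have c4 : p' = p := smul_right_injective _ hne c3
  rw [← hpq', ← hpq, c4]

/-- Uniqueness of intermediate points at small scale. -/
lemma short_between (he : IsExp e) : ∃ ρ : ℝ, 0 < ρ ∧ ∀ (x : M) (v : TangentSpace 𝓘(ℝ, E) x),
    ‖v‖ < ρ → ∀ q : M, dist x q + dist q (e x v) = dist x (e x v) →
      ∃ t : ℝ, 0 ≤ t ∧ t ≤ 1 ∧ e x (t • v) = q := by
  obtain ⟨ρ, hρ, hm, hn⟩ := sh_scale he
  exact ⟨ρ / 2, by positivity, fun x v hv q hq => sh_between_aux he hm hn x v hv q hq⟩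

/-- The local flow property, with a uniform time. -/
lemma sh_local (he : IsExp e) {ρ : ℝ}
    (hm : ∀ (x : M) (v : TangentSpace 𝓘(ℝ, E) x) (s t : ℝ),
      ‖v‖ * |t - s| ≤ ρ → dist (e x (s • v)) (e x (t • v)) = ‖v‖ * |t - s|)
    (hn : ∀ x y : M, dist x y < ρ → SmoothAt E x y ∧
      ∃ v : TangentSpace 𝓘(ℝ, E) x, v ∈ segMin e x ∧ e x v = y)
    {δ : ℝ} (hδ : 0 < δ) (x : M) (v : TangentSpace 𝓘(ℝ, E) x) (hv : 0 < ‖v‖)
    (hvδ : ‖v‖ * δ < ρ / 2) (r : ℝ) (z : M) (hz : e x (r • v) = z) :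
    ∃ w : TangentSpace 𝓘(ℝ, E) z, ‖w‖ = ‖v‖ ∧
      ∀ t : ℝ, |t| ≤ δ → e z (t • w) = e x ((r + t) • v) := by
  have hvδ0 : 0 < ‖v‖ * δ := by positivity
  set y := e x ((r + δ) • v) with hy
  set y' := e x ((r - δ) • v) with hy'
  have d1 : dist z y = ‖v‖ * δ := by
    have h1 : |r + δ - r| = δ := by rw [add_sub_cancel_left, abs_of_pos hδ]
    have := hm x v r (r + δ) (by rw [h1]; linarith)
    rwa [hz, h1] at this
  have d2 : dist z y' = ‖v‖ * δ := by
    have h1 : |r - δ - r| = δ := by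
      rw [show r - δ - r = -δ by ring, abs_neg, abs_of_pos hδ]
    have := hm x v r (r - δ) (by rw [h1]; linarith)
    rwa [hz, h1] at this
  have d3 : dist y y' = ‖v‖ * δ + ‖v‖ * δ := by
    have h1 : |r - δ - (r + δ)| = 2 * δ := by
      rw [show r - δ - (r + δ) = -(2 * δ) by ring, abs_neg, abs_of_pos (by linarith)]
    have := hm x v (r + δ) (r - δ) (by rw [h1]; linarith)
    rw [h1] at this
    rw [this]; ring
  obtain ⟨hs1, p, hp, hpy⟩ := hn z y (by linarith)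
  obtain ⟨hs2, p', hp', hpy'⟩ := hn z y' (by linarith)
  have c1 := sh_corner he hvδ0 hvδ0 hp hpy hp' hpy' d1 d2 d3 hs1 hs2
  rw [div_self hvδ0.ne', one_smul] at c1
  have hpn : ‖p‖ = ‖v‖ * δ := by
    have h1 : dist z (e z p) = ‖p‖ := hp
    rw [← h1, hpy, d1]
  refine ⟨δ⁻¹ • p, ?_, ?_⟩
  · rw [norm_smul, norm_inv, Real.norm_eq_abs, abs_of_pos hδ, hpn]
    field_simp
  · -- a common argument for both signs
    have key : ∀ (P : TangentSpace 𝓘(ℝ, E) z) (Y : M) (t : ℝ), ‖P‖ = ‖v‖ * δ → e z P = Y →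
        dist z Y = ‖v‖ * δ → |t| ≤ δ → dist (e x ((r + t) • v)) Y = ‖v‖ * (δ - |t|) →
        e z ((|t| * δ⁻¹) • P) = e x ((r + t) • v) := by
      intro P Y t hP hPY hzY ht hd
      have h1 : |r + t - r| = |t| := by rw [add_sub_cancel_left]
      have h2 := hm x v r (r + t) (by rw [h1]; nlinarith [abs_nonneg t])
      rw [hz, h1] at h2
      obtain ⟨τ, hτ0, hτ1, hτ⟩ := sh_between_aux he hm hn z P (by rw [hP]; exact hvδ)
        (e x ((r + t) • v)) (by rw [hPY, hzY, h2, hd]; ring)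
      have h3 := hm z P 0 τ (by
        rw [sub_zero, abs_of_nonneg hτ0, hP]
        nlinarith)
      rw [zero_smul, he.map_zero, hτ, h2, sub_zero, abs_of_nonneg hτ0, hP] at h3
      have h4 : |t| = τ * δ := by
        have h5 : ‖v‖ * |t| = ‖v‖ * (τ * δ) := by rw [h3]; ring
        exact mul_left_cancel₀ hv.ne' h5
      rw [h4, mul_assoc, mul_inv_cancel₀ hδ.ne', mul_one, hτ]
    intro t ht
    rcases le_total 0 t with h0 | h0
    · have h1 := key p y t hpn hpy d1 ht (by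
        have h2 : |r + δ - (r + t)| = δ - |t| := by
          rw [abs_of_nonneg h0] at ht ⊢
          rw [show r + δ - (r + t) = δ - t by ring, abs_of_nonneg (by linarith)]
        have h3 := hm x v (r + t) (r + δ) (by rw [h2]; nlinarith [abs_nonneg t])
        rw [h2] at h3
        exact h3)
      rw [abs_of_nonneg h0] at h1
      rw [smul_smul]
      exact h1
    · have h1 := key p' y' t (by rw [c1, norm_neg, hpn]) hpy' d2 ht (by
        have h2 : |r - δ - (r + t)| = δ - |t| := by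
          rw [abs_of_nonpos h0] at ht ⊢
          rw [show r - δ - (r + t) = -(δ - -t) by ring, abs_neg, abs_of_nonneg (by linarith)]
        have h3 := hm x v (r + t) (r - δ) (by rw [h2]; nlinarith [abs_nonneg t])
        rw [h2] at h3
        exact h3)
      rw [abs_of_nonpos h0, c1, smul_neg, ← neg_smul] at h1
      rw [smul_smul, ← h1]
      congr 2
      ring

/-- Flow property. -/
lemma flow_of_isExp (he : IsExp e) (x : M) (v : TangentSpace 𝓘(ℝ, E) x) (s : ℝ) :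
    ∃ w : TangentSpace 𝓘(ℝ, E) (e x (s • v)), ‖w‖ = ‖v‖ ∧
      ∀ t : ℝ, e (e x (s • v)) (t • w) = e x ((s + t) • v) := by
  obtain ⟨ρ, hρ, hm, hn⟩ := sh_scale he
  rcases eq_or_lt_of_le (norm_nonneg v) with h0 | hv
  · have hv0 : v = 0 := norm_eq_zero.1 h0.symm
    subst hv0
    refine ⟨0, by simp, ?_⟩
    intro t
    rw [smul_zero, smul_zero, smul_zero, he.map_zero, he.map_zero]
  set δ := ρ / (4 * ‖v‖) with hδdef
  have hδ : 0 < δ := by positivity
  have hvδ : ‖v‖ * δ < ρ / 2 := by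
    have : ‖v‖ * δ = ρ / 4 := by rw [hδdef]; field_simp
    rw [this]; linarith
  obtain ⟨w, hw, hloc⟩ := sh_local he hm hn hδ x v hv hvδ s _ rfl
  refine ⟨w, hw, ?_⟩
  have hw0 : 0 < ‖w‖ := by rw [hw]; exact hv
  have main : ∀ n : ℕ, ∀ t : ℝ, |t| ≤ (n + 1) * δ →
      e (e x (s • v)) (t • w) = e x ((s + t) • v) := by
    intro n
    induction n with
    | zero =>
      intro t ht
      exact hloc t (by simpa using ht)
    | succ n ih =>
      -- one step in the direction σ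
      have step : ∀ σ : ℝ, |σ| = 1 → ∀ u : ℝ, |u| ≤ δ →
          e (e x (s • v)) ((σ * ((n + 1) * δ) + u) • w) =
            e x ((s + (σ * ((n + 1) * δ) + u)) • v) := by
        intro σ hσ u hu
        have hn0 : (0 : ℝ) ≤ (n : ℝ) := Nat.cast_nonneg n
        set t0 := σ * ((n + 1) * δ) with ht0
        have ht0abs : |t0| ≤ (n + 1) * δ := by
          rw [ht0, abs_mul, hσ, one_mul, abs_of_nonneg (by positivity)]
        have hz := ih t0 ht0abs
        obtain ⟨w1, hw1, hl1⟩ := sh_local he hm hn hδ (e x (s • v)) w hw0 (by rw [hw]; exact hvδ)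
          t0 _ hz
        obtain ⟨w2, hw2, hl2⟩ := sh_local he hm hn hδ x v hv hvδ (s + t0) _ rfl
        have hσδ : |-σ * δ| ≤ δ := by
          rw [abs_mul, abs_neg, hσ, one_mul, abs_of_pos hδ]
        have e1 := hl1 (-σ * δ) hσδ
        have e2 := hl2 (-σ * δ) hσδ
        have hσ2 : σ * σ = 1 := by
          have := abs_mul_abs_self σ
          rw [hσ] at this
          linarith
        have e3 : |t0 + -σ * δ| ≤ (n + 1) * δ := by
          have : t0 + -σ * δ = σ * (n * δ) := by rw [ht0]; ring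
          rw [this, abs_mul, hσ, one_mul, abs_of_nonneg (by positivity)]
          nlinarith
        have e4 := ih (t0 + -σ * δ) e3
        have e5 : e (e x ((s + t0) • v)) ((-σ * δ) • w1) = e (e x ((s + t0) • v)) ((-σ * δ) • w2) := by
          rw [e1, e2, e4]
          congr 2
          ring
        have hseg : ∀ W : TangentSpace 𝓘(ℝ, E) (e x ((s + t0) • v)), ‖W‖ = ‖v‖ →
            (-σ * δ) • W ∈ segMin e (e x ((s + t0) • v)) ∧
            dist (e x ((s + t0) • v)) (e (e x ((s + t0) • v)) ((-σ * δ) • W)) < ρ := by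
          intro W hW
          have h1 := hm (e x ((s + t0) • v)) W 0 (-σ * δ) (by
            rw [sub_zero, hW]
            nlinarith)
          rw [zero_smul, he.map_zero, sub_zero] at h1
          constructor
          · change dist _ _ = ‖_‖
            rw [h1, norm_smul, Real.norm_eq_abs, mul_comm]
          · rw [h1, hW]
            nlinarith
        have g1 := hseg w1 (by rw [hw1, hw])
        have g2 := hseg w2 hw2
        have e6 := sh_unique he g2.1 g1.1 (hn _ _ g2.2).1 e5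
        have hne : -σ * δ ≠ 0 := by
          intro h
          have : σ = 0 := by
            rcases mul_eq_zero.1 h with h | h
            · linarith
            · exact absurd h hδ.ne'
          rw [this] at hσ
          simp at hσ
        have e7 : w1 = w2 := smul_right_injective _ hne e6
        rw [← hl1 u hu, e7, hl2 u hu]
        congr 2
        ring
      intro t ht
      push_cast at ht
      rcases le_total 0 t with h0 | h0
      · rcases le_total t ((n + 1) * δ) with h1 | h1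
        · exact ih t (by rw [abs_of_nonneg h0]; exact h1)
        · have h2 := step 1 (by norm_num) (t - (n + 1) * δ) (by
            rw [abs_of_nonneg h0] at ht
            rw [abs_of_nonneg (by linarith)]
            linarith)
          have h3 : 1 * ((n + 1) * δ) + (t - (n + 1) * δ) = t := by ring
          rw [h3] at h2
          exact h2
      · rcases le_total (-((n + 1) * δ)) t with h1 | h1
        · exact ih t (by rw [abs_of_nonpos h0]; linarith)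
        · have h2 := step (-1) (by norm_num) (t + (n + 1) * δ) (by
            rw [abs_of_nonpos h0] at ht
            rw [abs_of_nonpos (by linarith)]
            linarith)
          have h3 : -1 * ((n + 1) * δ) + (t + (n + 1) * δ) = t := by ring
          rw [h3] at h2
          exact h2
  intro t
  obtain ⟨n, hn'⟩ := exists_nat_gt (|t| / δ)
  apply main n t
  rw [div_lt_iff₀ hδ] at hn'
  nlinarith

end

end Vale.Agent.P234
end
end
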