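import Vale.Agent.P234.MathlibUsed

set_option linter.all false

section

section

open Set Filter Topology Metric
open scoped ContDiff

namespace Vale.Agent.P234

/-- Inverse function theorem with parameters. -/
theorem param_inverse {P V : Type*} [NormedAddCommGroup P] [NormedSpace ℝ P] [CompleteSpace P]
    [NormedAddCommGroup V] [NormedSpace ℝ V] [CompleteSpace V] {F : P × V → V} {a : P × V}
    {n : ℕ∞ω} (hF : ∀ᶠ z in 𝓝 a, ContDiffAt ℝ n F z) (hn : n ≠ 0)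
    (hL : Function.Bijective (fun v : V => fderiv ℝ F a (0, v))) :
    ∃ G : P × V → V, (∀ᶠ z in 𝓝 (a.1, F a), ContDiffAt ℝ n G z) ∧ G (a.1, F a) = a.2 ∧
      (∀ᶠ z in 𝓝 (a.1, F a), F (z.1, G z) = z.2) ∧
      (∀ᶠ z in 𝓝 a, G (z.1, F z) = z.2) := by
  have hFa := hF.self_of_nhds
  have hdF : HasFDerivAt F (fderiv ℝ F a) a := (hFa.differentiableAt hn).hasFDerivAt
  set L : P × V →L[ℝ] P × V := (ContinuousLinearMap.fst ℝ P V).prod (fderiv ℝ F a) with hLdef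
  have hinj : Function.Injective L := by
    rintro ⟨β, ρ⟩ ⟨β', ρ'⟩ h
    simp only [hLdef, ContinuousLinearMap.prod_apply, ContinuousLinearMap.coe_fst', Prod.mk.injEq]
      at h
    obtain ⟨h1, h2⟩ := h
    subst h1
    have h3 : fderiv ℝ F a (0, ρ) = fderiv ℝ F a (0, ρ') := by
      have e1 : ((β, ρ) : P × V) = (β, 0) + (0, ρ) := by simp
      have e2 : ((β, ρ') : P × V) = (β, 0) + (0, ρ') := by simp
      rw [e1, e2, map_add, map_add] at h2
      exact add_left_cancel h2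
    rw [hL.1 h3]
  have hsurj : Function.Surjective L := by
    rintro ⟨β, q⟩
    obtain ⟨ρ, hρ⟩ := hL.2 (q - fderiv ℝ F a (β, 0))
    refine ⟨(β, ρ), ?_⟩
    simp only [hLdef, ContinuousLinearMap.prod_apply, ContinuousLinearMap.coe_fst', Prod.mk.injEq,
      true_and]
    have e1 : ((β, ρ) : P × V) = (β, 0) + (0, ρ) := by simp
    rw [e1, map_add]
    simp only at hρ
    rw [hρ]
    abel
  set Le : (P × V) ≃L[ℝ] (P × V) := ContinuousLinearEquiv.ofBijective L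
    (LinearMap.ker_eq_bot.2 hinj) (LinearMap.range_eq_top.2 hsurj) with hLe
  have hLeL : (Le : P × V →L[ℝ] P × V) = L := by
    ext x <;> simp [hLe]
  set Ψ : P × V → P × V := fun z => (z.1, F z) with hΨ
  have hΨc : ContDiffAt ℝ n Ψ a := contDiffAt_fst.prodMk hFa
  have hΨc' : ∀ᶠ z in 𝓝 a, ContDiffAt ℝ n Ψ z := by
    filter_upwards [hF] with z hz
    exact contDiffAt_fst.prodMk hz
  have hΨd' : HasFDerivAt Ψ L a := hasFDerivAt_fst.prodMk hdF
  have hΨd : HasFDerivAt Ψ (Le : P × V →L[ℝ] P × V) a := by rw [hLeL]; exact hΨd'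
  -- the derivative is invertible nearby
  have hinv : ∀ᶠ z in 𝓝 a, ∃ T : (P × V) ≃L[ℝ] (P × V),
      HasFDerivAt Ψ (T : P × V →L[ℝ] P × V) z := by
    have hcont : ContinuousAt (fderiv ℝ Ψ) a :=
      (hΨc.of_le (ENat.one_le_iff_ne_zero_withTop.mpr hn)).continuousAt_fderiv one_ne_zero
    have hmem : Set.range ((↑) : ((P × V) ≃L[ℝ] (P × V)) → (P × V →L[ℝ] P × V)) ∈
        𝓝 (fderiv ℝ Ψ a) := by
      rw [hΨd.fderiv]
      exact ContinuousLinearEquiv.nhds Le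
    filter_upwards [hcont hmem, hΨc'] with z hz hz2
    obtain ⟨T, hT⟩ := hz
    refine ⟨T, ?_⟩
    rw [hT]
    exact (hz2.differentiableAt hn).hasFDerivAt
  have hst : HasStrictFDerivAt Ψ (Le : P × V →L[ℝ] P × V) a := hΨc.hasStrictFDerivAt' hΨd hn
  set R := hst.toOpenPartialHomeomorph Ψ with hR
  have hRc : (R : P × V → P × V) = Ψ := hst.toOpenPartialHomeomorph_coe
  have ha : a ∈ R.source := hst.mem_toOpenPartialHomeomorph_source
  have hΨa : Ψ a = (a.1, F a) := rfl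
  have hta : (a.1, F a) ∈ R.target := by
    rw [← hΨa]; exact hst.image_mem_toOpenPartialHomeomorph_target
  have hsa : R.symm (a.1, F a) = a := by
    rw [← hΨa, ← hRc]; exact R.left_inv ha
  have htar : ∀ᶠ z in 𝓝 (a.1, F a), z ∈ R.target := R.open_target.mem_nhds hta
  have hsrc : ∀ᶠ z in 𝓝 a, z ∈ R.source := R.open_source.mem_nhds ha
  have hsc : Tendsto R.symm (𝓝 (a.1, F a)) (𝓝 a) := by
    have := (R.continuousAt_symm hta).tendsto
    rwa [hsa] at this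
  refine ⟨fun z => (R.symm z).2, ?_, ?_, ?_, ?_⟩
  · filter_upwards [htar, hsc.eventually hinv, hsc.eventually hΨc'] with z hz hz1 hz2
    obtain ⟨T, hT⟩ := hz1
    refine contDiffAt_snd.comp _ ?_
    refine R.contDiffAt_symm hz (f₀' := T) ?_ ?_
    · rw [hRc]; exact hT
    · rw [hRc]; exact hz2
  · simp only [hsa]
  · filter_upwards [htar] with z hz
    have h0 : Ψ (R.symm z) = z := by rw [← hRc]; exact R.right_inv hz
    have h1 : (R.symm z).1 = z.1 := by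
      have := congrArg (fun q : P × V => q.1) h0
      exact this
    have h2 : F (R.symm z) = z.2 := by
      have := congrArg (fun q : P × V => q.2) h0
      exact this
    rw [← h1]
    exact h2
  · filter_upwards [hsrc] with z hz
    have h0 : R.symm (Ψ z) = z := by rw [← hRc]; exact R.left_inv hz
    have h1 : (z.1, F z) = Ψ z := rfl
    rw [h1, h0]

/-- Equality case: a functional of norm at most one which attains its norm. -/
theorem functional_eq_inner {V : Type*} [NormedAddCommGroup V] [InnerProductSpace ℝ V]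
    (ℓ : V →L[ℝ] ℝ) (hℓ : ∀ b, |ℓ b| ≤ ‖b‖) {u : V} (h : ℓ u = ‖u‖) (hu : u ≠ 0) (b : V) :
    ℓ b = inner ℝ u b / ‖u‖ := by
  have hu0 : 0 < ‖u‖ := norm_pos_iff.2 hu
  -- decompose b
  set c := inner ℝ u b / ‖u‖ ^ 2 with hc
  set r := b - c • u with hr
  have hort : inner ℝ u r = 0 := by
    rw [hr, inner_sub_right, inner_smul_right, real_inner_self_eq_norm_sq, hc]
    field_simp
    ring
  have hℓr : ℓ r = 0 := by
    by_contra hne
    -- test on u + s r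
    have key : ∀ s : ℝ, (‖u‖ + s * ℓ r) ^ 2 ≤ ‖u‖ ^ 2 + s ^ 2 * ‖r‖ ^ 2 := by
      intro s
      have h1 := hℓ (u + s • r)
      rw [map_add, map_smul, h, smul_eq_mul] at h1
      have h2 : ‖u + s • r‖ ^ 2 = ‖u‖ ^ 2 + s ^ 2 * ‖r‖ ^ 2 := by
        rw [norm_add_sq_real, inner_smul_right, hort, norm_smul, mul_pow, Real.norm_eq_abs, sq_abs]
        ring
      rw [← h2]
      exact sq_le_sq' (by linarith only [h1, neg_abs_le (‖u‖ + s * ℓ r)]) ((le_abs_self _).trans h1)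
    have h3 : 0 < |ℓ r| := abs_pos.2 hne
    -- choose s small with sign of ℓ r
    have h4 := key (‖u‖ * ℓ r / (‖r‖ ^ 2 + 1))
    have hd : 0 < ‖r‖ ^ 2 + 1 := by (clear * -; positivity)
    have e1 : ‖u‖ * ℓ r / (‖r‖ ^ 2 + 1) * ℓ r = ‖u‖ * (ℓ r) ^ 2 / (‖r‖ ^ 2 + 1) := by ring
    rw [e1] at h4
    have e2 : (‖u‖ * ℓ r / (‖r‖ ^ 2 + 1)) ^ 2 * ‖r‖ ^ 2 ≤ ‖u‖ ^ 2 * (ℓ r) ^ 2 / (‖r‖ ^ 2 + 1) := by
      rw [div_pow, div_mul_eq_mul_div, div_le_div_iff₀ (by (clear * -; positivity)) hd]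
      have : 0 ≤ ‖u‖ ^ 2 * (ℓ r) ^ 2 := by positivity
      nlinarith only []
    set x := ‖u‖ * (ℓ r) ^ 2 / (‖r‖ ^ 2 + 1) with hx
    have e3 : ‖u‖ ^ 2 * (ℓ r) ^ 2 / (‖r‖ ^ 2 + 1) = ‖u‖ * x := by rw [hx]; ring
    rw [e3] at e2
    have hxpos : 0 < x := by
      have : 0 < (ℓ r) ^ 2 := by (clear * - hne; positivity)
      positivity
    nlinarith only [e2, h4, hxpos]
  have hb : b = c • u + r := by rw [hr]; abel
  rw [hb, map_add, map_smul, hℓr, h, inner_add_right, hort, inner_smul_right,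
    real_inner_self_eq_norm_sq, smul_eq_mul]
  field_simp
  ring

end Vale.Agent.P234
end
end

section

section

/-! Composition operators on spaces of continuous functions. -/

open Set Filter Topology Metric
open scoped ContDiff

namespace Vale.Agent.P234

noncomputable section

variable {K : Type*} [TopologicalSpace K] [CompactSpace K]
  {E F : Type*} [NormedAddCommGroup E] [NormedSpace ℝ E] [NormedAddCommGroup F] [NormedSpace ℝ F]

/-- The composition operator `u ↦ f ∘ u`. -/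
def nem (f : E → F) (hf : Continuous f) (u : C(K, E)) : C(K, F) :=
  ⟨fun t => f (u t), hf.comp u.continuous⟩

/-- Pointwise application of operators, as a bilinear map. -/
def exNemLin (K : Type*) [TopologicalSpace K] [CompactSpace K]
    (E F : Type*) [NormedAddCommGroup E] [NormedSpace ℝ E] [NormedAddCommGroup F]
    [NormedSpace ℝ F] : C(K, E →L[ℝ] F) →ₗ[ℝ] C(K, E) →ₗ[ℝ] C(K, F) :=
  LinearMap.mk₂ ℝ (fun g h => ⟨fun t => g t (h t), g.continuous.clm_apply h.continuous⟩)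
    (fun g g' h => by ext t; simp) (fun c g h => by ext t; simp)
    (fun g h h' => by ext t; simp) (fun c g h => by ext t; simp)

lemma exNemLin_bound (g : C(K, E →L[ℝ] F)) (h : C(K, E)) :
    ‖exNemLin K E F g h‖ ≤ 1 * ‖g‖ * ‖h‖ := by
  have h0 : 0 ≤ 1 * ‖g‖ * ‖h‖ := by positivity
  refine (ContinuousMap.norm_le _ h0).2 fun t => ?_
  calc ‖g t (h t)‖ ≤ ‖g t‖ * ‖h t‖ := (g t).le_opNorm _
    _ ≤ ‖g‖ * ‖h‖ := mul_le_mul (g.norm_coe_le_norm t) (h.norm_coe_le_norm t)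
        (norm_nonneg _) (norm_nonneg g)
    _ = 1 * ‖g‖ * ‖h‖ := by ring

/-- Pointwise application of operators, as a continuous bilinear map. -/
def exNemB (K : Type*) [TopologicalSpace K] [CompactSpace K]
    (E F : Type*) [NormedAddCommGroup E] [NormedSpace ℝ E] [NormedAddCommGroup F]
    [NormedSpace ℝ F] : C(K, E →L[ℝ] F) →L[ℝ] C(K, E) →L[ℝ] C(K, F) :=
  LinearMap.mkContinuous₂ (E := C(K, E →L[ℝ] F)) (F := C(K, E)) (G := C(K, F))
    (σ₁₃ := RingHom.id ℝ) (σ₂₃ := RingHom.id ℝ) (exNemLin K E F) 1 exNemLin_bound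

lemma hasFDerivAt_nem' {f : E → F} (hf : ContDiff ℝ 1 f) (u : C(K, E)) :
    HasFDerivAt (nem (K := K) f hf.continuous)
      (exNemB K E F (nem (fderiv ℝ f) (hf.continuous_fderiv one_ne_zero) u)) u := by
  have hc : Continuous (fderiv ℝ f) := hf.continuous_fderiv one_ne_zero
  rw [hasFDerivAt_iff_isLittleO_nhds_zero, Asymptotics.isLittleO_iff]
  intro ε hε
  have hK : IsCompact (range u) := isCompact_range u.continuous
  have hun := hK.uniformContinuousAt_of_continuousAt (fderiv ℝ f)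
    (fun a _ => hc.continuousAt) (Metric.dist_mem_uniformity hε)
  obtain ⟨δ, hδ, hδu⟩ := Metric.mem_uniformity_dist.1 hun
  filter_upwards [Metric.ball_mem_nhds (0 : C(K, E)) hδ] with h hh
  rw [mem_ball_zero_iff] at hh
  refine (ContinuousMap.norm_le _ (by (clear f hf u hc hK hun δ hδ hδu hh; positivity))).2 fun t => ?_
  have hht : ‖h t‖ < δ := (h.norm_coe_le_norm t).trans_lt hh
  have key : ‖f (u t + h t) - f (u t) - fderiv ℝ f (u t) (u t + h t - u t)‖ ≤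
      ε * ‖u t + h t - u t‖ := by
    refine Convex.norm_image_sub_le_of_norm_hasFDerivWithin_le' (s := ball (u t) δ)
      (f' := fderiv ℝ f) (fun x _ => (hf.differentiable one_ne_zero x).hasFDerivAt.hasFDerivWithinAt)
      (fun x hx => ?_) (convex_ball _ _) (mem_ball_self hδ) (by simpa only [mem_ball, dist_eq_norm, add_sub_cancel_left] using hht)
    have h1 : dist (u t) x < δ := by rw [dist_comm]; exact hx
    have h2 := hδu h1 (mem_range_self t)
    have h3 : dist (fderiv ℝ f (u t)) (fderiv ℝ f x) < ε := h2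
    rw [dist_comm, dist_eq_norm] at h3
    exact h3.le
  have h4 : ‖f (u t + h t) - f (u t) - fderiv ℝ f (u t) (h t)‖ ≤ ε * ‖h t‖ := by
    simpa only [add_sub_cancel_left] using key
  calc ‖(nem f hf.continuous (u + h) - nem f hf.continuous u -
        exNemB K E F (nem (fderiv ℝ f) hc u) h) t‖
      = ‖f (u t + h t) - f (u t) - fderiv ℝ f (u t) (h t)‖ := rfl
    _ ≤ ε * ‖h t‖ := h4
    _ ≤ ε * ‖h‖ := by gcongr; exact h.norm_coe_le_norm t

/-- Derivative of the composition operator. -/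
theorem hasFDerivAt_nem {f : E → F} (hf : ContDiff ℝ 1 f) (u : C(K, E)) :
    ∃ A : C(K, E) →L[ℝ] C(K, F), (∀ (h : C(K, E)) (t : K), A h t = fderiv ℝ f (u t) (h t)) ∧
      HasFDerivAt (nem (K := K) f hf.continuous) A u :=
  ⟨_, fun _ _ => rfl, hasFDerivAt_nem' hf u⟩

universe uK uE uF

/-- Finite order smoothness, with a universe restriction. -/
lemma exNem_contDiff_nat (K : Type uK) [TopologicalSpace K] [CompactSpace K] (E : Type uE)
    [NormedAddCommGroup E] [NormedSpace ℝ E] (n : ℕ) :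
    ∀ (F : Type (max uE uF)) [NormedAddCommGroup F] [NormedSpace ℝ F] (f : E → F)
      (hf : ContDiff ℝ ∞ f), ContDiff ℝ n (nem (K := K) f hf.continuous) := by
  induction n with
  | zero =>
    intro F _ _ f hf
    have h1 : ContDiff ℝ 1 f := hf.of_le (by exact_mod_cast le_top)
    have h2 : Differentiable ℝ (nem (K := K) f hf.continuous) :=
      fun u => (hasFDerivAt_nem' h1 u).differentiableAt
    exact contDiff_zero.2 h2.continuous
  | succ n ih =>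
    intro F _ _ f hf
    have h1 : ContDiff ℝ 1 f := hf.of_le (by exact_mod_cast le_top)
    have hd : ContDiff ℝ ∞ (fderiv ℝ f) := (contDiff_infty_iff_fderiv.1 hf).2
    have h3 := ih (E →L[ℝ] F) (fderiv ℝ f) hd
    have h40 : ContDiff ℝ n fun g : C(K, E →L[ℝ] F) => exNemB K E F g :=
      ContinuousLinearMap.contDiff (𝕜 := ℝ) (E := C(K, E →L[ℝ] F))
        (F := C(K, E) →L[ℝ] C(K, F)) (n := (n : WithTop ℕ∞)) (exNemB K E F)
    have h4 : ContDiff ℝ n fun u : C(K, E) =>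
        exNemB K E F (nem (fderiv ℝ f) hd.continuous u) := h40.comp h3
    have h5 : ((n + 1 : ℕ) : WithTop ℕ∞) = (n : WithTop ℕ∞) + 1 := by push_cast; rfl
    rw [h5, contDiff_succ_iff_hasFDerivAt]
    exact ⟨_, h4, fun u => hasFDerivAt_nem' h1 u⟩

/-- The composition operator with a smooth function is smooth. -/
theorem contDiff_nem {K : Type uK} [TopologicalSpace K] [CompactSpace K] {E : Type uE}
    {F : Type uF} [NormedAddCommGroup E] [NormedSpace ℝ E] [NormedAddCommGroup F]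
    [NormedSpace ℝ F] {f : E → F} (hf : ContDiff ℝ ∞ f) :
    ContDiff ℝ ∞ (nem (K := K) f hf.continuous) := by
  have hup : ContDiff ℝ ∞ fun x => (ULift.up.{uE, uF} (f x)) :=
    (LinearIsometryEquiv.ulift ℝ F).symm.contDiff.comp hf
  rw [contDiff_infty]
  intro n
  have h1 := exNem_contDiff_nat.{uK, uE, uF} K E n (ULift.{uE, uF} F) _ hup
  let L0 : ULift.{uE, uF} F →L[ℝ] F :=
    (LinearIsometryEquiv.ulift ℝ F : ULift.{uE, uF} F ≃ₗᵢ[ℝ] F).toContinuousLinearEquiv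
  let L : C(K, ULift.{uE, uF} F) →L[ℝ] C(K, F) := L0.compLeftContinuous ℝ K
  have h3 : ContDiff ℝ n fun g : C(K, ULift.{uE, uF} F) => L g := L.contDiff
  exact h3.comp h1

end

end Vale.Agent.P234
end
end

section

section

/-! The primitive operator on the unit interval. -/

open Set Filter Topology Metric MeasureTheory
open scoped ContDiff

namespace Vale.Agent.P234

noncomputable section

variable {E : Type*} [NormedAddCommGroup E] [NormedSpace ℝ E] [CompleteSpace E]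

/-- Extension of a continuous function on the unit interval by constants. -/
def ext01 (u : C(Icc (0 : ℝ) 1, E)) (s : ℝ) : E := u (projIcc 0 1 zero_le_one s)

omit [NormedSpace ℝ E] [CompleteSpace E] in
lemma continuous_ext01 (u : C(Icc (0 : ℝ) 1, E)) : Continuous (ext01 u) :=
  u.continuous.comp continuous_projIcc

omit [NormedSpace ℝ E] [CompleteSpace E] in
lemma ext01_of_mem (u : C(Icc (0 : ℝ) 1, E)) {s : ℝ} (hs : s ∈ Icc (0 : ℝ) 1) :
    ext01 u s = u ⟨s, hs⟩ := by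
  unfold ext01
  rw [projIcc_of_mem zero_le_one hs]

omit [NormedSpace ℝ E] [CompleteSpace E] in
lemma ExPrim_norm_ext01_le (u : C(Icc (0 : ℝ) 1, E)) (s : ℝ) : ‖ext01 u s‖ ≤ ‖u‖ :=
  u.norm_coe_le_norm _

lemma ExPrim_norm_integral_le (u : C(Icc (0 : ℝ) 1, E)) (t : Icc (0 : ℝ) 1) :
    ‖∫ s in (0 : ℝ)..t, ext01 u s‖ ≤ ‖u‖ := by
  have h := intervalIntegral.norm_integral_le_of_norm_le_const (a := (0 : ℝ)) (b := (t : ℝ))
    (f := ext01 u) (C := ‖u‖) (fun s _ => ExPrim_norm_ext01_le u s)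
  have h2 : |(t : ℝ) - 0| ≤ 1 := by
    rw [sub_zero, abs_of_nonneg t.2.1]
    exact t.2.2
  calc ‖∫ s in (0 : ℝ)..t, ext01 u s‖ ≤ ‖u‖ * |(t : ℝ) - 0| := h
    _ ≤ ‖u‖ * 1 := by gcongr
    _ = ‖u‖ := mul_one _

lemma ExPrim_intervalIntegrable (u : C(Icc (0 : ℝ) 1, E)) (a b : ℝ) :
    IntervalIntegrable (ext01 u) volume a b :=
  (continuous_ext01 u).intervalIntegrable a b

/-- Existence of the primitive operator. -/
theorem exists_prim (E : Type*) [NormedAddCommGroup E] [NormedSpace ℝ E] [CompleteSpace E] :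
    ∃ J : C(Icc (0 : ℝ) 1, E) →L[ℝ] C(Icc (0 : ℝ) 1, E),
      ∀ (u : C(Icc (0 : ℝ) 1, E)) (t : Icc (0 : ℝ) 1), J u t = ∫ s in (0 : ℝ)..t, ext01 u s := by
  have hc : ∀ u : C(Icc (0 : ℝ) 1, E),
      Continuous (fun t : Icc (0 : ℝ) 1 => ∫ s in (0 : ℝ)..t, ext01 u s) := by
    intro u
    exact (intervalIntegral.continuous_primitive
      (fun a b => ExPrim_intervalIntegrable u a b) 0).comp continuous_subtype_val
  let L : C(Icc (0 : ℝ) 1, E) →ₗ[ℝ] C(Icc (0 : ℝ) 1, E) :=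
    { toFun := fun u => ⟨fun t => ∫ s in (0 : ℝ)..t, ext01 u s, hc u⟩
      map_add' := by
        intro u v
        ext t
        simp only [ContinuousMap.coe_mk, ContinuousMap.add_apply]
        rw [← intervalIntegral.integral_add (ExPrim_intervalIntegrable u _ _)
          (ExPrim_intervalIntegrable v _ _)]
        rfl
      map_smul' := by
        intro c u
        ext t
        simp only [ContinuousMap.coe_mk, ContinuousMap.smul_apply, RingHom.id_apply]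
        rw [← intervalIntegral.integral_smul]
        rfl }
  refine ⟨L.mkContinuous 1 ?_, ?_⟩
  · intro u
    rw [one_mul, ContinuousMap.norm_le _ (norm_nonneg u)]
    intro t
    exact ExPrim_norm_integral_le u t
  · intro u t
    rfl

/-- The primitive operator. -/
def prim (E : Type*) [NormedAddCommGroup E] [NormedSpace ℝ E] [CompleteSpace E] :
    C(Icc (0 : ℝ) 1, E) →L[ℝ] C(Icc (0 : ℝ) 1, E) := Classical.choose (exists_prim E)

lemma prim_apply (u : C(Icc (0 : ℝ) 1, E)) (t : Icc (0 : ℝ) 1) :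
    prim E u t = ∫ s in (0 : ℝ)..t, ext01 u s := Classical.choose_spec (exists_prim E) u t

lemma prim_zero_time (u : C(Icc (0 : ℝ) 1, E)) : prim E u ⟨0, by simp⟩ = 0 := by
  rw [prim_apply]
  simp

lemma norm_prim_le (u : C(Icc (0 : ℝ) 1, E)) (t : Icc (0 : ℝ) 1) : ‖prim E u t‖ ≤ ‖u‖ := by
  rw [prim_apply]
  exact ExPrim_norm_integral_le u t

lemma ExPrim_hasDerivAt_integral (u : C(Icc (0 : ℝ) 1, E)) (t : ℝ) :
    HasDerivAt (fun t : ℝ => ∫ s in (0 : ℝ)..t, ext01 u s) (ext01 u t) t :=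
  intervalIntegral.integral_hasDerivAt_right (ExPrim_intervalIntegrable u 0 t)
    ((continuous_ext01 u).stronglyMeasurableAtFilter _ _) (continuous_ext01 u).continuousAt

lemma ExPrim_ext01_prim (u : C(Icc (0 : ℝ) 1, E)) {t : ℝ} (ht : t ∈ Icc (0 : ℝ) 1) :
    ext01 (prim E u) t = ∫ s in (0 : ℝ)..t, ext01 u s := by
  rw [ext01_of_mem _ ht, prim_apply]

/-- Derivative of the primitive inside the interval. -/
lemma hasDerivAt_prim (u : C(Icc (0 : ℝ) 1, E)) {t : ℝ} (ht : t ∈ Ioo (0 : ℝ) 1) :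
    HasDerivAt (ext01 (prim E u)) (ext01 u t) t := by
  refine (ExPrim_hasDerivAt_integral u t).congr_of_eventuallyEq ?_
  filter_upwards [Ioo_mem_nhds ht.1 ht.2] with s hs
  exact ExPrim_ext01_prim u ⟨hs.1.le, hs.2.le⟩

/-- Right derivative of the primitive at `0`. -/
lemma hasDerivWithinAt_prim_zero (u : C(Icc (0 : ℝ) 1, E)) :
    HasDerivWithinAt (ext01 (prim E u)) (ext01 u 0) (Ici 0) 0 := by
  refine (ExPrim_hasDerivAt_integral u 0).hasDerivWithinAt.congr_of_eventuallyEq ?_ ?_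
  · have : Iio (1 : ℝ) ∈ 𝓝 (0 : ℝ) := Iio_mem_nhds one_pos
    filter_upwards [inter_mem_nhdsWithin (Ici (0 : ℝ)) this] with s hs
    exact ExPrim_ext01_prim u ⟨hs.1, hs.2.le⟩
  · exact ExPrim_ext01_prim u ⟨le_refl _, zero_le_one⟩

/-- Rescaling of time: if `w s = l * u (l * s)` then the primitive of `w` at `s` is the primitive of
`u` at `l * s`. -/
lemma prim_scale (u w : C(Icc (0 : ℝ) 1, E)) {l : ℝ} (hl : l ∈ Icc (0 : ℝ) 1)
    (h : ∀ s : Icc (0 : ℝ) 1, w s = l • ext01 u (l * s)) (s : Icc (0 : ℝ) 1) :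
    prim E w s = ext01 (prim E u) (l * s) := by
  have hls : l * (s : ℝ) ∈ Icc (0 : ℝ) 1 :=
    ⟨mul_nonneg hl.1 s.2.1, mul_le_one₀ hl.2 s.2.1 s.2.2⟩
  rw [prim_apply, ExPrim_ext01_prim u hls]
  have h1 : ∫ r in (0 : ℝ)..s, ext01 w r = ∫ r in (0 : ℝ)..s, l • ext01 u (l * r) := by
    refine intervalIntegral.integral_congr ?_
    intro r hr
    rw [uIcc_of_le s.2.1] at hr
    have hr' : r ∈ Icc (0 : ℝ) 1 := ⟨hr.1, hr.2.trans s.2.2⟩
    show ext01 w r = l • ext01 u (l * r)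
    rw [ext01_of_mem _ hr', h]
  rw [h1, intervalIntegral.integral_smul, intervalIntegral.smul_integral_comp_mul_left, mul_zero]

end

end Vale.Agent.P234
end
end

section

section

/-! Solutions of the geodesic equation on the unit interval by the implicit function theorem. -/

open Set Filter Topology Metric
open scoped ContDiff

namespace Vale.Agent.P234

noncomputable section

variable {E : Type*} [NormedAddCommGroup E] [NormedSpace ℝ E] [CompleteSpace E]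

/-- The velocity curve with initial data `z` and acceleration `u`. -/
def velC (z : E × E) (u : C(Icc (0 : ℝ) 1, E)) (t : Icc (0 : ℝ) 1) : E := z.2 + prim E u t

/-- The position curve with initial data `z` and acceleration `u`. -/
def posC (z : E × E) (u : C(Icc (0 : ℝ) 1, E)) (t : Icc (0 : ℝ) 1) : E :=
  z.1 + (t : ℝ) • z.2 + prim E (prim E u) t

/-- The curve with initial data `z` and acceleration `u` solves `q'' = S q q' q'`. -/
def IsSol (S : E → E →L[ℝ] E →L[ℝ] E) (z : E × E) (u : C(Icc (0 : ℝ) 1, E)) : Prop :=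
  ∀ t, u t = S (posC z u t) (velC z u t) (velC z u t)

lemma exSol_continuous_posC (z : E × E) (u : C(Icc (0 : ℝ) 1, E)) : Continuous (posC z u) := by
  unfold posC
  exact ((continuous_const.add (continuous_subtype_val.smul continuous_const))).add
    (prim E (prim E u)).continuous

lemma exSol_continuous_velC (z : E × E) (u : C(Icc (0 : ℝ) 1, E)) : Continuous (velC z u) := by
  unfold velC
  exact continuous_const.add (prim E u).continuous

/-- The curve of positions and velocities, as a linear map. -/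
def exSolLin (E : Type*) [NormedAddCommGroup E] [NormedSpace ℝ E] [CompleteSpace E] :
    (E × E) × C(Icc (0 : ℝ) 1, E) →ₗ[ℝ] C(Icc (0 : ℝ) 1, E × E) where
  toFun w := ⟨fun t => (posC w.1 w.2 t, velC w.1 w.2 t),
    (exSol_continuous_posC _ _).prodMk (exSol_continuous_velC _ _)⟩
  map_add' w w' := by
    ext t
    · simp only [ContinuousMap.coe_mk, ContinuousMap.add_apply, posC, Prod.fst_add, Prod.snd_add,
        map_add, smul_add]
      abel
    · simp only [ContinuousMap.coe_mk, ContinuousMap.add_apply, velC, Prod.fst_add, Prod.snd_add,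
        map_add]
      abel
  map_smul' c w := by
    ext t
    · simp only [ContinuousMap.coe_mk, ContinuousMap.smul_apply, posC, Prod.smul_fst,
        Prod.smul_snd, map_smul, RingHom.id_apply, smul_add, smul_comm c (t : ℝ)]
    · simp only [ContinuousMap.coe_mk, ContinuousMap.smul_apply, velC, Prod.smul_fst,
        Prod.smul_snd, map_smul, RingHom.id_apply, smul_add]

lemma exSolLin_bound (w : (E × E) × C(Icc (0 : ℝ) 1, E)) : ‖exSolLin E w‖ ≤ 3 * ‖w‖ := by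
  have h0 : 0 ≤ 3 * ‖w‖ := by (clear * -; positivity)
  have h1 : ‖w.1.1‖ ≤ ‖w‖ := (norm_fst_le w.1).trans (norm_fst_le w)
  have h2 : ‖w.1.2‖ ≤ ‖w‖ := (norm_snd_le w.1).trans (norm_fst_le w)
  have h3 : ‖w.2‖ ≤ ‖w‖ := norm_snd_le w
  refine (ContinuousMap.norm_le _ h0).2 fun t => ?_
  have h4 : ‖prim E w.2 t‖ ≤ ‖w‖ := (norm_prim_le w.2 t).trans h3
  have h5 : ‖prim E (prim E w.2) t‖ ≤ ‖w‖ := by
    refine (norm_prim_le _ t).trans ?_
    refine (ContinuousMap.norm_le _ (norm_nonneg w)).2 fun s => ?_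
    exact (norm_prim_le w.2 s).trans h3
  have h6 : ‖(t : ℝ) • w.1.2‖ ≤ ‖w‖ := by
    rw [norm_smul, Real.norm_of_nonneg t.2.1]
    calc (t : ℝ) * ‖w.1.2‖ ≤ 1 * ‖w.1.2‖ := by gcongr; exact t.2.2
      _ ≤ ‖w‖ := by rw [one_mul]; exact h2
  have h7 : ‖posC w.1 w.2 t‖ ≤ 3 * ‖w‖ := by
    unfold posC
    calc ‖w.1.1 + (t : ℝ) • w.1.2 + prim E (prim E w.2) t‖
        ≤ ‖w.1.1‖ + ‖(t : ℝ) • w.1.2‖ + ‖prim E (prim E w.2) t‖ := norm_add₃_le
      _ ≤ 3 * ‖w‖ := by linarith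
  have h8 : ‖velC w.1 w.2 t‖ ≤ 3 * ‖w‖ := by
    unfold velC
    calc ‖w.1.2 + prim E w.2 t‖ ≤ ‖w.1.2‖ + ‖prim E w.2 t‖ := norm_add_le _ _
      _ ≤ 3 * ‖w‖ := by (clear h1 h5 h6 h7; linarith [norm_nonneg w])
  exact (norm_prod_le_iff).2 ⟨h7, h8⟩

/-- The curve of positions and velocities. -/
def exSolCrv (E : Type*) [NormedAddCommGroup E] [NormedSpace ℝ E] [CompleteSpace E] :
    (E × E) × C(Icc (0 : ℝ) 1, E) →L[ℝ] C(Icc (0 : ℝ) 1, E × E) :=
  (exSolLin E).mkContinuous 3 exSolLin_bound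

lemma exSolCrv_apply (w : (E × E) × C(Icc (0 : ℝ) 1, E)) (t : Icc (0 : ℝ) 1) :
    exSolCrv E w t = (posC w.1 w.2 t, velC w.1 w.2 t) := rfl

/-- Local existence, uniqueness and smooth dependence for small velocities. -/
theorem exists_sol {S : E → E →L[ℝ] E →L[ℝ] E} (hS : ContDiff ℝ ∞ S) (x₀ : E) :
    ∃ U : E × E → C(Icc (0 : ℝ) 1, E),
      (∀ᶠ z in 𝓝 ((x₀, 0) : E × E), ContDiffAt ℝ ∞ U z) ∧ U (x₀, 0) = 0 ∧
      (∀ᶠ z in 𝓝 ((x₀, 0) : E × E), IsSol S z (U z)) ∧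
      ∃ ρ : ℝ, 0 < ρ ∧ ∀ᶠ z in 𝓝 ((x₀, 0) : E × E), ∀ u : C(Icc (0 : ℝ) 1, E), ‖u‖ < ρ →
        IsSol S z u → u = U z := by
  have hB : ContDiff ℝ ∞ (fun p : E × E => S p.1 p.2 p.2) :=
    ((hS.comp contDiff_fst).clm_apply contDiff_snd).clm_apply contDiff_snd
  let B : E × E → E := fun p => S p.1 p.2 p.2
  have hB' : ContDiff ℝ ∞ B := hB
  have hBd : fderiv ℝ B (x₀, 0) = 0 := by
    have h1 : HasFDerivAt (fun p : E × E => S p.1)
        (fderiv ℝ (fun p : E × E => S p.1) (x₀, 0)) (x₀, 0) :=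
      ((hS.comp contDiff_fst).differentiable (by simp) _).hasFDerivAt
    have h2 := (h1.clm_apply hasFDerivAt_snd).clm_apply
      (hasFDerivAt_snd (p := ((x₀, 0) : E × E)) (𝕜 := ℝ))
    rw [h2.fderiv]
    ext p <;> simp only [map_zero, ContinuousLinearMap.zero_comp, add_zero, zero_apply]
  let Φ : (E × E) × C(Icc (0 : ℝ) 1, E) → C(Icc (0 : ℝ) 1, E) := fun w =>
    w.2 - nem B hB'.continuous (exSolCrv E w)
  have hΦ : ContDiff ℝ ∞ Φ :=
    contDiff_snd.sub ((contDiff_nem hB').comp (exSolCrv E).contDiff)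
  let a : (E × E) × C(Icc (0 : ℝ) 1, E) := ((x₀, 0), 0)
  have hcrv : ∀ t, exSolCrv E a t = (x₀, 0) := by
    intro t
    rw [exSolCrv_apply]
    simp [a, posC, velC]
  have hΦa : Φ a = 0 := by
    ext t
    have h1 : nem B hB'.continuous (exSolCrv E a) t = B (exSolCrv E a t) := rfl
    simp only [ContinuousMap.sub_apply, h1, hcrv, Φ]
    simp [a, B]
  have hd : fderiv ℝ Φ a = ContinuousLinearMap.snd ℝ (E × E) C(Icc (0 : ℝ) 1, E) := by
    obtain ⟨A, hA1, hA2⟩ := hasFDerivAt_nem (hB'.of_le (by simp only [WithTop.one_le_coe, le_top])) (exSolCrv E a)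
    have hA0 : A = 0 := by
      ext h t
      rw [hA1, hcrv, hBd]
      simp only [zero_apply, ContinuousMap.zero_apply]
    have h1 : HasFDerivAt (fun w => nem B hB'.continuous (exSolCrv E w))
        (A.comp (exSolCrv E)) a := hA2.comp a (exSolCrv E).hasFDerivAt
    have h2 : HasFDerivAt Φ (ContinuousLinearMap.snd ℝ (E × E) C(Icc (0 : ℝ) 1, E) -
        A.comp (exSolCrv E)) a := hasFDerivAt_snd.sub h1
    rw [h2.fderiv, hA0]
    simp
  obtain ⟨G, hG1, hG2, hG3, hG4⟩ := param_inverse (F := Φ) (a := a) (n := ∞)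
    (Eventually.of_forall fun z => hΦ.contDiffAt) (by simp) (by
      have : (fun v : C(Icc (0 : ℝ) 1, E) => fderiv ℝ Φ a (0, v)) = id := by
        funext v
        rw [hd]
        simp
      rw [this]
      exact Function.bijective_id)
  rw [hΦa] at hG1 hG2 hG3
  have hcont : Tendsto (fun z : E × E => (z, (0 : C(Icc (0 : ℝ) 1, E)))) (𝓝 ((x₀, 0) : E × E))
      (𝓝 (a.1, 0)) := by
    have : Continuous (fun z : E × E => (z, (0 : C(Icc (0 : ℝ) 1, E)))) := by fun_prop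
    exact this.tendsto _
  refine ⟨fun z => G (z, 0), ?_, hG2, ?_, ?_⟩
  · filter_upwards [hcont.eventually hG1] with z hz
    exact ContDiffAt.comp (x := z) (g := G) (f := fun z => (z, (0 : C(Icc (0 : ℝ) 1, E)))) hz
      (by fun_prop)
  · filter_upwards [hcont.eventually hG3] with z hz
    intro t
    have h1 : G (z, 0) - nem B hB'.continuous (exSolCrv E (z, G (z, 0))) = 0 := hz
    have h2 := congrArg (fun u : C(Icc (0 : ℝ) 1, E) => u t) (sub_eq_zero.1 h1)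
    exact h2
  · have h1 : ∀ᶠ w in 𝓝 (((x₀, 0), 0) : (E × E) × C(Icc (0 : ℝ) 1, E)),
        G (w.1, Φ w) = w.2 := hG4
    rw [nhds_prod_eq, Filter.eventually_prod_iff] at h1
    obtain ⟨pa, hpa, pb, hpb, h2⟩ := h1
    obtain ⟨ρ, hρ, hball⟩ := Metric.eventually_nhds_iff.1 hpb
    refine ⟨ρ, hρ, ?_⟩
    filter_upwards [hpa] with z hz u hu hsol
    have h3 := h2 hz (hball (by rwa [dist_zero_right]))
    have h4 : Φ (z, u) = 0 := by
      have h5 : u = nem B hB'.continuous (exSolCrv E (z, u)) := by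
        ext t
        exact hsol t
      simp only [Φ]
      exact sub_eq_zero.2 h5
    simp only [h4] at h3
    exact h3.symm

end

end Vale.Agent.P234
end
end

section

section

/-! The geodesic map `X (x, v)` near `(x₀, 0)` for a spray on a Banach space. -/

open Set Filter Topology Metric
open scoped ContDiff

namespace Vale.Agent.P234

noncomputable section

variable {E : Type*} [NormedAddCommGroup E] [NormedSpace ℝ E] [CompleteSpace E]

omit [CompleteSpace E] in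
/-- If a property holds near `(x₀, 0)` then it holds along whole rays. -/
lemma eventually_ray {P : E × E → Prop} {x₀ : E} (h : ∀ᶠ z in 𝓝 ((x₀, 0) : E × E), P z) :
    ∀ᶠ z in 𝓝 ((x₀, 0) : E × E), ∀ t ∈ Icc (0 : ℝ) 1, P (z.1, t • z.2) := by
  obtain ⟨δ, hδ, hP⟩ := Metric.eventually_nhds_iff.1 h
  refine Metric.eventually_nhds_iff.2 ⟨δ, hδ, fun {z} hz t ht => hP ?_⟩
  rw [Prod.dist_eq, max_lt_iff] at hz ⊢
  refine ⟨hz.1, ?_⟩
  have h1 : dist z.2 0 < δ := hz.2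
  show dist (t • z.2) 0 < δ
  rw [dist_zero_right] at h1 ⊢
  rw [norm_smul, Real.norm_eq_abs, abs_of_nonneg ht.1]
  calc t * ‖z.2‖ ≤ 1 * ‖z.2‖ := by gcongr; exact ht.2
    _ = ‖z.2‖ := one_mul _
    _ < δ := h1

lemma ExGeod_mem {l : ℝ} (hl : l ∈ Icc (0 : ℝ) 1) (s : Icc (0 : ℝ) 1) :
    l * (s : ℝ) ∈ Icc (0 : ℝ) 1 :=
  ⟨mul_nonneg hl.1 s.2.1, mul_le_one₀ hl.2 s.2.1 s.2.2⟩

lemma ExGeod_prim_w {u w : C(Icc (0 : ℝ) 1, E)} {l : ℝ} (hl : l ∈ Icc (0 : ℝ) 1)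
    (hw : ∀ s : Icc (0 : ℝ) 1, w s = (l ^ 2) • ext01 u (l * s)) (s : Icc (0 : ℝ) 1) :
    prim E w s = l • ext01 (prim E u) (l * s) := by
  have h := prim_scale (l • u) w hl (fun s => by
    rw [hw s]
    simp only [ext01, ContinuousMap.smul_apply]
    rw [smul_smul, pow_two]) s
  rw [h, map_smul]
  simp only [ext01, ContinuousMap.smul_apply]

lemma ExGeod_velC {z : E × E} {u w : C(Icc (0 : ℝ) 1, E)} {l : ℝ} (hl : l ∈ Icc (0 : ℝ) 1)
    (hw : ∀ s : Icc (0 : ℝ) 1, w s = (l ^ 2) • ext01 u (l * s)) (s : Icc (0 : ℝ) 1) :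
    velC (z.1, l • z.2) w s = l • velC z u ⟨l * s, ExGeod_mem hl s⟩ := by
  unfold velC
  rw [ExGeod_prim_w hl hw s, ext01_of_mem _ (ExGeod_mem hl s), smul_add]

lemma ExGeod_posC {z : E × E} {u w : C(Icc (0 : ℝ) 1, E)} {l : ℝ} (hl : l ∈ Icc (0 : ℝ) 1)
    (hw : ∀ s : Icc (0 : ℝ) 1, w s = (l ^ 2) • ext01 u (l * s)) (s : Icc (0 : ℝ) 1) :
    posC (z.1, l • z.2) w s = posC z u ⟨l * s, ExGeod_mem hl s⟩ := by
  unfold posC
  rw [prim_scale (prim E u) (prim E w) hl (fun s => ExGeod_prim_w hl hw s) s,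
    ext01_of_mem _ (ExGeod_mem hl s), smul_smul, mul_comm (s : ℝ) l]

/-- Homogeneity of the solutions. -/
lemma isSol_scale {S : E → E →L[ℝ] E →L[ℝ] E} {z : E × E} {u w : C(Icc (0 : ℝ) 1, E)}
    (hu : IsSol S z u) {l : ℝ} (hl : l ∈ Icc (0 : ℝ) 1)
    (hw : ∀ s : Icc (0 : ℝ) 1, w s = (l ^ 2) • ext01 u (l * s)) : IsSol S (z.1, l • z.2) w := by
  intro s
  rw [ExGeod_velC hl hw s, ExGeod_posC hl hw s, hw s, ext01_of_mem _ (ExGeod_mem hl s),
    hu ⟨l * s, ExGeod_mem hl s⟩]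
  simp only [pow_two, map_smul, smul_apply, smul_smul]

/-- The rescaled acceleration. -/
def ExGeod_w (u : C(Icc (0 : ℝ) 1, E)) (l : ℝ) : C(Icc (0 : ℝ) 1, E) :=
  ⟨fun s => (l ^ 2) • ext01 u (l * s), by
    have h1 := continuous_ext01 u
    have h2 : Continuous fun s : Icc (0 : ℝ) 1 => l * (s : ℝ) :=
      continuous_const.mul continuous_subtype_val
    exact (h1.comp h2).const_smul (l ^ 2)⟩

omit [CompleteSpace E] in
lemma ExGeod_norm_w (u : C(Icc (0 : ℝ) 1, E)) {l : ℝ} (hl : l ∈ Icc (0 : ℝ) 1) :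
    ‖ExGeod_w u l‖ ≤ ‖u‖ := by
  refine (ContinuousMap.norm_le _ (norm_nonneg _)).2 fun s => ?_
  show ‖(l ^ 2) • ext01 u (l * s)‖ ≤ ‖u‖
  rw [norm_smul, Real.norm_eq_abs, abs_of_nonneg (sq_nonneg l)]
  have h1 : l ^ 2 ≤ 1 := by
    have := mul_le_one₀ hl.2 hl.1 hl.2
    rwa [← pow_two] at this
  have h2 := ExPrim_norm_ext01_le u (l * s)
  calc l ^ 2 * ‖ext01 u (l * s)‖ ≤ 1 * ‖u‖ := by gcongr
    _ = ‖u‖ := one_mul _

/-- The endpoint of the solution. -/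
def ExGeod_X (U : E × E → C(Icc (0 : ℝ) 1, E)) (z : E × E) : E :=
  posC z (U z) ⟨1, by simp⟩

/-- The curve with acceleration `u`. -/
def ExGeod_q (z : E × E) (u : C(Icc (0 : ℝ) 1, E)) (t : ℝ) : E :=
  z.1 + t • z.2 + ext01 (prim E (prim E u)) t

lemma ExGeod_ray {S : E → E →L[ℝ] E →L[ℝ] E} {x₀ : E} {U : E × E → C(Icc (0 : ℝ) 1, E)}
    (hU : ∀ᶠ z in 𝓝 ((x₀, 0) : E × E), ContDiffAt ℝ ∞ U z) (hU0 : U (x₀, 0) = 0)
    (hsol : ∀ᶠ z in 𝓝 ((x₀, 0) : E × E), IsSol S z (U z)) {ρ : ℝ} (hρ : 0 < ρ)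
    (huniq : ∀ᶠ z in 𝓝 ((x₀, 0) : E × E), ∀ u : C(Icc (0 : ℝ) 1, E), ‖u‖ < ρ →
        IsSol S z u → u = U z) :
    ∀ᶠ z in 𝓝 ((x₀, 0) : E × E), IsSol S z (U z) ∧ ∀ t ∈ Icc (0 : ℝ) 1,
      ExGeod_X U (z.1, t • z.2) = ExGeod_q z (U z) t := by
  have hcont : ContinuousAt U (x₀, 0) := hU.self_of_nhds.continuousAt
  have hsmall : ∀ᶠ z in 𝓝 ((x₀, 0) : E × E), ‖U z‖ < ρ := by
    have h1 : Tendsto (fun z => ‖U z‖) (𝓝 (x₀, 0)) (𝓝 0) := by
      have h2 : Tendsto (fun z => ‖U z‖) (𝓝 (x₀, 0)) (𝓝 ‖U (x₀, 0)‖) := hcont.norm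
      rwa [hU0, norm_zero] at h2
    exact h1.eventually (gt_mem_nhds hρ)
  filter_upwards [hsol, hsmall, eventually_ray huniq] with z h1 h2 h3
  refine ⟨h1, fun t ht => ?_⟩
  have hw : ∀ s : Icc (0 : ℝ) 1, ExGeod_w (U z) t s = (t ^ 2) • ext01 (U z) (t * s) :=
    fun s => rfl
  have h4 : ExGeod_w (U z) t = U (z.1, t • z.2) :=
    h3 t ht _ ((ExGeod_norm_w (U z) ht).trans_lt h2) (isSol_scale h1 ht hw)
  unfold ExGeod_X
  rw [← h4, ExGeod_posC ht hw]
  unfold posC ExGeod_q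
  rw [ext01_of_mem _ ht]
  simp only [mul_one]

lemma ExGeod_hasDerivAt_q (z : E × E) (u : C(Icc (0 : ℝ) 1, E)) {t : ℝ} (ht : t ∈ Ioo (0 : ℝ) 1) :
    HasDerivAt (ExGeod_q z u) (z.2 + ext01 (prim E u) t) t := by
  have h1 : HasDerivAt (fun s : ℝ => z.1 + s • z.2) z.2 t := by
    have := ((hasDerivAt_id t).smul_const z.2).const_add z.1
    simpa only [hasDerivAt_const_add_iff, id_eq, one_smul] using this
  exact h1.add (hasDerivAt_prim (prim E u) ht)

lemma ExGeod_deriv {z : E × E} {u : C(Icc (0 : ℝ) 1, E)} {f : ℝ → E}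
    (hf : ∀ t ∈ Icc (0 : ℝ) 1, f t = ExGeod_q z u t) {t : ℝ} (ht : t ∈ Ioo (0 : ℝ) 1) :
    deriv f t = z.2 + ext01 (prim E u) t := by
  have h1 : f =ᶠ[𝓝 t] ExGeod_q z u := by
    filter_upwards [Ioo_mem_nhds ht.1 ht.2] with s hs
    exact hf s ⟨hs.1.le, hs.2.le⟩
  exact ((ExGeod_hasDerivAt_q z u ht).congr_of_eventuallyEq h1).deriv

lemma ExGeod_deriv2 {z : E × E} {u : C(Icc (0 : ℝ) 1, E)} {f : ℝ → E}
    (hf : ∀ t ∈ Icc (0 : ℝ) 1, f t = ExGeod_q z u t) {t : ℝ} (ht : t ∈ Ioo (0 : ℝ) 1) :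
    deriv (deriv f) t = ext01 u t := by
  have h1 : deriv f =ᶠ[𝓝 t] fun s => z.2 + ext01 (prim E u) s := by
    filter_upwards [Ioo_mem_nhds ht.1 ht.2] with s hs
    exact ExGeod_deriv hf hs
  exact (((hasDerivAt_prim u ht).const_add z.2).congr_of_eventuallyEq h1).deriv

/-- The geodesic map. -/
theorem exists_geodesic_map {S : E → E →L[ℝ] E →L[ℝ] E} (hS : ContDiff ℝ ∞ S) (x₀ : E) :
    ∃ X : E × E → E,
      (∀ᶠ z in 𝓝 ((x₀, 0) : E × E), ContDiffAt ℝ ∞ X z) ∧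
      (∀ᶠ x in 𝓝 x₀, X (x, 0) = x) ∧
      (∀ᶠ x in 𝓝 x₀, HasFDerivAt (fun v : E => X (x, v)) (ContinuousLinearMap.id ℝ E) 0) ∧
      (∀ᶠ z in 𝓝 ((x₀, 0) : E × E), ∀ t ∈ Ioo (0 : ℝ) 1,
        deriv (deriv (fun s : ℝ => X (z.1, s • z.2))) t =
          S (X (z.1, t • z.2)) (deriv (fun s : ℝ => X (z.1, s • z.2)) t)
            (deriv (fun s : ℝ => X (z.1, s • z.2)) t)) := by
  obtain ⟨U, hU, hU0, hsol, ρ, hρ, huniq⟩ := exists_sol hS x₀
  have hray := ExGeod_ray hU hU0 hsol hρ huniq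
  have hXs : ∀ᶠ z in 𝓝 ((x₀, 0) : E × E), ContDiffAt ℝ ∞ (ExGeod_X U) z := by
    filter_upwards [hU] with z hz
    have h1 : ContDiffAt ℝ ∞ (fun z : E × E => z.1 + (1 : ℝ) • z.2) z :=
      (contDiff_fst.add (contDiff_snd.const_smul (1 : ℝ))).contDiffAt
    have h2 : ContDiffAt ℝ ∞ (fun z : E × E =>
        ((ContinuousMap.evalCLM ℝ (⟨1, by simp only [mem_Icc, zero_le_one, Std.le_refl, and_self]⟩ : Icc (0 : ℝ) 1)).comp
          ((prim E).comp (prim E))) (U z)) z :=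
      (ContinuousLinearMap.contDiff _).contDiffAt.comp z hz
    exact h1.add h2
  have hline : ∀ {Q : E × E → Prop}, (∀ᶠ z in 𝓝 ((x₀, 0) : E × E), Q z) →
      ∀ᶠ x in 𝓝 x₀, Q (x, 0) := by
    intro Q hQ
    have h1 : Tendsto (fun x : E => (x, (0 : E))) (𝓝 x₀) (𝓝 (x₀, 0)) :=
      (Continuous.prodMk_left (0 : E)).continuousAt
    exact h1.eventually hQ
  refine ⟨ExGeod_X U, hXs, ?_, ?_, ?_⟩
  · filter_upwards [hline hray] with x hx
    have h1 := hx.2 0 ⟨le_refl _, zero_le_one⟩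
    simp only [smul_zero] at h1
    rw [h1]
    unfold ExGeod_q
    rw [ext01_of_mem _ (⟨le_refl _, zero_le_one⟩ : (0 : ℝ) ∈ Icc (0 : ℝ) 1)]
    have h2 := prim_zero_time (prim E (U (x, 0)))
    rw [h2]
    simp
  · filter_upwards [hline hXs, hray.curry_nhds] with x hx1 hx2
    have hd : DifferentiableAt ℝ (fun v : E => ExGeod_X U (x, v)) 0 := by
      have h1 : DifferentiableAt ℝ (ExGeod_X U) (x, 0) := hx1.differentiableAt (by simp)
      have h2 : DifferentiableAt ℝ (fun v : E => (x, v)) 0 :=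
        (differentiableAt_const x).prodMk differentiableAt_id
      exact h1.comp (0 : E) h2
    set D := fderiv ℝ (fun v : E => ExGeod_X U (x, v)) 0 with hD
    have hdD : HasFDerivAt (fun v : E => ExGeod_X U (x, v)) D 0 := hd.hasFDerivAt
    have hDv : ∀ᶠ v in 𝓝 (0 : E), D v = v := by
      filter_upwards [hx2] with v hv
      have h1 : HasDerivAt (fun t : ℝ => ExGeod_X U (x, t • v)) (D v) 0 := by
        have h2 : HasDerivAt (fun t : ℝ => t • v) v 0 := by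
          have := (hasDerivAt_id (0 : ℝ)).smul_const v
          simpa using this
        have h3 : HasFDerivAt (fun v : E => ExGeod_X U (x, v)) D ((0 : ℝ) • v) := by
          rw [zero_smul]; exact hdD
        exact h3.comp_hasDerivAt (0 : ℝ) h2
      have h4 : HasDerivWithinAt (ExGeod_q (x, v) (U (x, v))) v (Ici 0) 0 := by
        have h5 : HasDerivWithinAt (fun s : ℝ => x + s • v) v (Ici 0) 0 := by
          have := ((hasDerivAt_id (0 : ℝ)).smul_const v).const_add x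
          simpa using this.hasDerivWithinAt
        have h6 := hasDerivWithinAt_prim_zero (prim E (U (x, v)))
        have h7 : ext01 (prim E (U (x, v))) 0 = 0 := by
          rw [ext01_of_mem _ (⟨le_refl _, zero_le_one⟩ : (0 : ℝ) ∈ Icc (0 : ℝ) 1)]
          exact prim_zero_time _
        rw [h7] at h6
        have h8 := h5.add h6
        rw [add_zero] at h8
        exact h8
      have h9 : HasDerivWithinAt (fun t : ℝ => ExGeod_X U (x, t • v)) v (Ici 0) 0 := by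
        refine h4.congr_of_eventuallyEq ?_ ?_
        · have : Iio (1 : ℝ) ∈ 𝓝 (0 : ℝ) := Iio_mem_nhds one_pos
          filter_upwards [inter_mem_nhdsWithin (Ici (0 : ℝ)) this] with s hs
          exact hv.2 s ⟨hs.1, hs.2.le⟩
        · exact hv.2 0 ⟨le_refl _, zero_le_one⟩
      exact (uniqueDiffWithinAt_Ici (0 : ℝ)).eq_deriv _ h1.hasDerivWithinAt h9
    have hDid : D = ContinuousLinearMap.id ℝ E := by
      ext v
      have h1 : Tendsto (fun c : ℝ => c • v) (𝓝 0) (𝓝 0) := by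
        have : Continuous fun c : ℝ => c • v := continuous_id.smul continuous_const
        have h2 := this.tendsto 0
        rwa [zero_smul] at h2
      have h2 : ∀ᶠ c in 𝓝 (0 : ℝ), D (c • v) = c • v := h1.eventually hDv
      have h3 : ∃ᶠ c in 𝓝[≠] (0 : ℝ), D (c • v) = c • v :=
        (h2.filter_mono nhdsWithin_le_nhds).frequently
      obtain ⟨c, hc, hc0⟩ := (h3.and_eventually self_mem_nhdsWithin).exists
      have hc0' : c ≠ 0 := hc0
      rw [map_smul] at hc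
      exact smul_right_injective E hc0' hc
    rw [← hDid]
    exact hdD
  · filter_upwards [hray] with z hz t ht
    have hf : ∀ t ∈ Icc (0 : ℝ) 1, (fun s : ℝ => ExGeod_X U (z.1, s • z.2)) t =
        ExGeod_q z (U z) t := fun t ht => hz.2 t ht
    rw [ExGeod_deriv2 hf ht, ExGeod_deriv hf ht]
    have ht' : t ∈ Icc (0 : ℝ) 1 := ⟨ht.1.le, ht.2.le⟩
    have h1 := hz.1 ⟨t, ht'⟩
    have h2 : ExGeod_X U (z.1, t • z.2) = posC z (U z) ⟨t, ht'⟩ := by
      rw [hz.2 t ht']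
      unfold ExGeod_q posC
      rw [ext01_of_mem _ ht']
    rw [ext01_of_mem _ ht', ext01_of_mem _ ht', h2, h1]
    rfl

end

end Vale.Agent.P234
end
end

section

section

/-! The geodesic spray of a metric on an open set of a finite dimensional space. -/

set_option maxSynthPendingDepth 3

open Set Filter Topology Metric
open scoped ContDiff

namespace Vale.Agent.P234

noncomputable section

variable {E : Type*} [NormedAddCommGroup E] [NormedSpace ℝ E] [FiniteDimensional ℝ E]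

/-- A positive bilinear form is invertible. -/
lemma exSpray_equiv (B : E →L[ℝ] E →L[ℝ] ℝ) (hpos : ∀ a : E, a ≠ 0 → 0 < B a a) :
    ∃ e : E ≃L[ℝ] (E →L[ℝ] ℝ), (e : E →L[ℝ] (E →L[ℝ] ℝ)) = B := by
  have hinj : Function.Injective (B : E →ₗ[ℝ] (E →L[ℝ] ℝ)) := by
    rw [← LinearMap.ker_eq_bot, LinearMap.ker_eq_bot']
    intro a ha
    by_contra h
    have h1 := hpos a h
    have h2 : B a = 0 := ha
    rw [h2] at h1
    simp at h1
  have hdim : Module.finrank ℝ E = Module.finrank ℝ (E →L[ℝ] ℝ) := by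
    rw [← LinearEquiv.finrank_eq (LinearMap.toContinuousLinearMap (𝕜 := ℝ) (E := E) (F' := ℝ))]
    exact (Subspace.dual_finrank_eq (K := ℝ) (V := E)).symm
  let e0 : E ≃ₗ[ℝ] (E →L[ℝ] ℝ) := LinearMap.linearEquivOfInjective _ hinj hdim
  refine ⟨e0.toContinuousLinearEquiv, ?_⟩
  ext a b
  rfl

/-- The operation which raises an index by a bilinear form `B`, applied to the derivative `D` of the
metric. -/
def exSprayOp (T : (E →L[ℝ] ℝ) →L[ℝ] E) (D : E →L[ℝ] E →L[ℝ] E →L[ℝ] ℝ) :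
    E →L[ℝ] E →L[ℝ] E :=
  ((ContinuousLinearMap.compL ℝ E (E →L[ℝ] ℝ) E) T).comp
    ((1 / 2 : ℝ) • (((ContinuousLinearMap.flipₗᵢ ℝ E E ℝ).toContinuousLinearEquiv :
      (E →L[ℝ] E →L[ℝ] ℝ) →L[ℝ] (E →L[ℝ] E →L[ℝ] ℝ)).comp D.flip) - D)

omit [FiniteDimensional ℝ E] in
lemma exSprayOp_apply (T : (E →L[ℝ] ℝ) →L[ℝ] E) (D : E →L[ℝ] E →L[ℝ] E →L[ℝ] ℝ) (a b : E) :
    exSprayOp T D a b = T ((1 / 2 : ℝ) • (D.flip a).flip b - D a b) := rfl

omit [FiniteDimensional ℝ E] in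
lemma exSprayOp_contDiffAt {T : E → (E →L[ℝ] ℝ) →L[ℝ] E} {D : E → E →L[ℝ] E →L[ℝ] E →L[ℝ] ℝ}
    {q : E} (hT : ContDiffAt ℝ ∞ T q) (hD : ContDiffAt ℝ ∞ D q) :
    ContDiffAt ℝ ∞ (fun x => exSprayOp (T x) (D x)) q := by
  unfold exSprayOp
  refine ContDiffAt.clm_comp ?_ ?_
  · exact (ContinuousLinearMap.contDiff _).contDiffAt.comp q hT
  · refine ContDiffAt.sub (ContDiffAt.const_smul (1 / 2 : ℝ) (contDiffAt_const.clm_comp ?_)) hD
    exact ((ContinuousLinearMap.flipₗᵢ ℝ E E (E →L[ℝ] ℝ)).contDiff).contDiffAt.comp q hD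

/-- Near `x₀` the metric `G` has a spray which extends to a smooth map on the whole space. -/
theorem exists_spray {U : Set E} (hU : IsOpen U) {G : E → E →L[ℝ] E →L[ℝ] ℝ}
    (hG : ContDiffOn ℝ ∞ G U) (hpos : ∀ q ∈ U, ∀ a : E, a ≠ 0 → 0 < G q a a) {x₀ : E}
    (hx₀ : x₀ ∈ U) :
    ∃ S : E → E →L[ℝ] E →L[ℝ] E, ContDiff ℝ ∞ S ∧ ∀ᶠ q in 𝓝 x₀, ∀ a b : E,
      G q (S q a a) b = (1 / 2) * fderiv ℝ G q b a a - fderiv ℝ G q a a b := by
  let T : E → (E →L[ℝ] ℝ) →L[ℝ] E := fun q => ContinuousLinearMap.inverse (G q)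
  let S0 : E → E →L[ℝ] E →L[ℝ] E := fun q => exSprayOp (T q) (fderiv ℝ G q)
  have hGq : ∀ q ∈ U, ContDiffAt ℝ ∞ G q := fun q hq => (hG q hq).contDiffAt (hU.mem_nhds hq)
  have hT : ∀ q ∈ U, ContDiffAt ℝ ∞ T q := by
    intro q hq
    obtain ⟨e, he⟩ := exSpray_equiv (G q) (hpos q hq)
    have h1 : ContDiffAt ℝ ∞ (ContinuousLinearMap.inverse :
        (E →L[ℝ] (E →L[ℝ] ℝ)) → ((E →L[ℝ] ℝ) →L[ℝ] E)) (G q) := by
      rw [← he]
      exact contDiffAt_map_inverse e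
    exact h1.comp q (hGq q hq)
  have hS0 : ∀ q ∈ U, ContDiffAt ℝ ∞ S0 q := fun q hq =>
    exSprayOp_contDiffAt (hT q hq) ((hGq q hq).fderiv_right (m := ∞) (by simp))
  have hGT : ∀ q ∈ U, ∀ ℓ : E →L[ℝ] ℝ, G q (T q ℓ) = ℓ := by
    intro q hq ℓ
    obtain ⟨e, he⟩ := exSpray_equiv (G q) (hpos q hq)
    change G q (ContinuousLinearMap.inverse (G q) ℓ) = ℓ
    rw [← he, ContinuousLinearMap.inverse_equiv]
    exact e.apply_symm_apply ℓ
  obtain ⟨R, hR, hRU⟩ := Metric.nhds_basis_closedBall.mem_iff.1 (hU.mem_nhds hx₀)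
  let χ : ContDiffBump x₀ := ⟨R / 2, R, by positivity, by linarith only [hR]⟩
  refine ⟨fun q => χ q • S0 q, ?_, ?_⟩
  · rw [contDiff_iff_contDiffAt]
    intro q
    by_cases hq : q ∈ closedBall x₀ R
    · exact χ.contDiffAt.smul (hS0 q (hRU hq))
    · have h1 : (fun q => χ q • S0 q) =ᶠ[𝓝 q] fun _ => 0 := by
        have h2 : (closedBall x₀ R)ᶜ ∈ 𝓝 q := isClosed_closedBall.isOpen_compl.mem_nhds hq
        filter_upwards [h2] with p hp
        have h3 : χ p = 0 := χ.zero_of_le_dist (by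
          have : ¬ dist p x₀ ≤ R := hp
          exact (not_le.1 this).le)
        rw [h3, zero_smul]
      exact (contDiffAt_const (c := (0 : E →L[ℝ] E →L[ℝ] E))).congr_of_eventuallyEq h1
  · have h1 : ∀ᶠ q in 𝓝 x₀, q ∈ closedBall x₀ (R / 2) :=
      closedBall_mem_nhds x₀ (by positivity)
    filter_upwards [h1] with q hq a b
    have hqU : q ∈ U := hRU (closedBall_subset_closedBall (by linarith only [hR]) hq)
    have h2 : χ q = 1 := χ.one_of_mem_closedBall hq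
    rw [h2, one_smul]
    change G q (exSprayOp (T q) (fderiv ℝ G q) a a) b = _
    rw [exSprayOp_apply, hGT q hqU]
    simp

end

end Vale.Agent.P234
end
end

section

section

/-! Conservation of the speed and the Gauss lemma in a chart. -/

open Set Filter Topology Metric
open scoped ContDiff

namespace Vale.Agent.P234

noncomputable section

variable {E : Type*} [NormedAddCommGroup E] [NormedSpace ℝ E]

/-- `Y` is the exponential map at `x` of the metric `G` with spray `S`, on the ball of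
radius `δ`. -/
structure GeoBall (G : E → E →L[ℝ] E →L[ℝ] ℝ) (S : E → E →L[ℝ] E →L[ℝ] E) (x : E) (Y : E → E)
    (δ : ℝ) : Prop where
  pos : 0 < δ
  smoothY : ∀ v ∈ ball (0 : E) δ, ContDiffAt ℝ ∞ Y v
  zero : Y 0 = x
  dzero : HasFDerivAt Y (ContinuousLinearMap.id ℝ E) 0
  smoothG : ∀ v ∈ ball (0 : E) δ, ContDiffAt ℝ ∞ G (Y v)
  symm : ∀ v ∈ ball (0 : E) δ, ∀ a b : E, G (Y v) a b = G (Y v) b a
  posdef : ∀ v ∈ ball (0 : E) δ, ∀ a : E, a ≠ 0 → 0 < G (Y v) a a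
  spray : ∀ v ∈ ball (0 : E) δ, ∀ a b : E, G (Y v) (S (Y v) a a) b =
    (1 / 2) * fderiv ℝ G (Y v) b a a - fderiv ℝ G (Y v) a a b
  ode : ∀ v ∈ ball (0 : E) δ, ∀ t ∈ Ioo (0 : ℝ) 1,
    deriv (deriv (fun s : ℝ => Y (s • v))) t =
      S (Y (t • v)) (deriv (fun s : ℝ => Y (s • v)) t) (deriv (fun s : ℝ => Y (s • v)) t)

variable {G : E → E →L[ℝ] E →L[ℝ] ℝ} {S : E → E →L[ℝ] E →L[ℝ] E} {x : E} {Y : E → E} {δ : ℝ}

theorem exGauss_mem {v : E} (hv : v ∈ ball (0 : E) δ) {t : ℝ} (ht : t ∈ Icc (0 : ℝ) 1) :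
    t • v ∈ ball (0 : E) δ := by
  rw [mem_ball_zero_iff] at hv ⊢
  rw [norm_smul, Real.norm_of_nonneg ht.1]
  calc t * ‖v‖ ≤ 1 * ‖v‖ := by gcongr; exact ht.2
    _ < δ := by simpa using hv

theorem exGauss_eventually {v : E} {t : ℝ} (ht : t • v ∈ ball (0 : E) δ) :
    ∀ᶠ s in 𝓝 t, s • v ∈ ball (0 : E) δ :=
  (isOpen_ball.preimage (continuous_id.smul continuous_const)).mem_nhds ht

theorem exGauss_affine {f : ℝ → ℝ} {C : ℝ} (hf : ContinuousOn f (Icc (0 : ℝ) 1))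
    (hd : ∀ s ∈ Ioo (0 : ℝ) 1, HasDerivAt f C s) {t : ℝ} (ht : t ∈ Icc (0 : ℝ) 1) :
    f t = f 0 + C * t := by
  rcases ht.1.eq_or_lt with h0 | h0
  · rw [← h0]; simp
  · obtain ⟨c, hc, hc'⟩ := exists_hasDerivAt_eq_slope f (fun _ => C) h0
      (hf.mono (Icc_subset_Icc le_rfl ht.2))
      (fun s hs => hd s ⟨hs.1, hs.2.trans_le ht.2⟩)
    have h1 : C * (t - 0) = f t - f 0 := by
      rw [hc']; field_simp
    linarith only [h1]

theorem exGauss_line (v : E) (t : ℝ) : HasDerivAt (fun s : ℝ => s • v) v t := by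
  simpa only [id_eq, one_smul] using (hasDerivAt_id t).smul_const v

theorem GeoBall.exGauss_hasFDerivAt (h : GeoBall G S x Y δ) {w : E}
    (hw : w ∈ ball (0 : E) δ) : HasFDerivAt Y (fderiv ℝ Y w) w :=
  ((h.smoothY _ hw).differentiableAt (by simp)).hasFDerivAt

theorem GeoBall.exGauss_hasFDerivAt2 (h : GeoBall G S x Y δ) {w : E}
    (hw : w ∈ ball (0 : E) δ) : HasFDerivAt (fderiv ℝ Y) (fderiv ℝ (fderiv ℝ Y) w) w := by
  have h1 : ContDiffAt ℝ ∞ (fderiv ℝ Y) w := (h.smoothY _ hw).fderiv_right (by simp)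
  exact (h1.differentiableAt (by simp)).hasFDerivAt

theorem GeoBall.exGauss_hasFDerivAtG (h : GeoBall G S x Y δ) {w : E}
    (hw : w ∈ ball (0 : E) δ) : HasFDerivAt G (fderiv ℝ G (Y w)) (Y w) :=
  ((h.smoothG _ hw).differentiableAt (by simp)).hasFDerivAt

theorem GeoBall.exGauss_sym2 (h : GeoBall G S x Y δ) {w : E}
    (hw : w ∈ ball (0 : E) δ) (a b : E) :
    fderiv ℝ (fderiv ℝ Y) w a b = fderiv ℝ (fderiv ℝ Y) w b a :=
  ((h.smoothY _ hw).isSymmSndFDerivAt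
    (by simp only [minSmoothness_of_isRCLikeNormedField]; exact WithTop.coe_le_coe.2 le_top)) a b

theorem GeoBall.exGauss_hasDerivAt (h : GeoBall G S x Y δ) {v : E} {t : ℝ}
    (ht : t • v ∈ ball (0 : E) δ) :
    HasDerivAt (fun s : ℝ => Y (s • v)) (fderiv ℝ Y (t • v) v) t :=
  (h.exGauss_hasFDerivAt ht).comp_hasDerivAt t (exGauss_line v t)

theorem GeoBall.exGauss_hasDerivAt2 (h : GeoBall G S x Y δ) {v : E} {t : ℝ}
    (ht : t • v ∈ ball (0 : E) δ) (η : E) :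
    HasDerivAt (fun s : ℝ => fderiv ℝ Y (s • v) η)
      (fderiv ℝ (fderiv ℝ Y) (t • v) v η) t := by
  have h1 := (h.exGauss_hasFDerivAt2 ht).comp_hasDerivAt t (exGauss_line v t)
  exact h1.clm_apply (hasDerivAt_const t η) |>.congr_deriv (by simp)

theorem GeoBall.exGauss_deriv_eventually (h : GeoBall G S x Y δ) {v : E} {t : ℝ}
    (ht : t • v ∈ ball (0 : E) δ) :
    deriv (fun s : ℝ => Y (s • v)) =ᶠ[𝓝 t] fun s : ℝ => fderiv ℝ Y (s • v) v := by
  filter_upwards [exGauss_eventually ht] with s hs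
  exact (h.exGauss_hasDerivAt hs).deriv

/-- The differential equation in terms of the second derivative. -/
theorem GeoBall.exGauss_ode (h : GeoBall G S x Y δ) {v : E} (hv : v ∈ ball (0 : E) δ) {t : ℝ}
    (ht : t ∈ Ioo (0 : ℝ) 1) :
    fderiv ℝ (fderiv ℝ Y) (t • v) v v =
      S (Y (t • v)) (fderiv ℝ Y (t • v) v) (fderiv ℝ Y (t • v) v) := by
  have hm : t • v ∈ ball (0 : E) δ := exGauss_mem hv ⟨ht.1.le, ht.2.le⟩
  have h1 := h.ode v hv t ht
  rw [(h.exGauss_deriv_eventually hm).deriv_eq, (h.exGauss_hasDerivAt2 hm v).deriv,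
    (h.exGauss_hasDerivAt hm).deriv] at h1
  exact h1

/-- derivative of `G (c) a b` for curves -/
theorem GeoBall.exGauss_hasDerivAtG (h : GeoBall G S x Y δ) {w : ℝ → E} {w' : E} {t : ℝ}
    (ht : w t ∈ ball (0 : E) δ) (hw : HasDerivAt w w' t) {a b : ℝ → E} {a' b' : E}
    (ha : HasDerivAt a a' t) (hb : HasDerivAt b b' t) :
    HasDerivAt (fun s : ℝ => G (Y (w s)) (a s) (b s))
      (fderiv ℝ G (Y (w t)) (fderiv ℝ Y (w t) w') (a t) (b t) + G (Y (w t)) a' (b t) +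
        G (Y (w t)) (a t) b') t := by
  have h1 : HasDerivAt (fun s => Y (w s)) (fderiv ℝ Y (w t) w') t :=
    (h.exGauss_hasFDerivAt ht).comp_hasDerivAt t hw
  have h2 : HasDerivAt (fun s => G (Y (w s))) (fderiv ℝ G (Y (w t)) (fderiv ℝ Y (w t) w')) t :=
    HasFDerivAt.comp_hasDerivAt (l := G) (f := fun s => Y (w s)) t (h.exGauss_hasFDerivAtG ht) h1
  have h3 := (h2.clm_apply ha).clm_apply hb
  exact h3.congr_deriv (by simp only [add_apply])

/-- Conservation of the speed. -/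
theorem GeoBall.exGauss_speed (h : GeoBall G S x Y δ) {v : E} (hv : v ∈ ball (0 : E) δ) {t : ℝ}
    (ht : t ∈ Icc (0 : ℝ) 1) :
    G (Y (t • v)) (fderiv ℝ Y (t • v) v) (fderiv ℝ Y (t • v) v) = G x v v := by
  have hder : ∀ s ∈ Icc (0 : ℝ) 1, HasDerivAt
      (fun s : ℝ => G (Y (s • v)) (fderiv ℝ Y (s • v) v) (fderiv ℝ Y (s • v) v))
      (fderiv ℝ G (Y (s • v)) (fderiv ℝ Y (s • v) v) (fderiv ℝ Y (s • v) v)
        (fderiv ℝ Y (s • v) v) +
        G (Y (s • v)) (fderiv ℝ (fderiv ℝ Y) (s • v) v v) (fderiv ℝ Y (s • v) v) +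
        G (Y (s • v)) (fderiv ℝ Y (s • v) v) (fderiv ℝ (fderiv ℝ Y) (s • v) v v)) s := by
    intro s hs
    have hm : s • v ∈ ball (0 : E) δ := exGauss_mem hv hs
    exact h.exGauss_hasDerivAtG hm (exGauss_line v s) (h.exGauss_hasDerivAt2 hm v)
      (h.exGauss_hasDerivAt2 hm v)
  have hcont : ContinuousOn
      (fun s : ℝ => G (Y (s • v)) (fderiv ℝ Y (s • v) v) (fderiv ℝ Y (s • v) v))
      (Icc (0 : ℝ) 1) := fun s hs => (hder s hs).continuousAt.continuousWithinAt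
  have hzero : ∀ s ∈ Ioo (0 : ℝ) 1, HasDerivAt
      (fun s : ℝ => G (Y (s • v)) (fderiv ℝ Y (s • v) v) (fderiv ℝ Y (s • v) v)) 0 s := by
    intro s hs
    have hm : s • v ∈ ball (0 : E) δ := exGauss_mem hv ⟨hs.1.le, hs.2.le⟩
    have h1 := hder s ⟨hs.1.le, hs.2.le⟩
    rw [h.exGauss_ode hv hs, h.symm _ hm (fderiv ℝ Y (s • v) v) (S _ _ _),
      h.spray _ hm] at h1
    refine h1.congr_deriv ?_
    ring
  have this := exGauss_affine hcont hzero ht
  simp only [zero_smul, h.zero, h.dzero.fderiv] at this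
  simpa using this

/-- Conservation of the speed. -/
theorem GeoBall.speed (h : GeoBall G S x Y δ) {v : E} (hv : v ∈ ball (0 : E) δ) {t : ℝ}
    (ht : t ∈ Icc (0 : ℝ) 1) :
    G (Y (t • v)) (deriv (fun s : ℝ => Y (s • v)) t) (deriv (fun s : ℝ => Y (s • v)) t) =
      G x v v := by
  rw [(h.exGauss_hasDerivAt (exGauss_mem hv ht)).deriv]
  exact h.exGauss_speed hv ht

/-- The Gauss lemma. -/
theorem GeoBall.exGauss_gauss (h : GeoBall G S x Y δ) {v : E} (hv : v ∈ ball (0 : E) δ) (η : E) :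
    G (Y v) (fderiv ℝ Y v v) (fderiv ℝ Y v η) = G x v η := by
  -- derivative in the parameter of the speed identity
  have hpar : ∀ t ∈ Icc (0 : ℝ) 1,
      (1 / 2) * fderiv ℝ G (Y (t • v)) (fderiv ℝ Y (t • v) (t • η)) (fderiv ℝ Y (t • v) v)
        (fderiv ℝ Y (t • v) v) +
      G (Y (t • v)) (fderiv ℝ Y (t • v) v)
        (fderiv ℝ (fderiv ℝ Y) (t • v) (t • η) v + fderiv ℝ Y (t • v) η) = G x v η := by
    intro t ht
    have hm : t • v ∈ ball (0 : E) δ := exGauss_mem hv ht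
    have hl0 : HasDerivAt (fun ε : ℝ => v + ε • η) η 0 := by
      simpa using (exGauss_line η 0).const_add v
    have hl : HasDerivAt (fun ε : ℝ => t • (v + ε • η)) (t • η) 0 := hl0.const_smul t
    have hev : ∀ᶠ ε in 𝓝 (0 : ℝ), v + ε • η ∈ ball (0 : E) δ :=
      hl0.continuousAt.eventually (isOpen_ball.mem_nhds (by simpa using hv))
    have hA : HasDerivAt (fun ε : ℝ => fderiv ℝ Y (t • (v + ε • η)) (v + ε • η))
        (fderiv ℝ (fderiv ℝ Y) (t • v) (t • η) v + fderiv ℝ Y (t • v) η) 0 := by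
      have h2 : HasFDerivAt (fderiv ℝ Y) (fderiv ℝ (fderiv ℝ Y) (t • v))
          (t • (v + (0 : ℝ) • η)) := by
        simpa only [zero_smul, add_zero] using h.exGauss_hasFDerivAt2 hm
      have h1 := HasFDerivAt.comp_hasDerivAt (l := fderiv ℝ Y)
        (f := fun ε : ℝ => t • (v + ε • η)) 0 h2 hl
      exact (h1.clm_apply hl0).congr_deriv (by simp)
    have h0 : t • (v + (0 : ℝ) • η) ∈ ball (0 : E) δ := by simpa using hm
    have hD := h.exGauss_hasDerivAtG (w := fun ε : ℝ => t • (v + ε • η)) h0 hl hA hA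
    have hR : HasDerivAt (fun ε : ℝ => G x (v + ε • η) (v + ε • η)) (G x η v + G x v η) 0 := by
      have h3 := ((hasDerivAt_const (0 : ℝ) (G x)).clm_apply hl0).clm_apply hl0
      exact h3.congr_deriv (by simp only [zero_smul, add_zero, zero_apply, zero_add])
    have hE : (fun ε : ℝ => G (Y (t • (v + ε • η))) (fderiv ℝ Y (t • (v + ε • η)) (v + ε • η))
        (fderiv ℝ Y (t • (v + ε • η)) (v + ε • η))) =ᶠ[𝓝 0]
        fun ε : ℝ => G x (v + ε • η) (v + ε • η) := by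
      filter_upwards [hev] with ε hε
      exact h.exGauss_speed hε ht
    have hU := hD.unique (hR.congr_of_eventuallyEq hE)
    have hs1 := h.symm _ hm (fderiv ℝ (fderiv ℝ Y) (t • v) (t • η) v + fderiv ℝ Y (t • v) η)
      (fderiv ℝ Y (t • v) v)
    have hs2 := h.symm 0 (mem_ball_self h.pos) η v
    rw [h.zero] at hs2
    simp only [zero_smul, add_zero] at hU
    linarith
  have hder : ∀ t ∈ Icc (0 : ℝ) 1, HasDerivAt
      (fun s : ℝ => G (Y (s • v)) (fderiv ℝ Y (s • v) v) (s • fderiv ℝ Y (s • v) η))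
      (fderiv ℝ G (Y (t • v)) (fderiv ℝ Y (t • v) v) (fderiv ℝ Y (t • v) v)
        (t • fderiv ℝ Y (t • v) η) +
        G (Y (t • v)) (fderiv ℝ (fderiv ℝ Y) (t • v) v v) (t • fderiv ℝ Y (t • v) η) +
        G (Y (t • v)) (fderiv ℝ Y (t • v) v)
          (t • fderiv ℝ (fderiv ℝ Y) (t • v) v η + fderiv ℝ Y (t • v) η)) t := by
    intro t ht
    have hm : t • v ∈ ball (0 : E) δ := exGauss_mem hv ht
    have hJ : HasDerivAt (fun s : ℝ => s • fderiv ℝ Y (s • v) η)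
        (t • fderiv ℝ (fderiv ℝ Y) (t • v) v η + fderiv ℝ Y (t • v) η) t := by
      have := (hasDerivAt_id t).smul (h.exGauss_hasDerivAt2 hm η)
      exact this.congr_deriv (by simp)
    exact h.exGauss_hasDerivAtG hm (exGauss_line v t) (h.exGauss_hasDerivAt2 hm v) hJ
  have hcont : ContinuousOn
      (fun s : ℝ => G (Y (s • v)) (fderiv ℝ Y (s • v) v) (s • fderiv ℝ Y (s • v) η))
      (Icc (0 : ℝ) 1) := fun s hs => (hder s hs).continuousAt.continuousWithinAt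
  have hd : ∀ t ∈ Ioo (0 : ℝ) 1, HasDerivAt
      (fun s : ℝ => G (Y (s • v)) (fderiv ℝ Y (s • v) v) (s • fderiv ℝ Y (s • v) η))
      (G x v η) t := by
    intro t ht
    have ht' : t ∈ Icc (0 : ℝ) 1 := ⟨ht.1.le, ht.2.le⟩
    have hm : t • v ∈ ball (0 : E) δ := exGauss_mem hv ht'
    refine (hder t ht').congr_deriv ?_
    rw [h.exGauss_ode hv ht, h.spray _ hm, h.exGauss_sym2 hm v η]
    have h1 := hpar t ht'
    simp only [map_smul, smul_apply, smul_eq_mul, map_add] at h1 ⊢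
    linarith
  have := exGauss_affine hcont hd (right_mem_Icc.2 zero_le_one)
  simpa only [one_smul, zero_smul, map_zero, mul_one, zero_add] using this

/-- Cauchy-Schwarz for a nonnegative symmetric form. -/
theorem exGauss_cs {B : E →L[ℝ] E →L[ℝ] ℝ} (hs : ∀ a b, B a b = B b a)
    (hp : ∀ a, a ≠ 0 → 0 < B a a) (a b : E) : (B a b) ^ 2 ≤ B a a * B b b := by
  by_cases hb : b = 0
  · simp [hb]
  have hbb := hp b hb
  have h1 : 0 ≤ B (B b b • a - B a b • b) (B b b • a - B a b • b) := by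
    by_cases h0 : B b b • a - B a b • b = 0
    · simp [h0]
    · exact (hp _ h0).le
  have h2 : B (B b b • a - B a b • b) (B b b • a - B a b • b) =
      B b b * (B a a * B b b - (B a b) ^ 2) := by
    simp only [map_sub, map_smul, sub_apply, smul_apply,
      smul_eq_mul]
    rw [hs b a]
    ring
  rw [h2] at h1
  have := nonneg_of_mul_nonneg_right h1 hbb
  linarith only [this]

/-- The eikonal inequality for the squared length of the logarithm. -/
theorem GeoBall.eikonal (h : GeoBall G S x Y δ) {L : E → E} {c : E}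
    (hL : DifferentiableAt ℝ L c) (hLc : L c ∈ ball (0 : E) δ)
    (hY : ∀ᶠ c' in 𝓝 c, Y (L c') = c') (ζ : E) :
    (fderiv ℝ (fun c' => G x (L c') (L c')) c ζ) ^ 2 ≤ 4 * G x (L c) (L c) * G c ζ ζ := by
  have hYc : Y (L c) = c := hY.self_of_nhds
  have h1 : HasFDerivAt (fun c' => Y (L c')) ((fderiv ℝ Y (L c)).comp (fderiv ℝ L c)) c :=
    (h.exGauss_hasFDerivAt hLc).comp c hL.hasFDerivAt
  have h2 : HasFDerivAt (fun c' => Y (L c')) (ContinuousLinearMap.id ℝ E) c :=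
    (hasFDerivAt_id c).congr_of_eventuallyEq hY
  have h3 : fderiv ℝ Y (L c) (fderiv ℝ L c ζ) = ζ := by
    have := congrArg (fun A : E →L[ℝ] E => A ζ) (h1.unique h2)
    simpa only [ContinuousLinearMap.comp_apply, ContinuousLinearMap.id_apply] using this
  have h4 : fderiv ℝ (fun c' => G x (L c') (L c')) c ζ = 2 * G x (L c) (fderiv ℝ L c ζ) := by
    have h5 : HasFDerivAt (fun c' => G x (L c')) ((G x).comp (fderiv ℝ L c)) c :=
      (G x).hasFDerivAt.comp c hL.hasFDerivAt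
    have h6 := h5.clm_apply hL.hasFDerivAt
    rw [h6.fderiv]
    have hs2 := h.symm 0 (mem_ball_self h.pos) (fderiv ℝ L c ζ) (L c)
    rw [h.zero] at hs2
    simp only [add_apply, ContinuousLinearMap.comp_apply, ContinuousLinearMap.flip_apply, hs2]
    ring
  have h7 := h.exGauss_gauss hLc (fderiv ℝ L c ζ)
  rw [h3, hYc] at h7
  have h8 := h.exGauss_speed hLc (right_mem_Icc.2 zero_le_one)
  rw [one_smul, hYc] at h8
  have hsym : ∀ a b, G c a b = G c b a := by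
    have := h.symm _ hLc
    rwa [hYc] at this
  have hpos : ∀ a, a ≠ 0 → 0 < G c a a := by
    have := h.posdef _ hLc
    rwa [hYc] at this
  have h9 := exGauss_cs hsym hpos (fderiv ℝ Y (L c) (L c)) ζ
  rw [h4, ← h7, ← h8]
  linarith

end

end Vale.Agent.P234
end
end

section

section

/-! The local exponential map and logarithm of a metric in a chart. -/

open Set Filter Topology Metric
open scoped ContDiff

namespace Vale.Agent.P234

noncomputable section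

variable {E : Type*} [NormedAddCommGroup E] [NormedSpace ℝ E] [FiniteDimensional ℝ E]

/-- The local exponential map `X` and logarithm `L` of a metric `G` near `x₀`. -/
theorem exists_flat {U : Set E} (hU : IsOpen U) {G : E → E →L[ℝ] E →L[ℝ] ℝ}
    (hG : ContDiffOn ℝ ∞ G U) (hsym : ∀ q ∈ U, ∀ a b : E, G q a b = G q b a)
    (hpos : ∀ q ∈ U, ∀ a : E, a ≠ 0 → 0 < G q a a) {x₀ : E} (hx₀ : x₀ ∈ U) :
    ∃ X L : E × E → E,
      (∀ᶠ z in 𝓝 ((x₀, 0) : E × E), ContDiffAt ℝ ∞ X z) ∧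
      (∀ᶠ z in 𝓝 ((x₀, 0) : E × E), X z ∈ U) ∧
      (∀ᶠ x in 𝓝 x₀, X (x, 0) = x) ∧
      (∀ᶠ x in 𝓝 x₀, HasFDerivAt (fun v : E => X (x, v)) (ContinuousLinearMap.id ℝ E) 0) ∧
      (∀ᶠ z in 𝓝 ((x₀, 0) : E × E), ∀ t ∈ Icc (0 : ℝ) 1,
        G (X (z.1, t • z.2)) (deriv (fun s : ℝ => X (z.1, s • z.2)) t)
          (deriv (fun s : ℝ => X (z.1, s • z.2)) t) = G z.1 z.2 z.2) ∧
      (∀ᶠ z in 𝓝 ((x₀, x₀) : E × E), ContDiffAt ℝ ∞ L z) ∧
      L (x₀, x₀) = 0 ∧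
      (∀ᶠ z in 𝓝 ((x₀, x₀) : E × E), X (z.1, L z) = z.2) ∧
      (∀ᶠ z in 𝓝 ((x₀, 0) : E × E), L (z.1, X z) = z.2) ∧
      (∀ᶠ z in 𝓝 ((x₀, x₀) : E × E), ∀ ζ : E,
        (fderiv ℝ (fun c : E => G z.1 (L (z.1, c)) (L (z.1, c))) z.2 ζ) ^ 2 ≤
          4 * G z.1 (L z) (L z) * G z.2 ζ ζ) := by
  have hcompl : CompleteSpace E := FiniteDimensional.complete ℝ E
  obtain ⟨S, hS, hspray⟩ := exists_spray hU hG hpos hx₀
  obtain ⟨X, hXc, hX0, hXd, hXode⟩ := exists_geodesic_map hS x₀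
  have hX00 : X (x₀, 0) = x₀ := hX0.self_of_nhds
  have hXc0 : ContDiffAt ℝ ∞ X (x₀, 0) := hXc.self_of_nhds
  have hXt : Tendsto X (𝓝 ((x₀, 0) : E × E)) (𝓝 x₀) := by
    have h1 := hXc0.continuousAt.tendsto
    rwa [hX00] at h1
  have hXU : ∀ᶠ z in 𝓝 ((x₀, 0) : E × E), X z ∈ U := hXt.eventually (hU.mem_nhds hx₀)
  have hXs := hXt.eventually hspray
  -- the local logarithm
  have hbij : Function.Bijective (fun v : E => fderiv ℝ X (x₀, 0) (0, v)) := by
    have h1 : HasFDerivAt (fun v : E => X (x₀, v)) (ContinuousLinearMap.id ℝ E) 0 :=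
      hXd.self_of_nhds
    have h2 : HasFDerivAt X (fderiv ℝ X (x₀, 0)) (x₀, 0) :=
      (hXc0.differentiableAt (by simp)).hasFDerivAt
    have h3 : HasFDerivAt (fun v : E => ((x₀, v) : E × E)) (ContinuousLinearMap.inr ℝ E E) 0 :=
      hasFDerivAt_prodMk_right x₀ 0
    have h4 : HasFDerivAt (fun v : E => X (x₀, v))
        ((fderiv ℝ X (x₀, 0)).comp (ContinuousLinearMap.inr ℝ E E)) 0 := h2.comp 0 h3
    have h5 := h4.unique h1
    have h6 : (fun v : E => fderiv ℝ X (x₀, 0) (0, v)) = id := by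
      funext v
      have := congrArg (fun T : E →L[ℝ] E => T v) h5
      simpa only [id_eq, ContinuousLinearMap.comp_apply, ContinuousLinearMap.inr_apply,     ContinuousLinearMap.id_apply] using this
    rw [h6]
    exact Function.bijective_id
  obtain ⟨L, hLc, hL0, hXL, hLX⟩ := param_inverse (n := ∞) hXc (by simp) hbij
  simp only [hX00] at hLc hL0 hXL
  have hLt : Tendsto L (𝓝 ((x₀, x₀) : E × E)) (𝓝 0) := by
    have h1 := hLc.self_of_nhds.continuousAt.tendsto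
    rwa [hL0] at h1
  -- a uniform radius
  obtain ⟨δ₁, hδ₁, h₁⟩ := Metric.eventually_nhds_iff_ball.1
    (hXc.and (hXU.and (hXs.and hXode)))
  obtain ⟨δ₂, hδ₂, h₂⟩ := Metric.eventually_nhds_iff_ball.1 (hX0.and hXd)
  have hball : ∀ x ∈ ball x₀ (min δ₁ δ₂), GeoBall G S x (fun v => X (x, v)) δ₁ := by
    intro x hx
    have hx2 : x ∈ ball x₀ δ₂ := ball_subset_ball (min_le_right _ _) hx
    have hx1 : x ∈ ball x₀ δ₁ := ball_subset_ball (min_le_left _ _) hx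
    have hmem : ∀ v ∈ ball (0 : E) δ₁, ((x, v) : E × E) ∈ ball ((x₀, 0) : E × E) δ₁ := by
      intro v hv
      rw [mem_ball, Prod.dist_eq]
      exact max_lt hx1 hv
    refine ⟨hδ₁, ?_, (h₂ x hx2).1, (h₂ x hx2).2, ?_, ?_, ?_, ?_, ?_⟩
    · intro v hv
      exact (h₁ _ (hmem v hv)).1.comp v (contDiffAt_const.prodMk contDiffAt_id)
    · intro v hv
      exact hG.contDiffAt (hU.mem_nhds (h₁ _ (hmem v hv)).2.1)
    · intro v hv
      exact hsym _ (h₁ _ (hmem v hv)).2.1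
    · intro v hv
      exact hpos _ (h₁ _ (hmem v hv)).2.1
    · intro v hv
      exact (h₁ _ (hmem v hv)).2.2.1
    · intro v hv
      exact (h₁ _ (hmem v hv)).2.2.2
  have hfst : ∀ᶠ z in 𝓝 ((x₀, 0) : E × E), z.1 ∈ ball x₀ (min δ₁ δ₂) :=
    (continuous_fst.tendsto ((x₀, 0) : E × E)).eventually (ball_mem_nhds _ (lt_min hδ₁ hδ₂))
  have hsnd : ∀ᶠ z in 𝓝 ((x₀, 0) : E × E), z.2 ∈ ball (0 : E) δ₁ :=
    (continuous_snd.tendsto ((x₀, 0) : E × E)).eventually (ball_mem_nhds _ hδ₁)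
  have hfst' : ∀ᶠ z in 𝓝 ((x₀, x₀) : E × E), z.1 ∈ ball x₀ (min δ₁ δ₂) :=
    (continuous_fst.tendsto ((x₀, x₀) : E × E)).eventually (ball_mem_nhds _ (lt_min hδ₁ hδ₂))
  refine ⟨X, L, hXc, hXU, hX0, hXd, ?_, hLc, hL0, hXL, hLX, ?_⟩
  · filter_upwards [hfst, hsnd] with z hz1 hz2 t ht
    exact (hball z.1 hz1).speed hz2 ht
  · filter_upwards [hfst', hLc, hLt.eventually (ball_mem_nhds _ hδ₁),
      eventually_eventually_nhds.2 hXL] with z hz1 hz2 hz3 hz4 ζ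
    have h5 : ContDiffAt ℝ ∞ (fun c : E => L (z.1, c)) z.2 :=
      ContDiffAt.comp z.2 (g := L) (f := fun c : E => ((z.1, c) : E × E)) hz2
        (contDiffAt_const.prodMk contDiffAt_id)
    have h6 : Tendsto (fun c : E => ((z.1, c) : E × E)) (𝓝 z.2) (𝓝 z) := by
      have h7 : Continuous (fun c : E => ((z.1, c) : E × E)) := by fun_prop
      exact h7.tendsto z.2
    exact (hball z.1 hz1).eikonal (L := fun c => L (z.1, c)) (h5.differentiableAt (by simp)) hz3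
      (h6.eventually hz4) ζ

end

end Vale.Agent.P234
end
end

section

section

/-! Charts of the tangent bundle; local and near exponential maps (definitions for the existence
of the exponential map). -/

set_option maxSynthPendingDepth 3
set_option linter.unusedSectionVars false

open Bundle Manifold Set Filter
open scoped ContDiff Manifold Topology

namespace Vale.Agent.P234

noncomputable section

/-- The chart of the tangent bundle at `⟨x₀, 0⟩`. -/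
def tchart (E : Type*) [NormedAddCommGroup E] [NormedSpace ℝ E] {M : Type*} [MetricSpace M]
    [ChartedSpace E M] [IsManifold 𝓘(ℝ, E) ∞ M] (x₀ : M) :
    PartialEquiv (TangentBundle 𝓘(ℝ, E) M) (E × E) :=
  extChartAt 𝓘(ℝ, E).tangent (⟨x₀, 0⟩ : TangentBundle 𝓘(ℝ, E) M)

variable {E : Type*} [NormedAddCommGroup E] [NormedSpace ℝ E]
  {M : Type*} [MetricSpace M] [ChartedSpace E M] [IsManifold 𝓘(ℝ, E) ∞ M]

lemma mem_tchart_source (x₀ : M) (p : TangentBundle 𝓘(ℝ, E) M) :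
    p ∈ (tchart E x₀).source ↔ p.proj ∈ (chartAt E x₀).source := by
  simp only [tchart, extChartAt, OpenPartialHomeomorph.extend, modelWithCorners_prod_toPartialEquiv, modelWithCornersSelf_partialEquiv, PartialEquiv.refl_prod_refl, PartialEquiv.trans_source, PartialHomeomorph.toFun_eq_coe, OpenPartialHomeomorph.coe_toPartialHomeomorph, PartialEquiv.refl_source, preimage_univ, inter_univ, TangentBundle.mem_chart_source_iff]

lemma mem_tchart_target (x₀ : M) (z : E × E) :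
    z ∈ (tchart E x₀).target ↔ z.1 ∈ (chartAt E x₀).target := by
  have h := TangentBundle.mem_chart_target_iff (I := 𝓘(ℝ, E)) z
    (⟨x₀, 0⟩ : TangentBundle 𝓘(ℝ, E) M)
  rw [← h, tchart, extChartAt_target]
  constructor
  · rintro ⟨h1, -⟩
    exact h1
  · intro h1
    exact ⟨h1, ⟨z, rfl⟩⟩

lemma tchart_center (x₀ : M) (v : TangentSpace 𝓘(ℝ, E) x₀) :
    tchart E x₀ ⟨x₀, v⟩ = ((extChartAt 𝓘(ℝ, E) x₀ x₀, v) : E × E) := by
  have h1 : tangentCoordChange 𝓘(ℝ, E) x₀ x₀ x₀ v = v :=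
    tangentCoordChange_self (by simp)
  exact Prod.ext rfl h1

lemma tchart_symm_center (x₀ : M) (v : TangentSpace 𝓘(ℝ, E) x₀) :
    (tchart E x₀).symm ((extChartAt 𝓘(ℝ, E) x₀ x₀, v) : E × E) =
      (⟨x₀, v⟩ : TangentBundle 𝓘(ℝ, E) M) := by
  have h := (tchart E x₀).left_inv (x := ⟨x₀, v⟩)
    ((mem_tchart_source x₀ _).2 (mem_chart_source E x₀))
  have h2 := tchart_center x₀ v
  exact (congrArg (tchart E x₀).symm h2).symm.trans h

lemma contMDiffOn_tchart_symm (x₀ : M) :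
    ContMDiffOn 𝓘(ℝ, E × E) 𝓘(ℝ, E).tangent ∞ (tchart E x₀).symm (tchart E x₀).target :=
  contMDiffOn_extChartAt_symm _

lemma contMDiffOn_tchart (x₀ : M) :
    ContMDiffOn 𝓘(ℝ, E).tangent 𝓘(ℝ, E × E) ∞ (tchart E x₀) (tchart E x₀).source := by
  have := contMDiffOn_extChartAt (I := 𝓘(ℝ, E).tangent) (n := ∞)
    (x := (⟨x₀, 0⟩ : TangentBundle 𝓘(ℝ, E) M))
  rw [← extChartAt_source 𝓘(ℝ, E).tangent] at this
  exact this

lemma isOpen_tchart_target (x₀ : M) : IsOpen (tchart E x₀).target := by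
  have : (tchart E x₀).target = Prod.fst ⁻¹' (chartAt E x₀).target := by
    ext z; exact mem_tchart_target x₀ z
  rw [this]
  exact (chartAt E x₀).open_target.preimage continuous_fst

lemma isOpen_tchart_source (x₀ : M) : IsOpen (tchart E x₀).source := isOpen_extChartAt_source _


/-- The tangent vector at `x` with coordinates `a` in the chart at `x₀`. -/
def vec (x₀ x : M) : E →L[ℝ] TangentSpace 𝓘(ℝ, E) x :=
  (trivializationAt E (TangentSpace 𝓘(ℝ, E)) x₀).symmL ℝ x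

/-- The coordinates in the chart at `x₀` of a tangent vector at `x`. -/
def crd (x₀ x : M) : TangentSpace 𝓘(ℝ, E) x →L[ℝ] E :=
  (trivializationAt E (TangentSpace 𝓘(ℝ, E)) x₀).continuousLinearMapAt ℝ x

/-- The derivative of the inverse chart at `c`, from coordinates to tangent vectors. -/
def dch (x₀ : M) (c : E) :
    E →L[ℝ] TangentSpace 𝓘(ℝ, E) ((extChartAt 𝓘(ℝ, E) x₀).symm c) :=
  vec x₀ ((extChartAt 𝓘(ℝ, E) x₀).symm c)

/-- The map of the manifold given by `X` in the chart at `x₀`. -/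
def locE (x₀ : M) (X : E × E → E) (x : M) (v : TangentSpace 𝓘(ℝ, E) x) : M :=
  (extChartAt 𝓘(ℝ, E) x₀).symm (X (extChartAt 𝓘(ℝ, E) x₀ x, crd x₀ x v))

/-- The vector field of two points given by `L` in the chart at `x₀`. -/
def locL (x₀ : M) (L : E × E → E) (x y : M) : TangentSpace 𝓘(ℝ, E) x :=
  vec x₀ x (L (extChartAt 𝓘(ℝ, E) x₀ x, extChartAt 𝓘(ℝ, E) x₀ y))

/-- The differential of a real function. -/
def dfun (f : M → ℝ) (z : M) (w : TangentSpace 𝓘(ℝ, E) z) : ℝ :=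
  mfderiv 𝓘(ℝ, E) 𝓘(ℝ, ℝ) f z w

variable [RiemannianBundle (fun x : M => TangentSpace 𝓘(ℝ, E) x)]

/-- Data of a metric, exponential map and logarithm in the chart at `x₀`. -/
structure FlatData (x₀ : M) (G : E → E →L[ℝ] E →L[ℝ] ℝ) (X L : E × E → E) : Prop where
  smoothG : ContDiffOn ℝ ∞ G (extChartAt 𝓘(ℝ, E) x₀).target
  metric : ∀ c ∈ (extChartAt 𝓘(ℝ, E) x₀).target, ∀ a b : E,
    G c a b = inner ℝ (dch x₀ c a) (dch x₀ c b)
  smoothX : ∀ᶠ z in 𝓝 ((extChartAt 𝓘(ℝ, E) x₀ x₀, 0) : E × E), ContDiffAt ℝ ∞ X z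
  memX : ∀ᶠ z in 𝓝 ((extChartAt 𝓘(ℝ, E) x₀ x₀, 0) : E × E), X z ∈ (extChartAt 𝓘(ℝ, E) x₀).target
  zeroX : ∀ᶠ c in 𝓝 (extChartAt 𝓘(ℝ, E) x₀ x₀), X (c, 0) = c
  derivX : ∀ᶠ c in 𝓝 (extChartAt 𝓘(ℝ, E) x₀ x₀),
    HasFDerivAt (fun v : E => X (c, v)) (ContinuousLinearMap.id ℝ E) 0
  speedX : ∀ᶠ z in 𝓝 ((extChartAt 𝓘(ℝ, E) x₀ x₀, 0) : E × E), ∀ t ∈ Icc (0 : ℝ) 1,
    G (X (z.1, t • z.2)) (deriv (fun s : ℝ => X (z.1, s • z.2)) t)
      (deriv (fun s : ℝ => X (z.1, s • z.2)) t) = G z.1 z.2 z.2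
  smoothL : ∀ᶠ z in 𝓝 ((extChartAt 𝓘(ℝ, E) x₀ x₀, extChartAt 𝓘(ℝ, E) x₀ x₀) : E × E),
    ContDiffAt ℝ ∞ L z
  centerL : L (extChartAt 𝓘(ℝ, E) x₀ x₀, extChartAt 𝓘(ℝ, E) x₀ x₀) = 0
  expL : ∀ᶠ z in 𝓝 ((extChartAt 𝓘(ℝ, E) x₀ x₀, extChartAt 𝓘(ℝ, E) x₀ x₀) : E × E),
    X (z.1, L z) = z.2
  logX : ∀ᶠ z in 𝓝 ((extChartAt 𝓘(ℝ, E) x₀ x₀, 0) : E × E), L (z.1, X z) = z.2
  eikonal : ∀ᶠ z in 𝓝 ((extChartAt 𝓘(ℝ, E) x₀ x₀, extChartAt 𝓘(ℝ, E) x₀ x₀) : E × E), ∀ ζ : E,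
    (fderiv ℝ (fun c : E => G z.1 (L (z.1, c)) (L (z.1, c))) z.2 ζ) ^ 2 ≤
      4 * G z.1 (L z) (L z) * G z.2 ζ ζ

/-- `e₁` is an exponential map near the zero vector at `x₀`, with logarithm `L₁`. -/
structure IsLocExp (x₀ : M) (e₁ : ∀ x : M, TangentSpace 𝓘(ℝ, E) x → M)
    (L₁ : ∀ x : M, M → TangentSpace 𝓘(ℝ, E) x) : Prop where
  smooth : ∀ᶠ p in 𝓝 (⟨x₀, 0⟩ : TangentBundle 𝓘(ℝ, E) M),
    ContMDiffAt 𝓘(ℝ, E).tangent 𝓘(ℝ, E) ∞
      (fun p : TangentBundle 𝓘(ℝ, E) M => e₁ p.proj p.snd) p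
  smooth_log : ∀ᶠ q in 𝓝 ((x₀, x₀) : M × M),
    ContMDiffAt (𝓘(ℝ, E).prod 𝓘(ℝ, E)) 𝓘(ℝ, E).tangent ∞
      (fun q : M × M => (⟨q.1, L₁ q.1 q.2⟩ : TangentBundle 𝓘(ℝ, E) M)) q
  exp_log : ∀ᶠ q in 𝓝 ((x₀, x₀) : M × M), e₁ q.1 (L₁ q.1 q.2) = q.2
  norm_log : ∀ᶠ q in 𝓝 ((x₀, x₀) : M × M), ‖L₁ q.1 q.2‖ = dist q.1 q.2
  log_exp : ∀ᶠ p in 𝓝 (⟨x₀, 0⟩ : TangentBundle 𝓘(ℝ, E) M), L₁ p.proj (e₁ p.proj p.snd) = p.snd
  ray : ∀ᶠ p in 𝓝 (⟨x₀, 0⟩ : TangentBundle 𝓘(ℝ, E) M), ∀ s ∈ Icc (0 : ℝ) 1,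
    ∀ t ∈ Icc (0 : ℝ) 1,
      dist (e₁ p.proj (s • p.snd)) (e₁ p.proj (t • p.snd)) = |t - s| * ‖p.snd‖
  velocity : ∀ᶠ x in 𝓝 x₀, ∀ v : TangentSpace 𝓘(ℝ, E) x,
    mfderiv 𝓘(ℝ, ℝ) 𝓘(ℝ, E) (fun t : ℝ => e₁ x (t • v)) 0 (1 : ℝ) = v

/-- `e₀` is an exponential map on the vectors of norm less than `ε`, with logarithm `L`. -/
structure NearExp (ε : ℝ) (e₀ : ∀ x : M, TangentSpace 𝓘(ℝ, E) x → M)
    (L : ∀ x : M, M → TangentSpace 𝓘(ℝ, E) x) : Prop where
  pos : 0 < ε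
  smooth : ∀ p : TangentBundle 𝓘(ℝ, E) M, ‖p.snd‖ < ε →
    ContMDiffAt 𝓘(ℝ, E).tangent 𝓘(ℝ, E) ∞
      (fun p : TangentBundle 𝓘(ℝ, E) M => e₀ p.proj p.snd) p
  smooth_log : ∀ x y : M, dist x y < ε →
    ContMDiffAt (𝓘(ℝ, E).prod 𝓘(ℝ, E)) 𝓘(ℝ, E).tangent ∞
      (fun q : M × M => (⟨q.1, L q.1 q.2⟩ : TangentBundle 𝓘(ℝ, E) M)) (x, y)
  exp_log : ∀ x y : M, dist x y < ε → e₀ x (L x y) = y
  norm_log : ∀ x y : M, dist x y < ε → ‖L x y‖ = dist x y
  log_exp : ∀ (x : M) (v : TangentSpace 𝓘(ℝ, E) x), ‖v‖ < ε → L x (e₀ x v) = v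
  ray : ∀ (x : M) (v : TangentSpace 𝓘(ℝ, E) x), ‖v‖ < ε → ∀ s ∈ Icc (0 : ℝ) 1,
    ∀ t ∈ Icc (0 : ℝ) 1, dist (e₀ x (s • v)) (e₀ x (t • v)) = |t - s| * ‖v‖
  velocity : ∀ (x : M) (v : TangentSpace 𝓘(ℝ, E) x),
    mfderiv 𝓘(ℝ, ℝ) 𝓘(ℝ, E) (fun t : ℝ => e₀ x (t • v)) 0 (1 : ℝ) = v
  corner : ∀ a b c : M, dist b c = dist a b → dist a c = 2 * dist a b → dist a c < ε →
    L b c = -L b a

end

end Vale.Agent.P234
end
end

section

section

/-! The metric in a chart. -/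

set_option maxSynthPendingDepth 3
set_option linter.unusedSectionVars false

open Bundle Manifold Set Filter
open scoped ContDiff Manifold Topology

namespace Vale.Agent.P234

noncomputable section

variable {E : Type*} [NormedAddCommGroup E] [NormedSpace ℝ E] [FiniteDimensional ℝ E]
  {M : Type*} [MetricSpace M] [ChartedSpace E M]
  [RiemannianBundle (fun x : M => TangentSpace 𝓘(ℝ, E) x)]
  [IsManifold 𝓘(ℝ, E) ∞ M]
  [IsContMDiffRiemannianBundle 𝓘(ℝ, E) ∞ E (fun x : M => TangentSpace 𝓘(ℝ, E) x)]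

lemma exm_mem_base {x₀ x : M} (hx : x ∈ (extChartAt 𝓘(ℝ, E) x₀).source) :
    x ∈ (trivializationAt E (TangentSpace 𝓘(ℝ, E)) x₀).baseSet := by
  rw [extChartAt_source] at hx
  exact hx

lemma exm_mem_source {x₀ x : M} (hx : x ∈ (extChartAt 𝓘(ℝ, E) x₀).source) :
    x ∈ (chartAt E x₀).source := by
  rw [extChartAt_source] at hx
  exact hx

lemma vec_crd (x₀ : M) {x : M} (hx : x ∈ (extChartAt 𝓘(ℝ, E) x₀).source)
    (v : TangentSpace 𝓘(ℝ, E) x) : vec x₀ x (crd x₀ x v) = v := by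
  unfold vec crd
  exact Trivialization.symmL_continuousLinearMapAt _ (exm_mem_base hx) v

lemma crd_vec (x₀ : M) {x : M} (hx : x ∈ (extChartAt 𝓘(ℝ, E) x₀).source) (a : E) :
    crd x₀ x (vec x₀ x a) = a := by
  unfold vec crd
  exact Trivialization.continuousLinearMapAt_symmL _ (exm_mem_base hx) a

lemma tchart_apply (x₀ : M) {x : M} (hx : x ∈ (extChartAt 𝓘(ℝ, E) x₀).source)
    (v : TangentSpace 𝓘(ℝ, E) x) :
    tchart E x₀ (⟨x, v⟩ : TangentBundle 𝓘(ℝ, E) M) = (extChartAt 𝓘(ℝ, E) x₀ x, crd x₀ x v) := by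
  refine Prod.ext rfl ?_
  have h : crd x₀ x v = ((trivializationAt E (TangentSpace 𝓘(ℝ, E)) x₀)
      (⟨x, v⟩ : TangentBundle 𝓘(ℝ, E) M)).2 := by
    unfold crd
    rw [Trivialization.continuousLinearMapAt_apply,
      Trivialization.coe_linearMapAt_of_mem _ (exm_mem_base hx)]
  rw [h]
  rfl

lemma tchart_symm_vec (x₀ : M) {x : M} (hx : x ∈ (extChartAt 𝓘(ℝ, E) x₀).source) (a : E) :
    (tchart E x₀).symm (extChartAt 𝓘(ℝ, E) x₀ x, a) =
      (⟨x, vec x₀ x a⟩ : TangentBundle 𝓘(ℝ, E) M) := by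
  have h1 := tchart_apply x₀ hx (vec x₀ x a)
  rw [crd_vec x₀ hx] at h1
  have h2 := (tchart E x₀).left_inv (x := ⟨x, vec x₀ x a⟩)
    ((mem_tchart_source x₀ _).2 (exm_mem_source hx))
  rw [h1] at h2
  exact h2

lemma tchart_symm_eq (x₀ : M) {c : E} (hc : c ∈ (extChartAt 𝓘(ℝ, E) x₀).target) (a : E) :
    (tchart E x₀).symm (c, a) =
      (⟨(extChartAt 𝓘(ℝ, E) x₀).symm c, dch x₀ c a⟩ : TangentBundle 𝓘(ℝ, E) M) := by
  have h := tchart_symm_vec x₀ ((extChartAt 𝓘(ℝ, E) x₀).map_target hc) a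
  rw [(extChartAt 𝓘(ℝ, E) x₀).right_inv hc] at h
  exact h

lemma dch_injective (x₀ : M) {c : E} (hc : c ∈ (extChartAt 𝓘(ℝ, E) x₀).target) :
    Function.Injective (dch x₀ c) := by
  intro a b hab
  have h1 := crd_vec x₀ ((extChartAt 𝓘(ℝ, E) x₀).map_target hc) a
  have h2 := crd_vec x₀ ((extChartAt 𝓘(ℝ, E) x₀).map_target hc) b
  unfold dch at hab
  rw [← h1, ← h2, hab]

lemma dch_surjective (x₀ : M) {c : E} (hc : c ∈ (extChartAt 𝓘(ℝ, E) x₀).target) :
    Function.Surjective (dch x₀ c) := by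
  intro v
  exact ⟨crd x₀ _ v, vec_crd x₀ ((extChartAt 𝓘(ℝ, E) x₀).map_target hc) v⟩

set_option backward.isDefEq.respectTransparency false in
/-- The Riemannian norm in coordinates. -/
lemma norm_sq_vec (x₀ : M) {G : E → E →L[ℝ] E →L[ℝ] ℝ}
    (hG : ∀ c ∈ (extChartAt 𝓘(ℝ, E) x₀).target, ∀ a b : E,
      G c a b = inner ℝ (dch x₀ c a) (dch x₀ c b))
    {x : M} (hx : x ∈ (extChartAt 𝓘(ℝ, E) x₀).source) (a : E) :
    ‖vec x₀ x a‖ ^ 2 = G (extChartAt 𝓘(ℝ, E) x₀ x) a a := by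
  rw [hG _ ((extChartAt 𝓘(ℝ, E) x₀).map_source hx), real_inner_self_eq_norm_sq]
  unfold dch
  rw [(extChartAt 𝓘(ℝ, E) x₀).left_inv hx]

lemma dch_eq_mfderiv (x₀ : M) {c : E} (hc : c ∈ (extChartAt 𝓘(ℝ, E) x₀).target) (a : E) :
    dch x₀ c a = mfderiv 𝓘(ℝ, E) 𝓘(ℝ, E) (extChartAt 𝓘(ℝ, E) x₀).symm c a := by
  have h := TangentBundle.symmL_trivializationAt (𝕜 := ℝ) (I := 𝓘(ℝ, E)) (x₀ := x₀)
    (exm_mem_source ((extChartAt 𝓘(ℝ, E) x₀).map_target hc))
  rw [(extChartAt 𝓘(ℝ, E) x₀).right_inv hc, modelWithCornersSelf_coe, range_id,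
    mfderivWithin_univ] at h
  unfold dch vec
  rw [h]
  rfl

lemma exm_mdiff_symm (x₀ : M) {c : E} (hc : c ∈ (extChartAt 𝓘(ℝ, E) x₀).target) :
    MDifferentiableAt 𝓘(ℝ, E) 𝓘(ℝ, E) (extChartAt 𝓘(ℝ, E) x₀).symm c := by
  have h1 : ContMDiffOn 𝓘(ℝ, E) 𝓘(ℝ, E) ∞ (extChartAt 𝓘(ℝ, E) x₀).symm
      (extChartAt 𝓘(ℝ, E) x₀).target := contMDiffOn_extChartAt_symm x₀
  exact (h1.contMDiffAt ((isOpen_extChartAt_target x₀).mem_nhds hc)).mdifferentiableAt (by simp)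

set_option backward.isDefEq.respectTransparency false in
/-- Velocity of a curve given in a chart. -/
lemma mfderiv_curve_chart (x₀ : M) {q : ℝ → E} {t : ℝ}
    (hq : q t ∈ (extChartAt 𝓘(ℝ, E) x₀).target) (hd : DifferentiableAt ℝ q t) :
    mfderiv 𝓘(ℝ, ℝ) 𝓘(ℝ, E) (fun s : ℝ => (extChartAt 𝓘(ℝ, E) x₀).symm (q s)) t (1 : ℝ) =
      dch x₀ (q t) (deriv q t) := by
  have h1 := mfderiv_comp t (exm_mdiff_symm x₀ hq) hd.mdifferentiableAt
  rw [dch_eq_mfderiv x₀ hq]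
  have h2 : (fun s : ℝ => (extChartAt 𝓘(ℝ, E) x₀).symm (q s)) =
    (extChartAt 𝓘(ℝ, E) x₀).symm ∘ q := rfl
  rw [h2, h1, mfderiv_eq_fderiv]
  show mfderiv 𝓘(ℝ, E) 𝓘(ℝ, E) (extChartAt 𝓘(ℝ, E) x₀).symm (q t) (fderiv ℝ q t 1) = _
  rw [fderiv_apply_one_eq_deriv]

set_option backward.isDefEq.respectTransparency false in
/-- Derivative of a function in a chart. -/
lemma mfderiv_fun_chart (x₀ : M) {f : M → ℝ} {c : E}
    (hc : c ∈ (extChartAt 𝓘(ℝ, E) x₀).target)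
    (hf : MDifferentiableAt 𝓘(ℝ, E) 𝓘(ℝ, ℝ) f ((extChartAt 𝓘(ℝ, E) x₀).symm c)) (a : E) :
    dfun f ((extChartAt 𝓘(ℝ, E) x₀).symm c) (dch x₀ c a) =
      fderiv ℝ (fun c' : E => f ((extChartAt 𝓘(ℝ, E) x₀).symm c')) c a := by
  have h1 := mfderiv_comp c hf (exm_mdiff_symm x₀ hc)
  have h2 : (fun c' : E => f ((extChartAt 𝓘(ℝ, E) x₀).symm c')) =
    f ∘ (extChartAt 𝓘(ℝ, E) x₀).symm := rfl
  rw [dch_eq_mfderiv x₀ hc, h2, ← mfderiv_eq_fderiv, h1]
  rfl

/-- The metric in the chart at `x₀`. -/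
theorem exists_chart_metric (x₀ : M) :
    ∃ G : E → E →L[ℝ] E →L[ℝ] ℝ, ContDiffOn ℝ ∞ G (extChartAt 𝓘(ℝ, E) x₀).target ∧
      ∀ c ∈ (extChartAt 𝓘(ℝ, E) x₀).target, ∀ a b : E,
        G c a b = inner ℝ (dch x₀ c a) (dch x₀ c b) := by
  have hsm : ∀ a b : E, ContDiffOn ℝ ∞ (fun c : E => (inner ℝ (dch x₀ c a) (dch x₀ c b) : ℝ))
      (extChartAt 𝓘(ℝ, E) x₀).target := by
    intro a b
    have hv : ∀ a : E, ContMDiffOn 𝓘(ℝ, E) (𝓘(ℝ, E).prod 𝓘(ℝ, E)) ∞
        (fun c : E => (⟨(extChartAt 𝓘(ℝ, E) x₀).symm c, dch x₀ c a⟩ : TangentBundle 𝓘(ℝ, E) M))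
        (extChartAt 𝓘(ℝ, E) x₀).target := by
      intro a
      have h1 : ContMDiffOn 𝓘(ℝ, E) 𝓘(ℝ, E × E) ∞ (fun c : E => ((c, a) : E × E))
          (extChartAt 𝓘(ℝ, E) x₀).target :=
        (contDiff_id.prodMk contDiff_const).contMDiff.contMDiffOn
      have h2 := (contMDiffOn_tchart_symm x₀).comp h1 (fun c hc => by
        rw [mem_preimage, mem_tchart_target]
        simpa using hc)
      exact h2.congr fun c hc => (tchart_symm_eq x₀ hc a).symm
    have h3 := ContMDiffOn.inner_bundle (IB := 𝓘(ℝ, E)) (F := E)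
      (E := fun x : M => TangentSpace 𝓘(ℝ, E) x)
      (b := fun c : E => (extChartAt 𝓘(ℝ, E) x₀).symm c)
      (v := fun c => dch x₀ c a) (w := fun c => dch x₀ c b) (hv a) (hv b)
    exact h3.contDiffOn
  have hG : ∀ c : E, ∃ g : E →L[ℝ] E →L[ℝ] ℝ, ∀ a b : E,
      g a b = inner ℝ (dch x₀ c a) (dch x₀ c b) := by
    intro c
    refine ⟨LinearMap.toContinuousLinearMap
      { toFun := fun a => LinearMap.toContinuousLinearMap
          { toFun := fun b => (inner ℝ (dch x₀ c a) (dch x₀ c b) : ℝ)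
            map_add' := fun b b' => by rw [map_add, inner_add_right]
            map_smul' := fun r b => by rw [map_smul, inner_smul_right]; simp only [extChartAt, OpenPartialHomeomorph.extend, modelWithCornersSelf_partialEquiv, PartialEquiv.coe_trans_symm, PartialHomeomorph.coe_toPartialEquiv_symm, OpenPartialHomeomorph.coe_toPartialHomeomorph_symm, PartialEquiv.refl_symm, PartialEquiv.refl_coe, Function.comp_apply, id_eq, Real.ringHom_apply, smul_eq_mul] }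
        map_add' := fun a a' => ?_
        map_smul' := fun r a => ?_ }, fun a b => ?_⟩
    · ext b
      have h1 : dch x₀ c (a + a') = dch x₀ c a + dch x₀ c a' := map_add _ _ _
      simp only [LinearMap.coe_toContinuousLinearMap', LinearMap.coe_mk, AddHom.coe_mk, add_apply]
      rw [h1, inner_add_left]
    · ext b
      have h1 : dch x₀ c (r • a) = r • dch x₀ c a := map_smul _ _ _
      simp only [LinearMap.coe_toContinuousLinearMap', LinearMap.coe_mk, AddHom.coe_mk,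
        smul_apply, RingHom.id_apply, smul_eq_mul]
      rw [h1, real_inner_smul_left]
    · simp
  choose G hG using hG
  refine ⟨G, ?_, fun c _ a b => hG c a b⟩
  rw [contDiffOn_clm_apply]
  intro a
  rw [contDiffOn_clm_apply]
  intro b
  exact (hsm a b).congr fun c _ => hG c a b

end

end Vale.Agent.P234
end
end

section

section

/-! Neighbourhoods of a zero vector in the tangent bundle. -/

set_option maxSynthPendingDepth 3
set_option linter.unusedSectionVars false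

open Bundle Manifold Set Filter
open scoped ContDiff Manifold Topology

namespace Vale.Agent.P234

noncomputable section

variable {E : Type*} [NormedAddCommGroup E] [NormedSpace ℝ E] [FiniteDimensional ℝ E]
  {M : Type*} [MetricSpace M] [ChartedSpace E M]
  [RiemannianBundle (fun x : M => TangentSpace 𝓘(ℝ, E) x)]
  [IsManifold 𝓘(ℝ, E) ∞ M]
  [IsContMDiffRiemannianBundle 𝓘(ℝ, E) ∞ E (fun x : M => TangentSpace 𝓘(ℝ, E) x)]

omit [FiniteDimensional ℝ E] in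
lemma ExBundle_isContinuous :
    IsContinuousRiemannianBundle E (fun x : M => TangentSpace 𝓘(ℝ, E) x) := by
  obtain ⟨g, hg, h⟩ := IsContMDiffRiemannianBundle.exists_contMDiff (IB := 𝓘(ℝ, E)) (n := ∞)
    (F := E) (E := fun x : M => TangentSpace 𝓘(ℝ, E) x)
  exact ⟨g, hg.continuous, h⟩

lemma ExBundle_proj_tendsto (x₀ : M) :
    Tendsto (fun p : TangentBundle 𝓘(ℝ, E) M => p.proj)
      (𝓝 (⟨x₀, 0⟩ : TangentBundle 𝓘(ℝ, E) M)) (𝓝 x₀) :=
  (FiberBundle.continuous_proj E (fun x : M => TangentSpace 𝓘(ℝ, E) x)).tendsto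
    (⟨x₀, 0⟩ : TangentBundle 𝓘(ℝ, E) M)

lemma ExBundle_eventually_source (x₀ : M) :
    ∀ᶠ p in 𝓝 (⟨x₀, 0⟩ : TangentBundle 𝓘(ℝ, E) M), p.proj ∈ (extChartAt 𝓘(ℝ, E) x₀).source :=
  (ExBundle_proj_tendsto x₀).eventually
    ((isOpen_extChartAt_source x₀).mem_nhds (mem_extChartAt_source x₀))

/-- Coordinates of vectors near the zero vector at `x₀`. -/
lemma tendsto_tchart_zero (x₀ : M) :
    Tendsto (fun p : TangentBundle 𝓘(ℝ, E) M =>
      ((extChartAt 𝓘(ℝ, E) x₀ p.proj, crd x₀ p.proj p.snd) : E × E))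
      (𝓝 (⟨x₀, 0⟩ : TangentBundle 𝓘(ℝ, E) M)) (𝓝 (extChartAt 𝓘(ℝ, E) x₀ x₀, 0)) := by
  have h1 : Tendsto (tchart E x₀) (𝓝 (⟨x₀, 0⟩ : TangentBundle 𝓘(ℝ, E) M))
      (𝓝 (tchart E x₀ (⟨x₀, 0⟩ : TangentBundle 𝓘(ℝ, E) M))) :=
    continuousAt_extChartAt (I := 𝓘(ℝ, E).tangent) (⟨x₀, 0⟩ : TangentBundle 𝓘(ℝ, E) M)
  have h2 : tchart E x₀ (⟨x₀, 0⟩ : TangentBundle 𝓘(ℝ, E) M) =
      ((extChartAt 𝓘(ℝ, E) x₀ x₀, 0) : E × E) := tchart_center x₀ 0
  rw [h2] at h1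
  refine h1.congr' ?_
  filter_upwards [ExBundle_eventually_source x₀] with p hp
  exact tchart_apply x₀ hp p.snd

/-- The inverse chart at the zero vector. -/
lemma ExBundle_tendsto_symm (x₀ : M) :
    Tendsto (tchart E x₀).symm (𝓝 ((extChartAt 𝓘(ℝ, E) x₀ x₀, 0) : E × E))
      (𝓝 (⟨x₀, 0⟩ : TangentBundle 𝓘(ℝ, E) M)) := by
  have hmem : ((extChartAt 𝓘(ℝ, E) x₀ x₀, 0) : E × E) ∈ (tchart E x₀).target :=
    (mem_tchart_target x₀ _).2 (mem_chart_target E x₀)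
  have h1 : ContinuousAt (tchart E x₀).symm ((extChartAt 𝓘(ℝ, E) x₀ x₀, 0) : E × E) :=
    ((contMDiffOn_tchart_symm x₀).continuousOn).continuousAt
      ((isOpen_tchart_target x₀).mem_nhds hmem)
  have h2 : (tchart E x₀).symm ((extChartAt 𝓘(ℝ, E) x₀ x₀, 0) : E × E) =
      (⟨x₀, 0⟩ : TangentBundle 𝓘(ℝ, E) M) := tchart_symm_center x₀ 0
  have h3 := h1.tendsto
  rw [h2] at h3
  exact h3

lemma ExBundle_symm_crd (x₀ : M) {x : M} (hx : x ∈ (extChartAt 𝓘(ℝ, E) x₀).source)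
    (v : TangentSpace 𝓘(ℝ, E) x) (t : ℝ) :
    (tchart E x₀).symm ((extChartAt 𝓘(ℝ, E) x₀ x, t • crd x₀ x v) : E × E) =
      (⟨x, t • v⟩ : TangentBundle 𝓘(ℝ, E) M) := by
  have h1 : vec x₀ x (t • crd x₀ x v) = t • v := by
    rw [map_smul, vec_crd x₀ hx]
  exact (tchart_symm_vec x₀ hx _).trans (congrArg (fun w => (⟨x, w⟩ : TangentBundle 𝓘(ℝ, E) M)) h1)

/-- A neighbourhood of the zero vector contains the whole rays of nearby vectors. -/
lemma eventually_ray_bundle {x₀ : M} {P : TangentBundle 𝓘(ℝ, E) M → Prop}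
    (h : ∀ᶠ p in 𝓝 (⟨x₀, 0⟩ : TangentBundle 𝓘(ℝ, E) M), P p) :
    ∀ᶠ p in 𝓝 (⟨x₀, 0⟩ : TangentBundle 𝓘(ℝ, E) M), ∀ t ∈ Icc (0 : ℝ) 1, P ⟨p.proj, t • p.snd⟩ := by
  have h1 := eventually_ray ((ExBundle_tendsto_symm x₀).eventually h)
  filter_upwards [(tendsto_tchart_zero x₀).eventually h1, ExBundle_eventually_source x₀]
    with p hp hps t ht
  have h2 := hp t ht
  have h3 := ExBundle_symm_crd x₀ hps p.snd t
  exact h3 ▸ h2

/-- A neighbourhood of the zero vector contains all short vectors at nearby points. -/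
lemma eventually_ball_bundle {x₀ : M} {P : TangentBundle 𝓘(ℝ, E) M → Prop}
    (h : ∀ᶠ p in 𝓝 (⟨x₀, 0⟩ : TangentBundle 𝓘(ℝ, E) M), P p) :
    ∃ r : ℝ, 0 < r ∧ ∀ x : M, dist x x₀ < r → ∀ v : TangentSpace 𝓘(ℝ, E) x, ‖v‖ < r → P ⟨x, v⟩ := by
  obtain ⟨δ, hδ, hP⟩ := Metric.eventually_nhds_iff.1 ((ExBundle_tendsto_symm x₀).eventually h)
  have := ExBundle_isContinuous (E := E) (M := M)
  obtain ⟨C, hC, hCx⟩ := eventually_norm_trivializationAt_lt E
    (fun x : M => TangentSpace 𝓘(ℝ, E) x) x₀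
  have hφ : ∀ᶠ x in 𝓝 x₀, dist (extChartAt 𝓘(ℝ, E) x₀ x) (extChartAt 𝓘(ℝ, E) x₀ x₀) < δ :=
    (continuousAt_extChartAt (I := 𝓘(ℝ, E)) x₀).tendsto.eventually (Metric.ball_mem_nhds _ hδ)
  have hs : ∀ᶠ x in 𝓝 x₀, x ∈ (extChartAt 𝓘(ℝ, E) x₀).source :=
    (isOpen_extChartAt_source x₀).mem_nhds (mem_extChartAt_source x₀)
  obtain ⟨r, hr, hrx⟩ := Metric.eventually_nhds_iff.1 (hCx.and (hφ.and hs))
  refine ⟨min r (δ / C), lt_min hr (by (clear * - hδ hC; positivity)), fun x hx v hv => ?_⟩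
  obtain ⟨h1, h2, h3⟩ := hrx (lt_of_lt_of_le hx (min_le_left _ _))
  have h4 : ‖crd x₀ x v‖ < δ := by
    have h5 : ‖crd x₀ x v‖ ≤ C * ‖v‖ := by
      refine (ContinuousLinearMap.le_opNorm _ _).trans ?_
      exact mul_le_mul h1.le le_rfl (norm_nonneg _) hC.le
    have h6 : ‖v‖ < δ / C := lt_of_lt_of_le hv (min_le_right _ _)
    have h7 : C * ‖v‖ < δ := by
      have := (lt_div_iff₀ hC).1 h6
      linarith only [this]
    exact lt_of_le_of_lt h5 h7
  have h8 : dist ((extChartAt 𝓘(ℝ, E) x₀ x, (1 : ℝ) • crd x₀ x v) : E × E)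
      (extChartAt 𝓘(ℝ, E) x₀ x₀, 0) < δ := by
    rw [Prod.dist_eq, max_lt_iff]
    refine ⟨h2, ?_⟩
    show dist ((1 : ℝ) • crd x₀ x v) 0 < δ
    rw [one_smul, dist_zero_right]
    exact h4
  have h9 := hP h8
  have h10 := ExBundle_symm_crd x₀ h3 v 1
  have h11 : P (⟨x, (1 : ℝ) • v⟩ : TangentBundle 𝓘(ℝ, E) M) := h10 ▸ h9
  have h12 : (1 : ℝ) • v = v := one_smul _ _
  exact h12 ▸ h11

end

end Vale.Agent.P234
end
end

section

section

/-! Local exponential map on the manifold: smoothness and inverse properties. -/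

set_option maxSynthPendingDepth 3
set_option linter.unusedSectionVars false

open Bundle Manifold Set Filter
open scoped ContDiff Manifold Topology

namespace Vale.Agent.P234

noncomputable section

variable {E : Type*} [NormedAddCommGroup E] [NormedSpace ℝ E] [FiniteDimensional ℝ E]
  {M : Type*} [MetricSpace M] [ChartedSpace E M]
  [RiemannianBundle (fun x : M => TangentSpace 𝓘(ℝ, E) x)]
  [IsManifold 𝓘(ℝ, E) ∞ M]
  [IsContMDiffRiemannianBundle 𝓘(ℝ, E) ∞ E (fun x : M => TangentSpace 𝓘(ℝ, E) x)]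
  {x₀ : M} {G : E → E →L[ℝ] E →L[ℝ] ℝ} {X L : E × E → E}

lemma ExLocA_tendsto_chart (x₀ : M) :
    Tendsto (fun x : M => extChartAt 𝓘(ℝ, E) x₀ x) (𝓝 x₀) (𝓝 (extChartAt 𝓘(ℝ, E) x₀ x₀)) :=
  continuousAt_extChartAt x₀

lemma ExLocA_mem_source (x₀ : M) :
    ∀ᶠ x in 𝓝 x₀, x ∈ (extChartAt 𝓘(ℝ, E) x₀).source :=
  extChartAt_source_mem_nhds x₀

lemma ExLocA_tendsto_pair (x₀ : M) :
    Tendsto (fun q : M × M => ((extChartAt 𝓘(ℝ, E) x₀ q.1, extChartAt 𝓘(ℝ, E) x₀ q.2) : E × E))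
      (𝓝 (x₀, x₀)) (𝓝 (extChartAt 𝓘(ℝ, E) x₀ x₀, extChartAt 𝓘(ℝ, E) x₀ x₀)) := by
  rw [nhds_prod_eq, nhds_prod_eq]
  exact (ExLocA_tendsto_chart x₀).prodMap (ExLocA_tendsto_chart x₀)

lemma ExLocA_mem_source_pair (x₀ : M) :
    ∀ᶠ q in 𝓝 ((x₀, x₀) : M × M), q.1 ∈ (extChartAt 𝓘(ℝ, E) x₀).source ∧
      q.2 ∈ (extChartAt 𝓘(ℝ, E) x₀).source := by
  rw [nhds_prod_eq]
  exact (ExLocA_mem_source (E := E) x₀).prod_mk (ExLocA_mem_source (E := E) x₀)

lemma ExLocA_mem_source_bundle (x₀ : M) :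
    ∀ᶠ p in 𝓝 (⟨x₀, 0⟩ : TangentBundle 𝓘(ℝ, E) M), p.proj ∈ (extChartAt 𝓘(ℝ, E) x₀).source := by
  have h : ∀ᶠ p in 𝓝 (⟨x₀, 0⟩ : TangentBundle 𝓘(ℝ, E) M), p ∈ (tchart E x₀).source :=
    (isOpen_tchart_source x₀).mem_nhds ((mem_tchart_source x₀ _).2 (mem_chart_source E x₀))
  filter_upwards [h] with p hp
  rw [extChartAt_source]
  exact (mem_tchart_source x₀ p).1 hp

lemma FlatData.locE_zero (h : FlatData x₀ G X L) :
    ∀ᶠ x in 𝓝 x₀, locE x₀ X x (0 : TangentSpace 𝓘(ℝ, E) x) = x := by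
  filter_upwards [(ExLocA_tendsto_chart x₀).eventually h.zeroX, ExLocA_mem_source (E := E) x₀]
    with x hx hs
  unfold locE
  rw [map_zero, hx]
  exact (extChartAt 𝓘(ℝ, E) x₀).left_inv hs

lemma FlatData.smooth_locE (h : FlatData x₀ G X L) :
    ∀ᶠ p in 𝓝 (⟨x₀, 0⟩ : TangentBundle 𝓘(ℝ, E) M),
      ContMDiffAt 𝓘(ℝ, E).tangent 𝓘(ℝ, E) ∞
        (fun p : TangentBundle 𝓘(ℝ, E) M => locE x₀ X p.proj p.snd) p := by
  filter_upwards [(tendsto_tchart_zero x₀).eventually h.smoothX,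
    (tendsto_tchart_zero x₀).eventually h.memX, ExLocA_mem_source_bundle x₀] with p h1 h2 h3
  have hps : p ∈ (tchart E x₀).source := by
    rw [mem_tchart_source]
    rwa [extChartAt_source] at h3
  have hp : tchart E x₀ p = (extChartAt 𝓘(ℝ, E) x₀ p.proj, crd x₀ p.proj p.snd) :=
    tchart_apply x₀ h3 p.snd
  have c1 : ContMDiffAt 𝓘(ℝ, E).tangent 𝓘(ℝ, E × E) ∞ (tchart E x₀) p :=
    (contMDiffOn_tchart x₀).contMDiffAt ((isOpen_tchart_source x₀).mem_nhds hps)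
  have c2 : ContMDiffAt 𝓘(ℝ, E × E) 𝓘(ℝ, E) ∞ X (tchart E x₀ p) := by
    rw [hp]
    exact h1.contMDiffAt
  have c3 : ContMDiffAt 𝓘(ℝ, E) 𝓘(ℝ, E) ∞ (extChartAt 𝓘(ℝ, E) x₀).symm (X (tchart E x₀ p)) := by
    rw [hp]
    exact (contMDiffOn_extChartAt_symm x₀).contMDiffAt
      ((isOpen_extChartAt_target x₀).mem_nhds h2)
  have c4 := c3.comp p (c2.comp p c1)
  refine c4.congr_of_eventuallyEq ?_
  filter_upwards [(isOpen_tchart_source x₀).mem_nhds hps] with q hq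
  have hq' : q.proj ∈ (extChartAt 𝓘(ℝ, E) x₀).source := by
    rw [extChartAt_source]
    exact (mem_tchart_source x₀ q).1 hq
  have e := tchart_apply x₀ hq' q.snd
  show (extChartAt 𝓘(ℝ, E) x₀).symm (X (extChartAt 𝓘(ℝ, E) x₀ q.proj, crd x₀ q.proj q.snd)) =
    (extChartAt 𝓘(ℝ, E) x₀).symm (X (tchart E x₀ q))
  exact congrArg (fun z => (extChartAt 𝓘(ℝ, E) x₀).symm (X z)) e.symm

lemma FlatData.smooth_locL (h : FlatData x₀ G X L) :
    ∀ᶠ q in 𝓝 ((x₀, x₀) : M × M),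
      ContMDiffAt (𝓘(ℝ, E).prod 𝓘(ℝ, E)) 𝓘(ℝ, E).tangent ∞
        (fun q : M × M => (⟨q.1, locL x₀ L q.1 q.2⟩ : TangentBundle 𝓘(ℝ, E) M)) q := by
  filter_upwards [(ExLocA_tendsto_pair x₀).eventually h.smoothL,
    ExLocA_mem_source_pair (E := E) x₀] with q h1 h2
  have c0 : ContMDiffAt (𝓘(ℝ, E).prod 𝓘(ℝ, E)) 𝓘(ℝ, E) ∞
      (fun q : M × M => extChartAt 𝓘(ℝ, E) x₀ q.1) q :=
    (contMDiffAt_extChartAt' (by rw [← extChartAt_source 𝓘(ℝ, E)]; exact h2.1)).comp q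
      contMDiffAt_fst
  have c1 : ContMDiffAt (𝓘(ℝ, E).prod 𝓘(ℝ, E)) 𝓘(ℝ, E) ∞
      (fun q : M × M => extChartAt 𝓘(ℝ, E) x₀ q.2) q :=
    (contMDiffAt_extChartAt' (by rw [← extChartAt_source 𝓘(ℝ, E)]; exact h2.2)).comp q
      contMDiffAt_snd
  have c2 : ContMDiffAt (𝓘(ℝ, E).prod 𝓘(ℝ, E)) 𝓘(ℝ, E × E) ∞
      (fun q : M × M => ((extChartAt 𝓘(ℝ, E) x₀ q.1, extChartAt 𝓘(ℝ, E) x₀ q.2) : E × E)) q :=
    c0.prodMk_space c1
  have c3 : ContMDiffAt (𝓘(ℝ, E).prod 𝓘(ℝ, E)) 𝓘(ℝ, E) ∞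
      (fun q : M × M => L (extChartAt 𝓘(ℝ, E) x₀ q.1, extChartAt 𝓘(ℝ, E) x₀ q.2)) q :=
    ContMDiffAt.comp (g := L) q h1.contMDiffAt c2
  have c4 : ContMDiffAt (𝓘(ℝ, E).prod 𝓘(ℝ, E)) 𝓘(ℝ, E × E) ∞
      (fun q : M × M => ((extChartAt 𝓘(ℝ, E) x₀ q.1,
        L (extChartAt 𝓘(ℝ, E) x₀ q.1, extChartAt 𝓘(ℝ, E) x₀ q.2)) : E × E)) q :=
    c0.prodMk_space c3
  have ht : ((extChartAt 𝓘(ℝ, E) x₀ q.1,
        L (extChartAt 𝓘(ℝ, E) x₀ q.1, extChartAt 𝓘(ℝ, E) x₀ q.2)) : E × E) ∈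
      (tchart E x₀).target := by
    rw [mem_tchart_target]
    have := (extChartAt 𝓘(ℝ, E) x₀).map_source h2.1
    simpa only [extChartAt, OpenPartialHomeomorph.extend, modelWithCornersSelf_partialEquiv,     PartialEquiv.trans_refl, PartialHomeomorph.toFun_eq_coe, OpenPartialHomeomorph.coe_toPartialHomeomorph] using this
  have c5 : ContMDiffAt 𝓘(ℝ, E × E) 𝓘(ℝ, E).tangent ∞ (tchart E x₀).symm
      ((extChartAt 𝓘(ℝ, E) x₀ q.1,
        L (extChartAt 𝓘(ℝ, E) x₀ q.1, extChartAt 𝓘(ℝ, E) x₀ q.2)) : E × E) :=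
    (contMDiffOn_tchart_symm x₀).contMDiffAt ((isOpen_tchart_target x₀).mem_nhds ht)
  have c6 := ContMDiffAt.comp (g := (tchart E x₀).symm) q c5 c4
  refine c6.congr_of_eventuallyEq ?_
  have hnear : ∀ᶠ q' in 𝓝 q, q'.1 ∈ (extChartAt 𝓘(ℝ, E) x₀).source := by
    have : Continuous (fun q : M × M => q.1) := continuous_fst
    exact this.continuousAt.eventually ((isOpen_extChartAt_source x₀).mem_nhds h2.1)
  filter_upwards [hnear] with q' hq'
  exact (tchart_symm_vec x₀ hq' _).symm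

lemma FlatData.exp_log (h : FlatData x₀ G X L) :
    ∀ᶠ q in 𝓝 ((x₀, x₀) : M × M), locE x₀ X q.1 (locL x₀ L q.1 q.2) = q.2 := by
  filter_upwards [(ExLocA_tendsto_pair x₀).eventually h.expL,
    ExLocA_mem_source_pair (E := E) x₀] with q h1 h2
  unfold locE locL
  rw [crd_vec x₀ h2.1]
  have h1' : X (extChartAt 𝓘(ℝ, E) x₀ q.1,
      L (extChartAt 𝓘(ℝ, E) x₀ q.1, extChartAt 𝓘(ℝ, E) x₀ q.2)) = extChartAt 𝓘(ℝ, E) x₀ q.2 := h1
  rw [h1']
  exact (extChartAt 𝓘(ℝ, E) x₀).left_inv h2.2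

lemma FlatData.log_exp (h : FlatData x₀ G X L) :
    ∀ᶠ p in 𝓝 (⟨x₀, 0⟩ : TangentBundle 𝓘(ℝ, E) M),
      locL x₀ L p.proj (locE x₀ X p.proj p.snd) = p.snd := by
  filter_upwards [(tendsto_tchart_zero x₀).eventually h.logX,
    (tendsto_tchart_zero x₀).eventually h.memX, ExLocA_mem_source_bundle x₀] with p h1 h2 h3
  unfold locE locL
  rw [(extChartAt 𝓘(ℝ, E) x₀).right_inv h2]
  have h1' : L (extChartAt 𝓘(ℝ, E) x₀ p.proj,
      X (extChartAt 𝓘(ℝ, E) x₀ p.proj, crd x₀ p.proj p.snd)) = crd x₀ p.proj p.snd := h1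
  rw [h1']
  exact vec_crd x₀ h3 p.snd

lemma FlatData.velocity (h : FlatData x₀ G X L) :
    ∀ᶠ x in 𝓝 x₀, ∀ v : TangentSpace 𝓘(ℝ, E) x,
      mfderiv 𝓘(ℝ, ℝ) 𝓘(ℝ, E) (fun t : ℝ => locE x₀ X x (t • v)) 0 (1 : ℝ) = v := by
  filter_upwards [(ExLocA_tendsto_chart x₀).eventually h.zeroX,
    (ExLocA_tendsto_chart x₀).eventually h.derivX, ExLocA_mem_source (E := E) x₀]
    with x h1 h2 h3 v
  set a : E := crd x₀ x v with ha
  set c : E := extChartAt 𝓘(ℝ, E) x₀ x with hc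
  set q : ℝ → E := fun t => X (c, t • a) with hq
  have e1 : (fun t : ℝ => locE x₀ X x (t • v)) =
      fun t : ℝ => (extChartAt 𝓘(ℝ, E) x₀).symm (q t) := by
    funext t
    unfold locE
    rw [map_smul]
  have q0 : q 0 = c := by
    simp only [hq, zero_smul]
    exact h1
  have hd : HasDerivAt q a 0 := by
    have l1 : HasDerivAt (fun t : ℝ => t • a) a 0 := by
      have := (hasDerivAt_id (0 : ℝ)).smul_const a
      simpa using this
    have l2 : HasFDerivAt (fun v : E => X (c, v)) (ContinuousLinearMap.id ℝ E) ((0 : ℝ) • a) := by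
      rw [zero_smul]; exact h2
    exact l2.comp_hasDerivAt (0 : ℝ) l1
  have hct : c ∈ (extChartAt 𝓘(ℝ, E) x₀).target := (extChartAt 𝓘(ℝ, E) x₀).map_source h3
  have key := mfderiv_curve_chart x₀ (q := q) (t := 0) (by rw [q0]; exact hct)
    hd.differentiableAt
  rw [hd.deriv] at key
  have hx : (extChartAt 𝓘(ℝ, E) x₀).symm (q 0) = x := by
    rw [q0]
    exact (extChartAt 𝓘(ℝ, E) x₀).left_inv h3
  have e2 : (dch x₀ (q 0) a : E) = (vec x₀ x a : E) := by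
    show ((vec x₀ ((extChartAt 𝓘(ℝ, E) x₀).symm (q 0)) a : TangentSpace 𝓘(ℝ, E) _) : E) =
      (vec x₀ x a : E)
    exact congrArg (fun y : M => (vec x₀ y a : E)) hx
  rw [e1]
  exact key.trans (e2.trans (vec_crd x₀ h3 v))

end

end Vale.Agent.P234
end
end

section

section

/-! Distance estimates by curves and by functions. -/

set_option maxSynthPendingDepth 3
set_option linter.unusedSectionVars false

open Bundle Manifold Set Filter
open scoped ContDiff Manifold Topology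

namespace Vale.Agent.P234

noncomputable section

variable {E : Type*} [NormedAddCommGroup E] [NormedSpace ℝ E] [FiniteDimensional ℝ E]
  {M : Type*} [MetricSpace M] [ChartedSpace E M]
  [RiemannianBundle (fun x : M => TangentSpace 𝓘(ℝ, E) x)]
  [IsManifold 𝓘(ℝ, E) ∞ M]
  [IsContMDiffRiemannianBundle 𝓘(ℝ, E) ∞ E (fun x : M => TangentSpace 𝓘(ℝ, E) x)]
  [IsRiemannianManifold 𝓘(ℝ, E) M]

open MeasureTheory in
/-- A curve with speed at most `κ` has length at most `κ (b - a)`. -/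
lemma dist_le_of_speed {c : ℝ → M} {a b κ : ℝ} (hab : a ≤ b) (hκ : 0 ≤ κ)
    (hc : ∀ t ∈ Icc a b, ContMDiffAt 𝓘(ℝ, ℝ) 𝓘(ℝ, E) 1 c t)
    (hs : ∀ t ∈ Icc a b, ‖mfderiv 𝓘(ℝ, ℝ) 𝓘(ℝ, E) c t (1 : ℝ)‖ ≤ κ) :
    dist (c a) (c b) ≤ κ * (b - a) := by
  have h1 : ContMDiffOn 𝓘(ℝ, ℝ) 𝓘(ℝ, E) 1 c (Icc a b) :=
    fun t ht => (hc t ht).contMDiffWithinAt
  have h2 := riemannianEDist_le_pathELength (I := 𝓘(ℝ, E)) h1 rfl rfl hab
  rw [← IsRiemannianManifold.out (I := 𝓘(ℝ, E)) (c a) (c b)] at h2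
  have h3 : pathELength 𝓘(ℝ, E) c a b ≤ ENNReal.ofReal (κ * (b - a)) := by
    rw [pathELength_eq_lintegral_mfderiv_Icc]
    calc _ ≤ ∫⁻ _t in Icc a b, ENNReal.ofReal κ := by
            refine setLIntegral_mono' measurableSet_Icc (fun t ht => ?_)
            rw [← ofReal_norm]
            exact ENNReal.ofReal_le_ofReal (hs t ht)
      _ = _ := by
        rw [setLIntegral_const, Real.volume_Icc, ENNReal.ofReal_mul hκ]
  have h4 := h2.trans h3
  rw [edist_dist] at h4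
  exact (ENNReal.ofReal_le_ofReal_iff (mul_nonneg hκ (by linarith only [hab]))).1 h4

set_option backward.isDefEq.respectTransparency false in
open MeasureTheory in
/-- Bound of the variation of a function along a curve. -/
lemma exDist_curve {f : M → ℝ} {K ℓ : ℝ} (hK : 0 ≤ K) (hℓ : 0 ≤ ℓ) {γ : ℝ → M}
    (hγ : ContMDiff 𝓘(ℝ, ℝ) 𝓘(ℝ, E) 1 γ)
    (hf : ∀ t ∈ Icc (0 : ℝ) 1, ContMDiffAt 𝓘(ℝ, E) 𝓘(ℝ, ℝ) 1 f (γ t))
    (hd : ∀ t ∈ Icc (0 : ℝ) 1, ∀ w : TangentSpace 𝓘(ℝ, E) (γ t), |dfun f (γ t) w| ≤ K * ‖w‖)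
    (hl : pathELength 𝓘(ℝ, E) γ 0 1 ≤ ENNReal.ofReal ℓ) :
    |f (γ 1) - f (γ 0)| ≤ K * ℓ := by
  have h1 : ContDiffOn ℝ 1 (f ∘ γ) (Icc 0 1) := by
    rw [← contMDiffOn_iff_contDiffOn]
    intro t ht
    exact ((hf t ht).comp t (hγ t)).contMDiffWithinAt
  have h2 := enorm_sub_le_lintegral_deriv_of_contDiffOn_Icc h1 zero_le_one
  have h3 : ∫⁻ t in Icc (0 : ℝ) 1, ‖deriv (f ∘ γ) t‖ₑ ≤
      ∫⁻ t in Icc (0 : ℝ) 1, ENNReal.ofReal K * ‖mfderiv 𝓘(ℝ, ℝ) 𝓘(ℝ, E) γ t (1 : ℝ)‖ₑ := by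
    refine setLIntegral_mono' measurableSet_Icc (fun t ht => ?_)
    have h4 : mfderiv 𝓘(ℝ, ℝ) 𝓘(ℝ, ℝ) (f ∘ γ) t =
        (mfderiv 𝓘(ℝ, E) 𝓘(ℝ, ℝ) f (γ t)).comp (mfderiv 𝓘(ℝ, ℝ) 𝓘(ℝ, E) γ t) :=
      mfderiv_comp t ((hf t ht).mdifferentiableAt one_ne_zero)
        ((hγ t).mdifferentiableAt one_ne_zero)
    have h5 : deriv (f ∘ γ) t = dfun f (γ t) (mfderiv 𝓘(ℝ, ℝ) 𝓘(ℝ, E) γ t (1 : ℝ)) := by
      have h6 := congrArg (fun φ => φ (1 : ℝ)) h4
      rw [← fderiv_apply_one_eq_deriv, ← mfderiv_eq_fderiv]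
      exact h6
    rw [h5, ← ofReal_norm, ← ofReal_norm, ← ENNReal.ofReal_mul hK]
    exact ENNReal.ofReal_le_ofReal (hd t ht _)
  have h7 := h2.trans h3
  rw [lintegral_const_mul' _ _ ENNReal.ofReal_ne_top,
    ← pathELength_eq_lintegral_mfderiv_Icc] at h7
  have h8 : ‖(f ∘ γ) 1 - (f ∘ γ) 0‖ₑ ≤ ENNReal.ofReal (K * ℓ) := by
    refine h7.trans ?_
    rw [ENNReal.ofReal_mul hK]
    (clear * - hl; gcongr)
  rw [← ofReal_norm] at h8
  exact (ENNReal.ofReal_le_ofReal_iff (mul_nonneg hK hℓ)).1 h8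

/-- A function with gradient at most `K` on a ball is `K`-Lipschitz from the centre. -/
lemma abs_sub_le_of_mfderiv_le {f : M → ℝ} {x : M} {R K : ℝ} (hK : 0 ≤ K)
    (hf : ∀ z ∈ Metric.ball x R, ContMDiffAt 𝓘(ℝ, E) 𝓘(ℝ, ℝ) 1 f z)
    (hd : ∀ z ∈ Metric.ball x R, ∀ w : TangentSpace 𝓘(ℝ, E) z,
      |dfun f z w| ≤ K * ‖w‖) {y : M} (hy : y ∈ Metric.ball x R) :
    |f y - f x| ≤ K * dist x y := by
  have hy' : dist x y < R := by rwa [dist_comm, ← Metric.mem_ball]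
  have key : ∀ η : ℝ, 0 < η → dist x y + η < R → |f y - f x| ≤ K * (dist x y + η) := by
    intro η hη hR
    have hpos : 0 < dist x y + η := by positivity
    have h1 : riemannianEDist 𝓘(ℝ, E) x y < ENNReal.ofReal (dist x y + η) := by
      rw [← IsRiemannianManifold.out (I := 𝓘(ℝ, E)) x y, edist_dist,
        ENNReal.ofReal_lt_ofReal_iff hpos]
      linarith
    obtain ⟨γ, hγ0, hγ1, hγ, hl, -, -⟩ :=
      exists_lt_locally_constant_of_riemannianEDist_lt h1 (zero_lt_one (α := ℝ))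
    have hball : ∀ t ∈ Icc (0 : ℝ) 1, γ t ∈ Metric.ball x R := by
      intro t ht
      have h2 : riemannianEDist 𝓘(ℝ, E) x (γ t) ≤ pathELength 𝓘(ℝ, E) γ 0 t :=
        riemannianEDist_le_pathELength hγ.contMDiffOn hγ0 rfl ht.1
      have h3 : pathELength 𝓘(ℝ, E) γ 0 t ≤ pathELength 𝓘(ℝ, E) γ 0 1 :=
        pathELength_mono le_rfl ht.2
      have h4 := (h2.trans h3).trans_lt hl
      rw [← IsRiemannianManifold.out (I := 𝓘(ℝ, E)) x (γ t), edist_dist,
        ENNReal.ofReal_lt_ofReal_iff hpos] at h4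
      rw [Metric.mem_ball, dist_comm]
      linarith only [hR, h4]
    have h5 := exDist_curve (f := f) hK hpos.le hγ (fun t ht => hf _ (hball t ht))
      (fun t ht => hd _ (hball t ht)) hl.le
    rwa [hγ0, hγ1] at h5
  refine le_of_forall_pos_le_add (fun ε hε => ?_)
  set η : ℝ := min (ε / (K + 1)) ((R - dist x y) / 2) with hη
  have hη0 : 0 < η := by
    rw [hη]
    refine lt_min (by positivity) (by linarith)
  have hηR : dist x y + η < R := by
    have : η ≤ (R - dist x y) / 2 := min_le_right _ _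
    linarith only [hη0, this]
  have hηε : K * η ≤ ε := by
    have h6 : η ≤ ε / (K + 1) := min_le_left _ _
    have h7 : (K + 1) * η ≤ ε := by
      calc (K + 1) * η ≤ (K + 1) * (ε / (K + 1)) := by gcongr
        _ = ε := by field_simp
    nlinarith only [hη0, h7]
  have := key η hη0 hηR
  linarith only [this, hηε]

set_option backward.isDefEq.respectTransparency false in
/-- The differential of `√(N + d²)`. -/
lemma exDist_dfun_sqrt {N : M → ℝ} {z : M} {d : ℝ} (hd : 0 < d) (hN : 0 ≤ N z)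
    (hf : ContMDiffAt 𝓘(ℝ, E) 𝓘(ℝ, ℝ) 1 N z) (w : TangentSpace 𝓘(ℝ, E) z) :
    ContMDiffAt 𝓘(ℝ, E) 𝓘(ℝ, ℝ) 1 (fun z => Real.sqrt (N z + d ^ 2)) z ∧
      dfun (fun z => Real.sqrt (N z + d ^ 2)) z w =
        dfun N z w / (2 * Real.sqrt (N z + d ^ 2)) := by
  have hpos : 0 < N z + d ^ 2 := by positivity
  have h1 : ContDiffAt ℝ 1 (fun s : ℝ => Real.sqrt (s + d ^ 2)) (N z) :=
    (contDiffAt_id.add contDiffAt_const).sqrt hpos.ne'
  have h2 : HasDerivAt (fun s : ℝ => Real.sqrt (s + d ^ 2))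
      (1 / (2 * Real.sqrt (N z + d ^ 2))) (N z) :=
    ((hasDerivAt_id (N z)).add_const _).sqrt hpos.ne'
  refine ⟨h1.contMDiffAt.comp z hf, ?_⟩
  have h3 : HasMFDerivAt 𝓘(ℝ, E) 𝓘(ℝ, ℝ) N z (mfderiv 𝓘(ℝ, E) 𝓘(ℝ, ℝ) N z) :=
    (hf.mdifferentiableAt one_ne_zero).hasMFDerivAt
  have h4 := (h2.hasFDerivAt.hasMFDerivAt.comp z h3).mfderiv
  have h5 : dfun (fun z => Real.sqrt (N z + d ^ 2)) z w =
      dfun N z w • (1 / (2 * Real.sqrt (N z + d ^ 2))) := by
    have h6 := DFunLike.congr_fun h4 w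
    exact h6
  rw [h5, smul_eq_mul, mul_one_div]

/-- Lower bound of the distance by the length of a logarithm: `N` is the squared length. -/
lemma sqrt_le_dist_of_eikonal {N : M → ℝ} {x : M} {R : ℝ} (hx : N x = 0)
    (hN : ∀ z ∈ Metric.ball x R, 0 ≤ N z)
    (hf : ∀ z ∈ Metric.ball x R, ContMDiffAt 𝓘(ℝ, E) 𝓘(ℝ, ℝ) 1 N z)
    (hd : ∀ z ∈ Metric.ball x R, ∀ w : TangentSpace 𝓘(ℝ, E) z,
      (dfun N z w) ^ 2 ≤ 4 * N z * ‖w‖ ^ 2) {y : M}
    (hy : y ∈ Metric.ball x R) :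
    Real.sqrt (N y) ≤ dist x y := by
  refine le_of_forall_pos_le_add (fun d hd0 => ?_)
  have key := abs_sub_le_of_mfderiv_le (f := fun z => Real.sqrt (N z + d ^ 2)) (x := x) (R := R)
    (K := 1) zero_le_one
    (fun z hz => (exDist_dfun_sqrt hd0 (hN z hz) (hf z hz) 0).1) (fun z hz w => by
      rw [(exDist_dfun_sqrt hd0 (hN z hz) (hf z hz) w).2]
      have hpos : 0 < N z + d ^ 2 := by have := hN z hz; positivity
      have hs : 0 < Real.sqrt (N z + d ^ 2) := Real.sqrt_pos.2 hpos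
      rw [abs_div, abs_of_pos (by (clear * - hpos; positivity) : (0 : ℝ) < 2 * Real.sqrt (N z + d ^ 2)),
        div_le_iff₀ (by positivity)]
      refine abs_le_of_sq_le_sq ?_ (by (clear * - hpos; positivity))
      have h1 := hd z hz w
      have h2 : (1 * ‖w‖ * (2 * Real.sqrt (N z + d ^ 2))) ^ 2 =
          4 * (N z + d ^ 2) * ‖w‖ ^ 2 := by
        have h3 := Real.sq_sqrt hpos.le
        linear_combination (4 * ‖w‖ ^ 2) * h3
      rw [h2]
      nlinarith only [h1]) hy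
  simp only [hx, zero_add, one_mul] at key
  rw [Real.sqrt_sq hd0.le] at key
  have h6 : Real.sqrt (N y) ≤ Real.sqrt (N y + d ^ 2) := Real.sqrt_le_sqrt (by nlinarith only [])
  have h7 := (abs_le.1 key).2
  linarith

end

end Vale.Agent.P234
end
end

section

section

/-! Local exponential map on the manifold: distances. -/

set_option maxSynthPendingDepth 3
set_option linter.unusedSectionVars false

open Bundle Manifold Set Filter
open scoped ContDiff Manifold Topology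

namespace Vale.Agent.P234

noncomputable section

variable {E : Type*} [NormedAddCommGroup E] [NormedSpace ℝ E] [FiniteDimensional ℝ E]
  {M : Type*} [MetricSpace M] [ChartedSpace E M]
  [RiemannianBundle (fun x : M => TangentSpace 𝓘(ℝ, E) x)]
  [IsManifold 𝓘(ℝ, E) ∞ M]
  [IsContMDiffRiemannianBundle 𝓘(ℝ, E) ∞ E (fun x : M => TangentSpace 𝓘(ℝ, E) x)]
  [IsRiemannianManifold 𝓘(ℝ, E) M]
  {x₀ : M} {G : E → E →L[ℝ] E →L[ℝ] ℝ} {X L : E × E → E}

set_option backward.isDefEq.respectTransparency false in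
lemma ExLocB_norm_dch {c : E}
    (hG : ∀ c ∈ (extChartAt 𝓘(ℝ, E) x₀).target, ∀ a b : E,
      G c a b = inner ℝ (dch x₀ c a) (dch x₀ c b))
    (hc : c ∈ (extChartAt 𝓘(ℝ, E) x₀).target) (a : E) :
    ‖dch x₀ c a‖ ^ 2 = G c a a := by
  rw [hG c hc, real_inner_self_eq_norm_sq]

lemma ExLocB_symm_contMDiffAt {c : E} (hc : c ∈ (extChartAt 𝓘(ℝ, E) x₀).target) :
    ContMDiffAt 𝓘(ℝ, E) 𝓘(ℝ, E) ∞ (extChartAt 𝓘(ℝ, E) x₀).symm c := by
  have h1 := contMDiffOn_extChartAt_symm (I := 𝓘(ℝ, E)) (n := ∞) x₀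
  exact h1.contMDiffAt ((isOpen_extChartAt_target x₀).mem_nhds hc)

set_option backward.isDefEq.respectTransparency false in
/-- Upper bound along one ray. -/
lemma ExLocB_ray_aux {x : M} (hx : x ∈ (extChartAt 𝓘(ℝ, E) x₀).source)
    (hG : ∀ c ∈ (extChartAt 𝓘(ℝ, E) x₀).target, ∀ a b : E,
      G c a b = inner ℝ (dch x₀ c a) (dch x₀ c b))
    (v : TangentSpace 𝓘(ℝ, E) x)
    (h1 : ∀ r ∈ Icc (0 : ℝ) 1,
      ContDiffAt ℝ ∞ X (extChartAt 𝓘(ℝ, E) x₀ x, r • crd x₀ x v))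
    (h2 : ∀ r ∈ Icc (0 : ℝ) 1,
      X (extChartAt 𝓘(ℝ, E) x₀ x, r • crd x₀ x v) ∈ (extChartAt 𝓘(ℝ, E) x₀).target)
    (h3 : ∀ t ∈ Icc (0 : ℝ) 1,
      G (X (extChartAt 𝓘(ℝ, E) x₀ x, t • crd x₀ x v))
        (deriv (fun s : ℝ => X (extChartAt 𝓘(ℝ, E) x₀ x, s • crd x₀ x v)) t)
        (deriv (fun s : ℝ => X (extChartAt 𝓘(ℝ, E) x₀ x, s • crd x₀ x v)) t) =
        G (extChartAt 𝓘(ℝ, E) x₀ x) (crd x₀ x v) (crd x₀ x v))
    {s t : ℝ} (hs : s ∈ Icc (0 : ℝ) 1) (ht : t ∈ Icc (0 : ℝ) 1) (hst : s ≤ t) :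
    dist (locE x₀ X x (s • v)) (locE x₀ X x (t • v)) ≤ (t - s) * ‖v‖ := by
  set c := extChartAt 𝓘(ℝ, E) x₀ x with hc
  set a := crd x₀ x v with ha
  set q : ℝ → E := fun r => X (c, r • a) with hq
  have hloc : ∀ r : ℝ, locE x₀ X x (r • v) = (extChartAt 𝓘(ℝ, E) x₀).symm (q r) := by
    intro r
    unfold locE
    rw [map_smul]
  have hqd : ∀ r ∈ Icc (0 : ℝ) 1, ContDiffAt ℝ ∞ q r := by
    intro r hr
    have e1 : ContDiffAt ℝ ∞ (fun r : ℝ => ((c, r • a) : E × E)) r :=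
      contDiffAt_const.prodMk (contDiffAt_id.smul contDiffAt_const)
    exact (h1 r hr).comp r e1
  have hsub : ∀ r ∈ Icc s t, r ∈ Icc (0 : ℝ) 1 := fun r hr => ⟨hs.1.trans hr.1, hr.2.trans ht.2⟩
  rw [hloc, hloc, mul_comm]
  refine dist_le_of_speed (E := E) (c := fun r => (extChartAt 𝓘(ℝ, E) x₀).symm (q r)) hst
    (norm_nonneg v) (fun r hr => ?_) (fun r hr => ?_)
  · have e1 := (ExLocB_symm_contMDiffAt (h2 r (hsub r hr))).comp r
      ((hqd r (hsub r hr)).contMDiffAt)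
    exact e1.of_le (by simp only [WithTop.one_le_coe, le_top])
  · have hd : DifferentiableAt ℝ q r := (hqd r (hsub r hr)).differentiableAt (by simp)
    rw [mfderiv_curve_chart x₀ (h2 r (hsub r hr)) hd]
    have e1 : ‖dch x₀ (q r) (deriv q r)‖ ^ 2 = ‖v‖ ^ 2 := by
      rw [ExLocB_norm_dch hG (h2 r (hsub r hr)), h3 r (hsub r hr), ← norm_sq_vec x₀ hG hx,
        vec_crd x₀ hx]
    exact ((pow_left_inj₀ (norm_nonneg _) (norm_nonneg _) two_ne_zero).1 e1).le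

/-- Upper bound of distances along rays. -/
lemma FlatData.dist_ray_le (h : FlatData x₀ G X L) :
    ∀ᶠ p in 𝓝 (⟨x₀, 0⟩ : TangentBundle 𝓘(ℝ, E) M), ∀ s ∈ Icc (0 : ℝ) 1, ∀ t ∈ Icc (0 : ℝ) 1,
      dist (locE x₀ X p.proj (s • p.snd)) (locE x₀ X p.proj (t • p.snd)) ≤ |t - s| * ‖p.snd‖ := by
  have hsrc : ∀ᶠ p in 𝓝 (⟨x₀, 0⟩ : TangentBundle 𝓘(ℝ, E) M),
      p.proj ∈ (extChartAt 𝓘(ℝ, E) x₀).source := by
    have h1 : Tendsto (fun p : TangentBundle 𝓘(ℝ, E) M => p.proj)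
        (𝓝 (⟨x₀, 0⟩ : TangentBundle 𝓘(ℝ, E) M)) (𝓝 x₀) :=
      (FiberBundle.continuous_proj E (TangentSpace 𝓘(ℝ, E))).tendsto _
    exact h1.eventually (extChartAt_source_mem_nhds x₀)
  filter_upwards [hsrc, (tendsto_tchart_zero x₀).eventually (eventually_ray h.smoothX),
    (tendsto_tchart_zero x₀).eventually (eventually_ray h.memX),
    (tendsto_tchart_zero x₀).eventually h.speedX] with p hp h1 h2 h3 s hs t ht
  rcases le_total s t with hst | hst
  · rw [abs_of_nonneg (sub_nonneg.2 hst)]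
    exact ExLocB_ray_aux hp h.metric p.snd h1 h2 h3 hs ht hst
  · rw [abs_sub_comm, abs_of_nonneg (sub_nonneg.2 hst), dist_comm]
    exact ExLocB_ray_aux hp h.metric p.snd h1 h2 h3 ht hs hst

set_option backward.isDefEq.respectTransparency false in
/-- Lower bound, one base point. -/
lemma ExLocB_log_aux {x : M} {R : ℝ}
    (hG : ∀ c ∈ (extChartAt 𝓘(ℝ, E) x₀).target, ∀ a b : E,
      G c a b = inner ℝ (dch x₀ c a) (dch x₀ c b))
    (hx : x ∈ (extChartAt 𝓘(ℝ, E) x₀).source)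
    (h0 : L (extChartAt 𝓘(ℝ, E) x₀ x, extChartAt 𝓘(ℝ, E) x₀ x) = 0)
    (hsrc : ∀ z ∈ Metric.ball x R, z ∈ (extChartAt 𝓘(ℝ, E) x₀).source)
    (hL : ∀ z ∈ Metric.ball x R,
      ContDiffAt ℝ ∞ L (extChartAt 𝓘(ℝ, E) x₀ x, extChartAt 𝓘(ℝ, E) x₀ z))
    (he : ∀ z ∈ Metric.ball x R, ∀ ζ : E,
      (fderiv ℝ (fun c : E => G (extChartAt 𝓘(ℝ, E) x₀ x) (L (extChartAt 𝓘(ℝ, E) x₀ x, c))
        (L (extChartAt 𝓘(ℝ, E) x₀ x, c))) (extChartAt 𝓘(ℝ, E) x₀ z) ζ) ^ 2 ≤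
      4 * G (extChartAt 𝓘(ℝ, E) x₀ x)
        (L (extChartAt 𝓘(ℝ, E) x₀ x, extChartAt 𝓘(ℝ, E) x₀ z))
        (L (extChartAt 𝓘(ℝ, E) x₀ x, extChartAt 𝓘(ℝ, E) x₀ z)) *
        G (extChartAt 𝓘(ℝ, E) x₀ z) ζ ζ)
    {y : M} (hy : y ∈ Metric.ball x R) : ‖locL x₀ L x y‖ ≤ dist x y := by
  set φ := extChartAt 𝓘(ℝ, E) x₀ with hφ
  set f : E → ℝ := fun c => G (φ x) (L (φ x, c)) (L (φ x, c)) with hf
  set N : M → ℝ := fun z => f (φ z) with hN
  have hNval : ∀ z, N z = ‖locL x₀ L x z‖ ^ 2 := fun z => by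
    simp only [hN, hf, locL]
    rw [norm_sq_vec x₀ hG hx]
  have hfd : ∀ z ∈ Metric.ball x R, ContDiffAt ℝ ∞ f (φ z) := by
    intro z hz
    have e1 : ContDiffAt ℝ ∞ (fun c : E => L (φ x, c)) (φ z) :=
      (hL z hz).comp (φ z) (contDiffAt_const.prodMk contDiffAt_id)
    have e2 : ContDiffAt ℝ ∞ (fun c : E => G (φ x) (L (φ x, c))) (φ z) :=
      (G (φ x)).contDiff.contDiffAt.comp (φ z) e1
    exact e2.clm_apply e1
  have hNd : ∀ z ∈ Metric.ball x R, ContMDiffAt 𝓘(ℝ, E) 𝓘(ℝ, ℝ) ∞ N z := by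
    intro z hz
    have e1 : ContMDiffAt 𝓘(ℝ, E) 𝓘(ℝ, E) ∞ φ z :=
      contMDiffAt_extChartAt' (by
        have := hsrc z hz
        rwa [hφ, extChartAt_source] at this)
    exact (hfd z hz).contMDiffAt.comp z e1
  have hmain := sqrt_le_dist_of_eikonal (N := N) (x := x) (R := R)
    (by simp only [hN, hf]; rw [h0]; simp) (fun z _ => by rw [hNval]; positivity)
    (fun z hz => (hNd z hz).of_le (by simp only [WithTop.one_le_coe, le_top])) (fun z hz w => ?_) hy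
  · rw [hNval, Real.sqrt_sq (norm_nonneg _)] at hmain
    exact hmain
  · -- the differential inequality
    have hzs := hsrc z hz
    obtain ⟨c, hc, rfl⟩ : ∃ c ∈ φ.target, z = φ.symm c :=
      ⟨φ z, φ.map_source hzs, (φ.left_inv hzs).symm⟩
    obtain ⟨ζ, rfl⟩ := dch_surjective x₀ hc w
    have hcc : φ (φ.symm c) = c := φ.right_inv hc
    rw [mfderiv_fun_chart x₀ hc ((hNd _ hz).mdifferentiableAt (by simp))]
    have e1 : (fun c' : E => N (φ.symm c')) =ᶠ[𝓝 c] f := by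
      filter_upwards [(isOpen_extChartAt_target x₀).mem_nhds hc] with c' hc'
      simp only [hN]
      rw [φ.right_inv hc']
    rw [e1.fderiv_eq]
    have e2 := he _ hz ζ
    rw [hcc] at e2
    have e3 : N (φ.symm c) = f c := by simp only [hN]; rw [hcc]
    rw [e3, ExLocB_norm_dch hG hc]
    exact e2

/-- Lower bound of the distance by the norm of the logarithm. -/
lemma FlatData.norm_log_le (h : FlatData x₀ G X L) :
    ∀ᶠ q in 𝓝 ((x₀, x₀) : M × M), ‖locL x₀ L q.1 q.2‖ ≤ dist q.1 q.2 := by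
  set φ := extChartAt 𝓘(ℝ, E) x₀ with hφ
  have hφc : ContinuousAt φ x₀ := continuousAt_extChartAt x₀
  have hpair : Tendsto (fun q : M × M => ((φ q.1, φ q.2) : E × E)) (𝓝 (x₀, x₀))
      (𝓝 (φ x₀, φ x₀)) := by
    have e1 : Tendsto (fun q : M × M => φ q.1) (𝓝 (x₀, x₀)) (𝓝 (φ x₀)) :=
      hφc.tendsto.comp (continuous_fst.tendsto (x₀, x₀))
    have e2 : Tendsto (fun q : M × M => φ q.2) (𝓝 (x₀, x₀)) (𝓝 (φ x₀)) :=
      hφc.tendsto.comp (continuous_snd.tendsto (x₀, x₀))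
    exact e1.prodMk_nhds e2
  have hL0 : ∀ᶠ c in 𝓝 (φ x₀), L (c, c) = 0 := by
    have e1 : Tendsto (fun c : E => ((c, 0) : E × E)) (𝓝 (φ x₀)) (𝓝 (φ x₀, 0)) :=
      tendsto_id.prodMk_nhds tendsto_const_nhds
    filter_upwards [e1.eventually h.logX, h.zeroX] with c h1 h2
    rw [h2] at h1
    exact h1
  have hall : ∀ᶠ q in 𝓝 ((x₀, x₀) : M × M), q.1 ∈ φ.source ∧ q.2 ∈ φ.source ∧
      L (φ q.1, φ q.1) = 0 ∧ ContDiffAt ℝ ∞ L (φ q.1, φ q.2) ∧
      ∀ ζ : E, (fderiv ℝ (fun c : E => G (φ q.1) (L (φ q.1, c)) (L (φ q.1, c))) (φ q.2) ζ) ^ 2 ≤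
        4 * G (φ q.1) (L (φ q.1, φ q.2)) (L (φ q.1, φ q.2)) * G (φ q.2) ζ ζ := by
    have s1 : ∀ᶠ q in 𝓝 ((x₀, x₀) : M × M), q.1 ∈ φ.source :=
      (continuous_fst.tendsto (x₀, x₀)).eventually (extChartAt_source_mem_nhds x₀)
    have s2 : ∀ᶠ q in 𝓝 ((x₀, x₀) : M × M), q.2 ∈ φ.source :=
      (continuous_snd.tendsto (x₀, x₀)).eventually (extChartAt_source_mem_nhds x₀)
    have s3 : ∀ᶠ q in 𝓝 ((x₀, x₀) : M × M), L (φ q.1, φ q.1) = 0 :=
      (hφc.tendsto.comp (continuous_fst.tendsto (x₀, x₀))).eventually hL0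
    filter_upwards [s1, s2, s3, hpair.eventually h.smoothL, hpair.eventually h.eikonal]
      with q h1 h2 h3 h4 h5
    exact ⟨h1, h2, h3, h4, h5⟩
  obtain ⟨R, hR, hball⟩ := Metric.eventually_nhds_iff_ball.1 hall
  have hmem : ∀ x z : M, dist x x₀ < R → dist z x₀ < R → (x, z) ∈ Metric.ball ((x₀, x₀) : M × M) R :=
    fun x z hx hz => by
      rw [Metric.mem_ball, Prod.dist_eq]
      exact max_lt hx hz
  refine Metric.eventually_nhds_iff_ball.2 ⟨R / 4, by linarith only [hR], fun q hq => ?_⟩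
  rw [Metric.mem_ball, Prod.dist_eq, max_lt_iff] at hq
  obtain ⟨hq1, hq2⟩ := hq
  have hx1 : dist q.1 x₀ < R := by have := hq1; simp only at this; linarith only [hR, hq1]
  have hz : ∀ z ∈ Metric.ball q.1 (R / 2), dist z x₀ < R := by
    intro z hz
    have e1 := dist_triangle z q.1 x₀
    have e2 := Metric.mem_ball.1 hz
    simp only at hq1
    linarith only [hR, hq1, e1, e2]
  refine ExLocB_log_aux (R := R / 2) h.metric (hball _ (hmem q.1 q.1 hx1 hx1)).1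
    (hball _ (hmem q.1 q.1 hx1 hx1)).2.2.1
    (fun z hzb => (hball _ (hmem q.1 z hx1 (hz z hzb))).2.1)
    (fun z hzb => (hball _ (hmem q.1 z hx1 (hz z hzb))).2.2.2.1)
    (fun z hzb => (hball _ (hmem q.1 z hx1 (hz z hzb))).2.2.2.2) ?_
  rw [Metric.mem_ball]
  have e1 := dist_triangle q.2 x₀ q.1
  rw [dist_comm x₀ q.1] at e1
  simp only at hq1 hq2
  linarith only [hq1, hq2, e1]

end

end Vale.Agent.P234
end
end

section

section

/-! Existence of local exponential maps. -/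

set_option maxSynthPendingDepth 3
set_option linter.unusedSectionVars false

open Bundle Manifold Set Filter
open scoped ContDiff Manifold Topology

namespace Vale.Agent.P234

noncomputable section

variable {E : Type*} [NormedAddCommGroup E] [NormedSpace ℝ E] [FiniteDimensional ℝ E]
  {M : Type*} [MetricSpace M] [ChartedSpace E M]
  [RiemannianBundle (fun x : M => TangentSpace 𝓘(ℝ, E) x)]
  [IsManifold 𝓘(ℝ, E) ∞ M]
  [IsContMDiffRiemannianBundle 𝓘(ℝ, E) ∞ E (fun x : M => TangentSpace 𝓘(ℝ, E) x)]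

set_option backward.isDefEq.respectTransparency false in
/-- Existence of the data in the chart. -/
theorem exists_flatData (x₀ : M) : ∃ G : E → E →L[ℝ] E →L[ℝ] ℝ, ∃ X L : E × E → E,
    FlatData x₀ G X L := by
  obtain ⟨G, hGs, hG⟩ := exists_chart_metric (E := E) x₀
  obtain ⟨X, L, h1, h2, h3, h4, h5, h6, h7, h8, h9, h10⟩ :=
    exists_flat (isOpen_extChartAt_target (I := 𝓘(ℝ, E)) x₀) hGs
      (fun c hc a b => by rw [hG c hc, hG c hc, real_inner_comm])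
      (fun c hc a ha => by
        rw [hG c hc, real_inner_self_eq_norm_sq]
        have h0 : dch x₀ c a ≠ 0 := fun h0 => ha (dch_injective x₀ hc (by rw [h0, map_zero]))
        have := norm_pos_iff.2 h0
        positivity)
      (mem_extChartAt_target x₀)
  exact ⟨G, X, L, ⟨hGs, hG, h1, h2, h3, h4, h5, h6, h7, h8, h9, h10⟩⟩

variable [IsRiemannianManifold 𝓘(ℝ, E) M]

set_option backward.isDefEq.respectTransparency false in
lemma ExLocal_tendsto_log {x₀ : M} {G : E → E →L[ℝ] E →L[ℝ] ℝ} {X L : E × E → E}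
    (h : FlatData x₀ G X L) : Tendsto (fun q : M × M =>
      (⟨q.1, locL x₀ L q.1 q.2⟩ : TangentBundle 𝓘(ℝ, E) M)) (𝓝 (x₀, x₀))
      (𝓝 (⟨x₀, 0⟩ : TangentBundle 𝓘(ℝ, E) M)) := by
  have h1 := h.smooth_locL.self_of_nhds.continuousAt.tendsto
  have h2 : locL x₀ L x₀ x₀ = (0 : TangentSpace 𝓘(ℝ, E) x₀) := by
    unfold locL
    rw [h.centerL, map_zero]
  simp only [h2] at h1
  exact h1

set_option backward.isDefEq.respectTransparency false in
lemma ExLocal_tendsto_exp {x₀ : M} {G : E → E →L[ℝ] E →L[ℝ] ℝ} {X L : E × E → E}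
    (h : FlatData x₀ G X L) : Tendsto (fun p : TangentBundle 𝓘(ℝ, E) M =>
      ((p.proj, locE x₀ X p.proj p.snd) : M × M)) (𝓝 (⟨x₀, 0⟩ : TangentBundle 𝓘(ℝ, E) M))
      (𝓝 (x₀, x₀)) := by
  have h1 := h.smooth_locE.self_of_nhds.continuousAt.tendsto
  have h2 : locE x₀ X x₀ (0 : TangentSpace 𝓘(ℝ, E) x₀) = x₀ := h.locE_zero.self_of_nhds
  simp only [h2] at h1
  have h3 : Tendsto (fun p : TangentBundle 𝓘(ℝ, E) M => p.proj)
      (𝓝 (⟨x₀, 0⟩ : TangentBundle 𝓘(ℝ, E) M)) (𝓝 x₀) :=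
    (FiberBundle.continuous_proj E (TangentSpace 𝓘(ℝ, E))).tendsto _
  exact h3.prodMk_nhds h1

set_option backward.isDefEq.respectTransparency false in
lemma ExLocal_norm_log {x₀ : M} {G : E → E →L[ℝ] E →L[ℝ] ℝ} {X L : E × E → E}
    (h : FlatData x₀ G X L) :
    ∀ᶠ q in 𝓝 ((x₀, x₀) : M × M), ‖locL x₀ L q.1 q.2‖ = dist q.1 q.2 := by
  have h1 := (ExLocal_tendsto_log h).eventually h.dist_ray_le
  have h2 : ∀ᶠ q in 𝓝 ((x₀, x₀) : M × M),
      locE x₀ X q.1 (0 : TangentSpace 𝓘(ℝ, E) q.1) = q.1 :=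
    (continuous_fst.tendsto (x₀, x₀)).eventually h.locE_zero
  filter_upwards [h1, h2, h.exp_log, h.norm_log_le] with q q1 q2 q3 q4
  refine le_antisymm q4 ?_
  have q5 := q1 0 ⟨le_rfl, zero_le_one⟩ 1 ⟨zero_le_one, le_rfl⟩
  simp only [zero_smul, one_smul] at q5
  rw [q2, q3] at q5
  simpa only [ge_iff_le, sub_zero, abs_one, one_mul] using q5

/-- The data in the chart give a local exponential map. -/
theorem FlatData.isLocExp {x₀ : M} {G : E → E →L[ℝ] E →L[ℝ] ℝ} {X L : E × E → E}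
    (h : FlatData x₀ G X L) : IsLocExp (E := E) x₀ (locE x₀ X) (locL x₀ L) := by
  refine ⟨h.smooth_locE, h.smooth_locL, h.exp_log, ExLocal_norm_log h, h.log_exp, ?_, h.velocity⟩
  have h1 := (ExLocal_tendsto_exp h).eventually (ExLocal_norm_log h)
  have h2 := eventually_ray_bundle (h1.and h.log_exp)
  filter_upwards [h2, h.dist_ray_le] with p p1 p2 s hs t ht
  refine le_antisymm (p2 s hs t ht) ?_
  have key : ∀ r ∈ Icc (0 : ℝ) 1, dist p.proj (locE x₀ X p.proj (r • p.snd)) = r * ‖p.snd‖ := by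
    intro r hr
    obtain ⟨q1, q2⟩ := p1 r hr
    rw [q2] at q1
    rw [← q1, norm_smul, Real.norm_of_nonneg hr.1]
  have k1 := key s hs
  have k2 := key t ht
  have t1 := dist_triangle p.proj (locE x₀ X p.proj (s • p.snd)) (locE x₀ X p.proj (t • p.snd))
  have t2 := dist_triangle p.proj (locE x₀ X p.proj (t • p.snd)) (locE x₀ X p.proj (s • p.snd))
  rw [dist_comm (locE x₀ X p.proj (t • p.snd))] at t2
  rw [k1, k2] at t1 t2
  rcases le_total s t with hst | hst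
  · rw [abs_of_nonneg (sub_nonneg.2 hst), sub_mul]; linarith
  · rw [abs_sub_comm, abs_of_nonneg (sub_nonneg.2 hst), sub_mul]; (clear G L h h1 h2 p1 p2 hs ht key k1 k2 t1 hst; linarith)

/-- Existence of local exponential maps. -/
theorem exists_isLocExp (x₀ : M) : ∃ (e₁ : ∀ x : M, TangentSpace 𝓘(ℝ, E) x → M)
    (L₁ : ∀ x : M, M → TangentSpace 𝓘(ℝ, E) x), IsLocExp x₀ e₁ L₁ := by
  obtain ⟨G, X, L, h⟩ := exists_flatData (E := E) x₀
  exact ⟨locE x₀ X, locL x₀ L, h.isLocExp⟩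

end

end Vale.Agent.P234
end
end

section

section

/-! Chains of points on a geodesic, built from a near exponential map. -/

set_option maxSynthPendingDepth 3
set_option linter.unusedSectionVars false

open Bundle Manifold Set Filter
open scoped ContDiff Manifold Topology

namespace Vale.Agent.P234

noncomputable section

variable {E : Type*} [NormedAddCommGroup E] [NormedSpace ℝ E] [FiniteDimensional ℝ E]
  {M : Type*} [MetricSpace M] [ChartedSpace E M]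
  [RiemannianBundle (fun x : M => TangentSpace 𝓘(ℝ, E) x)]
  [IsManifold 𝓘(ℝ, E) ∞ M]
  [IsContMDiffRiemannianBundle 𝓘(ℝ, E) ∞ E (fun x : M => TangentSpace 𝓘(ℝ, E) x)]
  {ε : ℝ} {e₀ : ∀ x : M, TangentSpace 𝓘(ℝ, E) x → M}
  {L : ∀ x : M, M → TangentSpace 𝓘(ℝ, E) x}

/-- The point opposite to `a` with respect to `b`. -/
def opp (e₀ : ∀ x : M, TangentSpace 𝓘(ℝ, E) x → M) (L : ∀ x : M, M → TangentSpace 𝓘(ℝ, E) x)
    (a b : M) : M := e₀ b (-(L b a))

/-- One step of a geodesic chain. -/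
def stp (e₀ : ∀ x : M, TangentSpace 𝓘(ℝ, E) x → M) (L : ∀ x : M, M → TangentSpace 𝓘(ℝ, E) x)
    (p : M × M) : M × M := (p.2, opp e₀ L p.1 p.2)

/-- The geodesic chain with first point `x` and second point `e₀ x v`. -/
def chn (e₀ : ∀ x : M, TangentSpace 𝓘(ℝ, E) x → M) (L : ∀ x : M, M → TangentSpace 𝓘(ℝ, E) x)
    (x : M) (v : TangentSpace 𝓘(ℝ, E) x) (k : ℕ) : M := ((stp e₀ L)^[k] (x, e₀ x v)).1

lemma chn_zero (x : M) (v : TangentSpace 𝓘(ℝ, E) x) : chn e₀ L x v 0 = x := rfl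

lemma ExChain_iterate_snd (x : M) (v : TangentSpace 𝓘(ℝ, E) x) (k : ℕ) :
    ((stp e₀ L)^[k] (x, e₀ x v)).2 = chn e₀ L x v (k + 1) := by
  rw [chn, Function.iterate_succ_apply']
  rfl

lemma ExChain_iterate (x : M) (v : TangentSpace 𝓘(ℝ, E) x) (k : ℕ) :
    (stp e₀ L)^[k] (x, e₀ x v) = (chn e₀ L x v k, chn e₀ L x v (k + 1)) :=
  Prod.ext rfl (ExChain_iterate_snd x v k)

lemma chn_one (x : M) (v : TangentSpace 𝓘(ℝ, E) x) : chn e₀ L x v 1 = e₀ x v := rfl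

lemma chn_add_two (x : M) (v : TangentSpace 𝓘(ℝ, E) x) (k : ℕ) :
    chn e₀ L x v (k + 2) = opp e₀ L (chn e₀ L x v k) (chn e₀ L x v (k + 1)) := by
  rw [← ExChain_iterate_snd, Function.iterate_succ_apply', ExChain_iterate]
  rfl

/-- Scaling in the tangent bundle is smooth. -/
lemma ExChain_contMDiffAt_smul {E' H' N : Type*} [NormedAddCommGroup E'] [NormedSpace ℝ E']
    [TopologicalSpace H'] {I' : ModelWithCorners ℝ E' H'} [TopologicalSpace N] [ChartedSpace H' N]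
    {f : N → TangentBundle 𝓘(ℝ, E) M} {q : N} (c : ℝ)
    (hf : ContMDiffAt I' 𝓘(ℝ, E).tangent ∞ f q) :
    ContMDiffAt I' 𝓘(ℝ, E).tangent ∞
      (fun y => (⟨(f y).proj, c • (f y).snd⟩ : TangentBundle 𝓘(ℝ, E) M)) q := by
  rw [Bundle.contMDiffAt_totalSpace] at hf ⊢
  refine ⟨hf.1, ?_⟩
  have hz : ∀ᶠ y in 𝓝 q, (f y).proj ∈
      (trivializationAt E (TangentSpace 𝓘(ℝ, E)) (f q).proj).baseSet :=
    hf.1.continuousAt.eventually_mem
      ((Trivialization.open_baseSet _).mem_nhds (FiberBundle.mem_baseSet_trivializationAt' _))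
  have h2 : ContMDiffAt I' 𝓘(ℝ, E) ∞ (fun y =>
      c • (trivializationAt E (TangentSpace 𝓘(ℝ, E)) (f q).proj (f y)).2) q := by
    have h3 : ContMDiffAt 𝓘(ℝ, E) 𝓘(ℝ, E) ∞ (fun y : E => c • y)
        ((trivializationAt E (TangentSpace 𝓘(ℝ, E)) (f q).proj (f q)).2) :=
      (contDiff_const_smul c).contMDiff.contMDiffAt
    exact ContMDiffAt.comp q h3 hf.2
  refine h2.congr_of_eventuallyEq ?_
  filter_upwards [hz] with y hy
  have h3 := (trivializationAt E (TangentSpace 𝓘(ℝ, E)) (f q).proj).linear ℝ hy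
  exact h3.map_smul c (f y).snd

namespace NearExp

lemma ExChain_self (h : NearExp ε e₀ L) (x : M) : dist x x < ε := by
  rw [dist_self]; exact h.pos

lemma log_self (h : NearExp ε e₀ L) (x : M) : L x x = 0 := by
  have h1 := h.norm_log x x (h.ExChain_self x)
  rw [dist_self] at h1
  exact norm_eq_zero.1 h1

lemma exp_zero (h : NearExp ε e₀ L) (x : M) : e₀ x 0 = x := by
  have h1 := h.exp_log x x (h.ExChain_self x)
  rwa [h.log_self] at h1

lemma dist_exp (h : NearExp ε e₀ L) (x : M) {v : TangentSpace 𝓘(ℝ, E) x} (hv : ‖v‖ < ε) :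
    dist x (e₀ x v) = ‖v‖ := by
  have h1 := h.ray x v hv 0 (by simp only [mem_Icc, Std.le_refl, zero_le_one, and_self]) 1 (by simp only [mem_Icc, zero_le_one, Std.le_refl, and_self])
  rw [zero_smul, one_smul, h.exp_zero] at h1
  simpa using h1

/-- Distances along a ray. -/
lemma ExChain_ray (h : NearExp ε e₀ L) (x : M) {v : TangentSpace 𝓘(ℝ, E) x} {s t T : ℝ}
    (hs : 0 ≤ s) (hsT : s ≤ T) (ht : 0 ≤ t) (htT : t ≤ T) (hv : T * ‖v‖ < ε) :
    dist (e₀ x (s • v)) (e₀ x (t • v)) = |t - s| * ‖v‖ := by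
  rcases (hs.trans hsT).eq_or_lt with hT | hT
  · have h1 : s = 0 := le_antisymm (hT ▸ hsT) hs
    have h2 : t = 0 := le_antisymm (hT ▸ htT) ht
    subst h1; subst h2
    simp
  · have h1 : ‖T • v‖ < ε := by
      rw [norm_smul, Real.norm_eq_abs, abs_of_pos hT]; exact hv
    have h2 := h.ray x (T • v) h1 (s / T) ⟨div_nonneg hs hT.le, (div_le_one hT).2 hsT⟩
      (t / T) ⟨div_nonneg ht hT.le, (div_le_one hT).2 htT⟩
    rw [smul_smul, smul_smul, div_mul_cancel₀ _ hT.ne', div_mul_cancel₀ _ hT.ne', norm_smul,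
      Real.norm_eq_abs, abs_of_pos hT, ← sub_div, abs_div, abs_of_pos hT, ← mul_assoc,
      div_mul_cancel₀ _ hT.ne'] at h2
    exact h2

lemma dist_opp (h : NearExp ε e₀ L) {a b : M} (hab : dist a b < ε) :
    dist b (opp e₀ L a b) = dist a b := by
  have h1 : ‖-(L b a)‖ = dist a b := by
    rw [norm_neg, h.norm_log b a (by rwa [dist_comm]), dist_comm]
  rw [opp, h.dist_exp b (by rw [h1]; exact hab), h1]

lemma opp_opp (h : NearExp ε e₀ L) {a b : M} (hab : dist a b < ε) :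
    opp e₀ L (opp e₀ L a b) b = a := by
  have hba : dist b a < ε := by rwa [dist_comm]
  have h1 : ‖-(L b a)‖ < ε := by
    rw [norm_neg, h.norm_log b a hba]; exact hba
  rw [opp, opp, h.log_exp b _ h1, neg_neg, h.exp_log b a hba]

/-- Three points at equal distances on a minimizing ray. -/
lemma opp_of_dist (h : NearExp ε e₀ L) {a b c : M} (h1 : dist b c = dist a b)
    (h2 : dist a c = 2 * dist a b) (h3 : dist a c < ε) : opp e₀ L a b = c := by
  have h4 : dist b c < ε := by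
    have := dist_nonneg (x := a) (y := b)
    linarith
  rw [opp, ← h.corner a b c h1 h2 h3, h.exp_log b c h4]

lemma dist_chn (h : NearExp ε e₀ L) {x : M} {v : TangentSpace 𝓘(ℝ, E) x} (hv : ‖v‖ < ε) (k : ℕ) :
    dist (chn e₀ L x v k) (chn e₀ L x v (k + 1)) = ‖v‖ := by
  induction k with
  | zero => rw [chn_zero, zero_add, chn_one, h.dist_exp x hv]
  | succ k ih => rw [chn_add_two, h.dist_opp (by rw [ih]; exact hv), ih]

/-- A sequence of points in which every point is opposite lies locally on a ray. -/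
lemma seq_add (h : NearExp ε e₀ L) {z : ℕ → M} {l : ℝ} (hl : ∀ k, dist (z k) (z (k + 1)) = l)
    (hz : ∀ k, z (k + 2) = opp e₀ L (z k) (z (k + 1))) (j i : ℕ) (hi : (i : ℝ) * l < ε)
    (hl2 : l < ε) :
    z (j + i) = e₀ (z j) ((i : ℝ) • L (z j) (z (j + 1))) := by
  have hl0 : 0 ≤ l := by rw [← hl 0]; exact dist_nonneg
  have hw : ‖L (z j) (z (j + 1))‖ = l := by
    rw [h.norm_log _ _ (by rw [hl]; exact hl2), hl]
  induction i using Nat.strong_induction_on with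
  | _ i ih =>
    match i with
    | 0 => simp [h.exp_zero]
    | 1 =>
      rw [Nat.cast_one, one_smul, h.exp_log _ _ (by rw [hl]; exact hl2)]
    | (i + 2) =>
      have hc : ((i + 2 : ℕ) : ℝ) = (i : ℝ) + 2 := by push_cast; ring
      have hc1 : ((i + 1 : ℕ) : ℝ) = (i : ℝ) + 1 := by push_cast; ring
      rw [hc] at hi
      have hi0 : (0 : ℝ) ≤ i := Nat.cast_nonneg i
      have hiw : ((i : ℝ) + 2) * ‖L (z j) (z (j + 1))‖ < ε := by rw [hw]; exact hi
      have e0 := ih i (by omega) (by linarith)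
      have e1 := ih (i + 1) (by omega) (by rw [hc1]; linarith)
      rw [hc1] at e1
      rw [hc]
      have d01 : dist (z (j + i)) (z (j + (i + 1))) = l := by
        rw [← add_assoc]; exact hl _
      have d12 := h.ExChain_ray (z j) (v := L (z j) (z (j + 1))) (s := (i : ℝ) + 1)
        (t := (i : ℝ) + 2) (T := (i : ℝ) + 2) (by linarith) (by linarith only []) (by linarith only []) le_rfl hiw
      have d02 := h.ExChain_ray (z j) (v := L (z j) (z (j + 1))) (s := (i : ℝ))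
        (t := (i : ℝ) + 2) (T := (i : ℝ) + 2) hi0 (by linarith only []) (by linarith only []) le_rfl hiw
      rw [← e1, hw] at d12
      rw [← e0, hw] at d02
      have a1 : |(i : ℝ) + 2 - ((i : ℝ) + 1)| = 1 := by
        rw [show (i : ℝ) + 2 - ((i : ℝ) + 1) = 1 by ring, abs_one]
      have a2 : |(i : ℝ) + 2 - (i : ℝ)| = 2 := by
        rw [show (i : ℝ) + 2 - (i : ℝ) = 2 by ring]; norm_num
      rw [a1] at d12
      rw [a2] at d02
      have hz2 : z (j + (i + 2)) = opp e₀ L (z (j + i)) (z (j + (i + 1))) := by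
        have := hz (j + i)
        rw [← add_assoc, this, ← add_assoc]
      rw [hz2]
      refine h.opp_of_dist ?_ ?_ ?_
      · rw [d12, d01, one_mul]
      · rw [d02, d01]
      · rw [d02]; nlinarith only [hi, hl0]

lemma seq_dist (h : NearExp ε e₀ L) {z : ℕ → M} {l : ℝ} (hl : ∀ k, dist (z k) (z (k + 1)) = l)
    (hz : ∀ k, z (k + 2) = opp e₀ L (z k) (z (k + 1))) (j i : ℕ) (hi : (i : ℝ) * l < ε)
    (hl2 : l < ε) : dist (z j) (z (j + i)) = i * l := by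
  have hw : ‖L (z j) (z (j + 1))‖ = l := by
    rw [h.norm_log _ _ (by rw [hl]; exact hl2), hl]
  have h1 : ‖(i : ℝ) • L (z j) (z (j + 1))‖ = i * l := by
    rw [norm_smul, hw, Real.norm_eq_abs, abs_of_nonneg (Nat.cast_nonneg i)]
  rw [h.seq_add hl hz j i hi hl2, h.dist_exp _ (by rw [h1]; exact hi), h1]

/-- Two sequences with the same first points and the same recursion agree. -/
lemma ExChain_unique {z w : ℕ → M} (h0 : z 0 = w 0) (h1 : z 1 = w 1)
    (hz : ∀ k, z (k + 2) = opp e₀ L (z k) (z (k + 1)))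
    (hw : ∀ k, w (k + 2) = opp e₀ L (w k) (w (k + 1))) (k : ℕ) : z k = w k := by
  induction k using Nat.strong_induction_on with
  | _ k ih =>
    match k with
    | 0 => exact h0
    | 1 => exact h1
    | (k + 2) => rw [hz, hw, ih k (by omega), ih (k + 1) (by omega)]

/-- Refinement of a chain. -/
lemma chn_refine (h : NearExp ε e₀ L) {x : M} {v : TangentSpace 𝓘(ℝ, E) x} {K : ℕ} (hK : 1 ≤ K)
    (hv : 2 * (K : ℝ) * ‖v‖ < ε) (k : ℕ) :
    chn e₀ L x ((K : ℝ) • v) k = chn e₀ L x v (K * k) := by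
  have hK1 : (1 : ℝ) ≤ K := by exact_mod_cast hK
  have hn := norm_nonneg v
  have hv1 : ‖v‖ < ε := by nlinarith only [hv, hn, hK1]
  have hvK : (K : ℝ) * ‖v‖ < ε := by linarith
  have hl := h.dist_chn hv1
  have hz := chn_add_two (e₀ := e₀) (L := L) x v
  refine ExChain_unique (e₀ := e₀) (L := L) (z := chn e₀ L x ((K : ℝ) • v))
    (w := fun k => chn e₀ L x v (K * k)) ?_ ?_ (chn_add_two x _) ?_ k
  · rw [mul_zero]; rfl
  · have h1 := h.seq_add hl hz 0 K hvK hv1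
    rw [zero_add, zero_add, chn_zero, chn_one, h.log_exp x v hv1] at h1
    rw [mul_one, h1, chn_one]
  · intro k
    have d1 := h.seq_dist hl hz (K * k) K hvK hv1
    have d2 := h.seq_dist hl hz (K * (k + 1)) K hvK hv1
    have d3 := h.seq_dist hl hz (K * k) (2 * K) (by push_cast; linarith only [hv]) hv1
    have k1 : K * k + K = K * (k + 1) := by ring
    have k2 : K * (k + 1) + K = K * (k + 2) := by ring
    have k3 : K * k + 2 * K = K * (k + 2) := by ring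
    rw [k1] at d1
    rw [k2] at d2
    rw [k3] at d3
    push_cast at d3
    exact (h.opp_of_dist (by rw [d1, d2]) (by rw [d3, d1]; ring) (by rw [d3]; exact hv)).symm

/-- Independence of the number of steps. -/
lemma chn_indep (h : NearExp ε e₀ L) {x : M} (v : TangentSpace 𝓘(ℝ, E) x) {N N' : ℕ} (hN : 1 ≤ N)
    (hN' : 1 ≤ N') (h1 : 2 * ‖v‖ < ε * N) (h2 : 2 * ‖v‖ < ε * N') :
    chn e₀ L x ((1 / (N : ℝ)) • v) N = chn e₀ L x ((1 / (N' : ℝ)) • v) N' := by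
  have hNp : (0 : ℝ) < N := by exact_mod_cast hN
  have hNp' : (0 : ℝ) < N' := by exact_mod_cast hN'
  have e1 : (1 / (N : ℝ)) • v = (N' : ℝ) • ((1 / ((N : ℝ) * N')) • v) := by
    rw [smul_smul]
    congr 1
    field_simp
  have e2 : (1 / (N' : ℝ)) • v = (N : ℝ) • ((1 / ((N : ℝ) * N')) • v) := by
    rw [smul_smul]
    congr 1
    field_simp
  have hn : ‖(1 / ((N : ℝ) * N')) • v‖ = ‖v‖ / (N * N') := by
    rw [norm_smul, Real.norm_eq_abs, abs_of_pos (by positivity)]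
    ring
  have b1 : 2 * (N' : ℝ) * ‖(1 / ((N : ℝ) * N')) • v‖ < ε := by
    rw [hn]
    have : 2 * (N' : ℝ) * (‖v‖ / (N * N')) = (2 * ‖v‖) / N := by
      field_simp
    rw [this, div_lt_iff₀ hNp]
    exact h1
  have b2 : 2 * (N : ℝ) * ‖(1 / ((N : ℝ) * N')) • v‖ < ε := by
    rw [hn]
    have : 2 * (N : ℝ) * (‖v‖ / (N * N')) = (2 * ‖v‖) / N' := by
      field_simp
    rw [this, div_lt_iff₀ hNp']
    exact h2
  rw [e1, e2, h.chn_refine hN' b1, h.chn_refine hN b2, Nat.mul_comm N' N]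

/-- Distances between the points of the chains of `-v` and `v`. -/
lemma dist_chn_neg (h : NearExp ε e₀ L) {x : M} {v : TangentSpace 𝓘(ℝ, E) x} (hv : ‖v‖ < ε)
    (j k : ℕ) (hjk : ((j : ℝ) + k) * ‖v‖ < ε) (hv2 : 2 * ‖v‖ < ε) :
    dist (chn e₀ L x (-v) j) (chn e₀ L x v k) = ((j : ℝ) + k) * ‖v‖ := by
  have hv' : ‖-v‖ < ε := by rw [norm_neg]; exact hv
  have hd := h.dist_chn hv
  have hd' := h.dist_chn hv'
  rw [norm_neg] at hd'
  set z : ℕ → M := fun i => if i ≤ j then chn e₀ L x (-v) (j - i) else chn e₀ L x v (i - j)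
    with hzdef
  have zle : ∀ i, i ≤ j → z i = chn e₀ L x (-v) (j - i) := fun i hi => if_pos hi
  have zge : ∀ i, j ≤ i → z i = chn e₀ L x v (i - j) := by
    intro i hi
    rcases hi.eq_or_lt with rfl | hi
    · rw [zle _ le_rfl, Nat.sub_self]; rfl
    · exact if_neg (by omega)
  have hl : ∀ i, dist (z i) (z (i + 1)) = ‖v‖ := by
    intro i
    rcases lt_or_ge i j with hi | hi
    · rw [zle i hi.le, zle (i + 1) hi, dist_comm]
      have : j - i = (j - (i + 1)) + 1 := by omega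
      rw [this]
      exact hd' _
    · rw [zge i hi, zge (i + 1) (by omega)]
      have : i + 1 - j = (i - j) + 1 := by omega
      rw [this]
      exact hd _
  have hz : ∀ i, z (i + 2) = opp e₀ L (z i) (z (i + 1)) := by
    intro i
    rcases lt_or_ge (i + 1) j with hi | hi
    · rw [zle i (by omega), zle (i + 1) hi.le, zle (i + 2) (by omega)]
      have a0 : j - i = (j - (i + 2)) + 2 := by omega
      have a1 : j - (i + 1) = (j - (i + 2)) + 1 := by omega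
      rw [a0, a1, chn_add_two, h.opp_opp]
      rw [hd']; exact hv
    · rcases hi.eq_or_lt with hi | hi
      · rw [zle i (by omega), zle (i + 1) (by omega), zge (i + 2) (by omega)]
        have a0 : j - i = 1 := by omega
        have a1 : j - (i + 1) = 0 := by omega
        have a2 : i + 2 - j = 1 := by omega
        rw [a0, a1, a2, chn_one, chn_one, chn_zero, opp, h.log_exp x _ hv', neg_neg]
      · rw [zge i (by omega), zge (i + 1) (by omega), zge (i + 2) (by omega)]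
        have a1 : i + 1 - j = (i - j) + 1 := by omega
        have a2 : i + 2 - j = (i - j) + 2 := by omega
        rw [a1, a2, chn_add_two]
  have key := h.seq_dist hl hz 0 (j + k) (by push_cast; exact hjk) hv
  rw [zero_add, zle 0 (Nat.zero_le _), zge (j + k) (Nat.le_add_right _ _), Nat.sub_zero,
    Nat.add_sub_cancel_left] at key
  rw [key]
  push_cast
  ring

lemma ExChain_contMDiffAt_opp (h : NearExp ε e₀ L) {a b : M} (hab : dist a b < ε) :
    ContMDiffAt (𝓘(ℝ, E).prod 𝓘(ℝ, E)) 𝓘(ℝ, E) ∞ (fun q : M × M => opp e₀ L q.1 q.2) (a, b) := by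
  have hba : dist b a < ε := by rwa [dist_comm]
  have h1 : ContMDiffAt (𝓘(ℝ, E).prod 𝓘(ℝ, E)) (𝓘(ℝ, E).prod 𝓘(ℝ, E)) ∞
      (fun q : M × M => (q.2, q.1)) (a, b) := contMDiffAt_snd.prodMk contMDiffAt_fst
  have h2 : ContMDiffAt (𝓘(ℝ, E).prod 𝓘(ℝ, E)) 𝓘(ℝ, E).tangent ∞
      (fun q : M × M => (⟨q.2, L q.2 q.1⟩ : TangentBundle 𝓘(ℝ, E) M)) (a, b) :=
    ContMDiffAt.comp (a, b) (h.smooth_log b a hba) h1
  have h3 := ExChain_contMDiffAt_smul (-1) h2
  have h4 : ContMDiffAt 𝓘(ℝ, E).tangent 𝓘(ℝ, E) ∞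
      (fun p : TangentBundle 𝓘(ℝ, E) M => e₀ p.proj p.snd)
      (⟨b, (-1 : ℝ) • L b a⟩ : TangentBundle 𝓘(ℝ, E) M) := by
    refine h.smooth _ ?_
    show ‖(-1 : ℝ) • L b a‖ < ε
    rw [neg_one_smul, norm_neg, h.norm_log b a hba]
    exact hba
  have h5 := ContMDiffAt.comp (a, b) h4 h3
  refine h5.congr_of_eventuallyEq (Filter.Eventually.of_forall fun q => ?_)
  show e₀ q.2 (-(L q.2 q.1)) = e₀ q.2 ((-1 : ℝ) • L q.2 q.1)
  rw [neg_one_smul]

/-- Smoothness of the chains. -/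
lemma contMDiffAt_chn (h : NearExp ε e₀ L) (k : ℕ) {p : TangentBundle 𝓘(ℝ, E) M}
    (hp : ‖p.snd‖ < ε) :
    ContMDiffAt 𝓘(ℝ, E).tangent 𝓘(ℝ, E) ∞
      (fun p : TangentBundle 𝓘(ℝ, E) M => chn e₀ L p.proj p.snd k) p := by
  have key : ∀ k : ℕ, ContMDiffAt 𝓘(ℝ, E).tangent 𝓘(ℝ, E) ∞
        (fun p : TangentBundle 𝓘(ℝ, E) M => chn e₀ L p.proj p.snd k) p ∧
      ContMDiffAt 𝓘(ℝ, E).tangent 𝓘(ℝ, E) ∞
        (fun p : TangentBundle 𝓘(ℝ, E) M => chn e₀ L p.proj p.snd (k + 1)) p := by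
    intro k
    induction k with
    | zero =>
      refine ⟨?_, ?_⟩
      · exact (Bundle.contMDiff_proj (TangentSpace 𝓘(ℝ, E))).contMDiffAt
      · exact h.smooth p hp
    | succ k ih =>
      refine ⟨ih.2, ?_⟩
      have h1 : ContMDiffAt 𝓘(ℝ, E).tangent (𝓘(ℝ, E).prod 𝓘(ℝ, E)) ∞
          (fun p : TangentBundle 𝓘(ℝ, E) M =>
            (chn e₀ L p.proj p.snd k, chn e₀ L p.proj p.snd (k + 1))) p := ih.1.prodMk ih.2
      have hd : dist (chn e₀ L p.proj p.snd k) (chn e₀ L p.proj p.snd (k + 1)) < ε := by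
        rw [h.dist_chn hp]; exact hp
      have h2 := ContMDiffAt.comp p (h.ExChain_contMDiffAt_opp hd) h1
      refine h2.congr_of_eventuallyEq (Filter.Eventually.of_forall fun q => ?_)
      exact chn_add_two q.proj q.snd k
  exact (key k).1

end NearExp

end

end Vale.Agent.P234
end
end
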