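import Vale.Agent.P234.MathlibUsed
import Vale.Agent.P234.Bd3.B1
import Vale.Agent.P234.Bd3.B2

set_option linter.all false

section

section

/-! Step D, abstract part. -/

set_option maxSynthPendingDepth 3

open Set Filter
open scoped ContDiff Topology

namespace Vale.Agent.P234

/-- Second order expansion along sequences. -/
lemma seq_taylor {Z Y ι : Type*} [NormedAddCommGroup Z] [NormedSpace ℝ Z] [FiniteDimensional ℝ Z]
    [NormedAddCommGroup Y] [NormedSpace ℝ Y] [Fintype ι] {Φ : ι → Z × Y → ℝ} {ζ₀ : Z} {η₀ : Y}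
    (hΦ : ∀ j, ContDiffAt ℝ 2 (Φ j) (ζ₀, η₀)) {ζ ζ' : ℕ → Z} {η : ℕ → Y}
    (hζ : Tendsto ζ atTop (𝓝 ζ₀)) (hζ' : Tendsto ζ' atTop (𝓝 ζ₀)) (hη : Tendsto η atTop (𝓝 η₀))
    (hne : ∀ k, ζ k ≠ ζ' k) {lam : ℕ → ι → ℝ} {lam₀ : ι → ℝ} (hlam : ∀ k j, 0 ≤ lam k j)
    (hlam₀ : ∀ j, Tendsto (fun k => lam k j) atTop (𝓝 (lam₀ j)))
    (hineq : ∀ k j, Φ j (ζ k, η k) ≤ Φ j (ζ' k, η k))
    (hcrit : ∀ᶠ k in atTop, ∀ h : Z, ∑ j, lam k j * fderiv ℝ (Φ j) (ζ' k, η k) (h, 0) = 0) :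
    ∃ h : Z, h ≠ 0 ∧ (∀ j, fderiv ℝ (Φ j) (ζ₀, η₀) (h, 0) ≤ 0) ∧
      ∑ j, lam₀ j * hess (Φ j) (ζ₀, η₀) (h, 0) (h, 0) ≤ 0 := by
  have hP : ProperSpace Z := FiniteDimensional.proper ℝ Z
  have hr : ∀ k, 0 < ‖ζ k - ζ' k‖ := fun k => norm_pos_iff.2 (sub_ne_zero.2 (hne k))
  have hr0 : Tendsto (fun k => ‖ζ k - ζ' k‖) atTop (𝓝 0) := by
    have := (hζ.sub hζ').norm
    simpa using this
  have hsph : ∀ k, ‖ζ k - ζ' k‖⁻¹ • (ζ k - ζ' k) ∈ Metric.sphere (0 : Z) 1 := by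
    intro k
    simp only [mem_sphere_iff_norm, sub_zero, norm_smul, norm_inv, norm_norm, ne_eq, (hr k).ne', not_false_eq_true, inv_mul_cancel₀]
  obtain ⟨h, hh, φ, hφ, hlim⟩ := (isCompact_sphere (0 : Z) 1).tendsto_subseq hsph
  have hh1 : ‖h‖ = 1 := by simpa only [mem_sphere_iff_norm, sub_zero] using hh
  refine ⟨h, by rw [← norm_ne_zero_iff, hh1]; exact one_ne_zero, ?_⟩
  -- notation for the normalized increments
  set d : ℕ → Z := fun k => ‖ζ (φ k) - ζ' (φ k)‖⁻¹ • (ζ (φ k) - ζ' (φ k)) with hd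
  set r : ℕ → ℝ := fun k => ‖ζ (φ k) - ζ' (φ k)‖ with hrdef
  have hdlim : Tendsto d atTop (𝓝 h) := hlim
  have hrpos : ∀ k, 0 < r k := fun k => hr _
  have hrlim : Tendsto r atTop (𝓝 0) := hr0.comp hφ.tendsto_atTop
  have hrd : ∀ k, r k • d k = ζ (φ k) - ζ' (φ k) := by
    intro k
    simp only [hd, hrdef, smul_smul]
    rw [mul_inv_cancel₀ (hr (φ k)).ne', one_smul]
  have hbase : Tendsto (fun k => (ζ' (φ k), η (φ k))) atTop (𝓝 (ζ₀, η₀)) :=
    (hζ'.comp hφ.tendsto_atTop).prodMk_nhds (hη.comp hφ.tendsto_atTop)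
  have hDlim : ∀ j, Tendsto (fun k => fderiv ℝ (Φ j) (ζ' (φ k), η (φ k)) (d k, 0)) atTop
      (𝓝 (fderiv ℝ (Φ j) (ζ₀, η₀) (h, 0))) := by
    intro j
    have h1 : ContinuousAt (fderiv ℝ (Φ j)) (ζ₀, η₀) := by
      have := (hΦ j).fderiv_right (m := 1) (by norm_num)
      exact this.continuousAt
    have h2 : Tendsto (fun k => fderiv ℝ (Φ j) (ζ' (φ k), η (φ k))) atTop
        (𝓝 (fderiv ℝ (Φ j) (ζ₀, η₀))) := h1.tendsto.comp hbase
    exact (isBoundedBilinearMap_apply.continuous.tendsto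
      (fderiv ℝ (Φ j) (ζ₀, η₀), ((h, 0) : Z × Y))).comp
      (h2.prodMk_nhds (hdlim.prodMk_nhds tendsto_const_nhds))
  have hHlim : ∀ j, Tendsto (fun k => hess (Φ j) (ζ₀, η₀) (d k, 0) (d k, 0)) atTop
      (𝓝 (hess (Φ j) (ζ₀, η₀) (h, 0) (h, 0))) := by
    intro j
    have h1 : Continuous (fun v : Z => hess (Φ j) (ζ₀, η₀) (v, 0) (v, 0)) := by (clear * -; fun_prop)
    exact (h1.tendsto h).comp hdlim
  have hexp : ∀ ε : ℝ, 0 < ε → ∀ j, ∀ᶠ k in atTop,
      fderiv ℝ (Φ j) (ζ' (φ k), η (φ k)) (d k, 0) +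
        r k * (1 / 2 * hess (Φ j) (ζ₀, η₀) (d k, 0) (d k, 0) - ε) ≤ 0 := by
    intro ε hε j
    obtain ⟨δ, hδ, hT⟩ := taylor2 (hΦ j) hε
    have e1 : ∀ᶠ k in atTop, ‖(ζ' (φ k), η (φ k)) - (ζ₀, η₀)‖ < δ := by
      have h1 : Tendsto (fun k => ‖(ζ' (φ k), η (φ k)) - (ζ₀, η₀)‖) atTop (𝓝 0) := by
        have := (hbase.sub_const (ζ₀, η₀)).norm
        simpa only [Prod.mk_sub_mk, Prod.norm_mk, sub_self, norm_zero] using this
      exact h1.eventually (gt_mem_nhds hδ)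
    have e2 : ∀ᶠ k in atTop, r k < δ := hrlim.eventually (gt_mem_nhds hδ)
    filter_upwards [e1, e2] with k hk1 hk2
    have hn : ‖((ζ (φ k) - ζ' (φ k), 0) : Z × Y)‖ = r k := by
      simp only [Prod.norm_def, norm_zero, norm_nonneg, sup_of_le_left, hrdef]
    have h2 := hT (ζ' (φ k), η (φ k)) (ζ (φ k) - ζ' (φ k), 0) hk1 (by rw [hn]; exact hk2)
    rw [hn] at h2
    have h3 : ((ζ' (φ k), η (φ k)) + (ζ (φ k) - ζ' (φ k), 0) : Z × Y) = (ζ (φ k), η (φ k)) := by
      simp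
    rw [h3, ← hrd k] at h2
    have h4 : ((r k • d k, 0) : Z × Y) = r k • ((d k, 0) : Z × Y) := by simp
    rw [h4] at h2
    simp only [map_smul, smul_apply, smul_eq_mul] at h2
    have h5 := (abs_le.1 h2).1
    have h6 := hineq (φ k) j
    have h7 : 0 ≥ r k * (fderiv ℝ (Φ j) (ζ' (φ k), η (φ k)) (d k, 0) +
        r k * (1 / 2 * hess (Φ j) (ζ₀, η₀) (d k, 0) (d k, 0) - ε)) := by
      linarith
    by_contra hcon
    push Not at hcon
    have := mul_pos (hrpos k) hcon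
    linarith only [h5, h6, this]
  constructor
  · intro j
    have h1 : Tendsto (fun k => fderiv ℝ (Φ j) (ζ' (φ k), η (φ k)) (d k, 0) +
        r k * (1 / 2 * hess (Φ j) (ζ₀, η₀) (d k, 0) (d k, 0) - 1)) atTop
        (𝓝 (fderiv ℝ (Φ j) (ζ₀, η₀) (h, 0) +
          0 * (1 / 2 * hess (Φ j) (ζ₀, η₀) (h, 0) (h, 0) - 1))) :=
      (hDlim j).add (hrlim.mul (((hHlim j).const_mul _).sub_const _))
    have h2 := le_of_tendsto h1 (hexp 1 one_pos j)
    simpa only [ge_iff_le, one_div, zero_mul, add_zero] using h2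
  · have key : ∀ ε : ℝ, 0 < ε →
        ∑ j, lam₀ j * (1 / 2 * hess (Φ j) (ζ₀, η₀) (h, 0) (h, 0) - ε) ≤ 0 := by
      intro ε hε
      have h1 : Tendsto (fun k => ∑ j, lam (φ k) j *
          (1 / 2 * hess (Φ j) (ζ₀, η₀) (d k, 0) (d k, 0) - ε)) atTop
          (𝓝 (∑ j, lam₀ j * (1 / 2 * hess (Φ j) (ζ₀, η₀) (h, 0) (h, 0) - ε))) := by
        refine tendsto_finsetSum _ fun j _ => ?_
        exact ((hlam₀ j).comp hφ.tendsto_atTop).mul (((hHlim j).const_mul _).sub_const _)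
      refine le_of_tendsto h1 ?_
      have h2 := eventually_all.2 (fun j => hexp ε hε j)
      filter_upwards [h2, hφ.tendsto_atTop.eventually hcrit] with k hk hck
      have h3 : ∑ j, lam (φ k) j * (fderiv ℝ (Φ j) (ζ' (φ k), η (φ k)) (d k, 0) +
        r k * (1 / 2 * hess (Φ j) (ζ₀, η₀) (d k, 0) (d k, 0) - ε)) ≤ 0 :=
        Finset.sum_nonpos fun j _ => mul_nonpos_of_nonneg_of_nonpos (hlam _ _) (hk j)
      have h4 : ∑ j, lam (φ k) j * (fderiv ℝ (Φ j) (ζ' (φ k), η (φ k)) (d k, 0) +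
        r k * (1 / 2 * hess (Φ j) (ζ₀, η₀) (d k, 0) (d k, 0) - ε)) =
        r k * ∑ j, lam (φ k) j * (1 / 2 * hess (Φ j) (ζ₀, η₀) (d k, 0) (d k, 0) - ε) := by
        simp only [mul_add]
        rw [Finset.sum_add_distrib, hck, zero_add, Finset.mul_sum]
        exact Finset.sum_congr rfl fun j _ => by ring
      rw [h4] at h3
      by_contra hcon
      push Not at hcon
      have := mul_pos (hrpos k) hcon
      linarith only [h3, this]
    by_contra hcon
    push Not at hcon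
    have hS : 0 ≤ ∑ j, lam₀ j := Finset.sum_nonneg fun j _ =>
      ge_of_tendsto' (hlam₀ j) (fun k => hlam k j)
    set T := ∑ j, lam₀ j * hess (Φ j) (ζ₀, η₀) (h, 0) (h, 0) with hT
    have h1 := key (T / (4 * (∑ j, lam₀ j + 1))) (by (clear * - hcon hS; positivity))
    have h2 : ∑ j, lam₀ j * (1 / 2 * hess (Φ j) (ζ₀, η₀) (h, 0) (h, 0) -
        T / (4 * (∑ j, lam₀ j + 1))) = 1 / 2 * T - (∑ j, lam₀ j) *
        (T / (4 * (∑ j, lam₀ j + 1))) := by
      simp only [mul_sub]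
      rw [Finset.sum_sub_distrib, ← Finset.sum_mul, hT, Finset.mul_sum]
      congr 1
      exact Finset.sum_congr rfl fun j _ => by ring
    rw [h2] at h1
    have h3 : (∑ j, lam₀ j) * (T / (4 * (∑ j, lam₀ j + 1))) ≤ T / 4 := by
      have h4 : (∑ j, lam₀ j) * (T / (4 * (∑ j, lam₀ j + 1))) =
        T / 4 * ((∑ j, lam₀ j) / (∑ j, lam₀ j + 1)) := by (clear * - hS hcon; field_simp)
      rw [h4]
      have h5 : (∑ j, lam₀ j) / (∑ j, lam₀ j + 1) ≤ 1 := by
        rw [div_le_one (by (clear * - hS; positivity))]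
        linarith only []
      have : 0 ≤ T / 4 := by (clear * - hcon; positivity)
      nlinarith only [hcon, h5]
    linarith only [hcon, h1, h3]

namespace HessData

variable {V : Type*} [NormedAddCommGroup V] [InnerProductSpace ℝ V] (X : HessData V)

/-- Positivity of the second variation in the admissible directions. -/
theorem second_variation_pos [FiniteDimensional ℝ V] {ι : Type*} [Fintype ι] {W : Set V}
    {θ τ₁ τ' : ℝ} (hθ : 0 < θ) (hθτ : θ < τ₁) (hττ : τ₁ < τ') (hτ' : τ' < 1) (hWS : W ⊆ X.S)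
    (hWI : ∀ v ∈ convexHull ℝ W, τ₁ • v ∈ X.S) {lam : ι → ℝ} (hlam : ∀ j, 0 ≤ lam j)
    (hsum : ∑ j, lam j = 1) {w : ι → V} (hw : ∀ j, w j ∈ W) {u : V} (hu : ∑ j, lam j • w j = u)
    {ξ μ : V} (hne : ¬ (ξ = 0 ∧ μ = 0)) (hfirst : ∀ j, inner ℝ (w j - u) ξ ≤ 0) :
    0 < X.H (θ • u) ξ ξ / θ - 2 * inner ℝ ξ μ / θ + X.Q θ τ₁ u μ -
      ∑ j, lam j * (X.H (τ' • w j) ξ ξ / τ') := by
  classical
  have hτ0 : 0 < τ₁ := hθ.trans hθτ
  have huW : u ∈ convexHull ℝ W := by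
    rw [← hu]
    exact (convex_convexHull ℝ W).sum_mem (fun j _ => hlam j) hsum
      (fun j _ => subset_convexHull ℝ W (hw j))
  by_cases hξ : ξ = 0
  · have hμ : μ ≠ 0 := fun h => hne ⟨hξ, h⟩
    have h1 : 0 < X.Q θ τ₁ u μ := by
      refine X.Q_pos hθ hθτ (hττ.trans hτ') hWS hWI (Finset.univ.image w) ?_ u ?_ μ hμ
      · intro v hv
        simp only [Finset.coe_image, Finset.coe_univ, image_univ, mem_range] at hv
        obtain ⟨j, rfl⟩ := hv
        exact hw j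
      · rw [← hu]
        refine (convex_convexHull ℝ _).sum_mem (fun j _ => hlam j) hsum
          (fun j _ => subset_convexHull ℝ _ ?_)
        simp only [Finset.coe_image, Finset.coe_univ, image_univ, mem_range, exists_apply_eq_apply]
    simp only [hξ, map_zero, inner_zero_left, mul_zero, zero_div, sub_zero, zero_add,
      Finset.sum_const_zero]
    exact h1
  · have hz : ∀ j, lam j * inner ℝ (w j - u) ξ = 0 := by
      have h0 : ∑ j, -(lam j * inner ℝ (w j - u) ξ) = 0 := by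
        have h1 : ∑ j, lam j * inner ℝ (w j - u) ξ = inner ℝ (∑ j, lam j • (w j - u)) ξ := by
          rw [sum_inner]
          exact Finset.sum_congr rfl fun j _ => (real_inner_smul_left _ _ _).symm
        have h2 : ∑ j, lam j • (w j - u) = 0 := by
          simp only [smul_sub]
          rw [Finset.sum_sub_distrib, hu, ← Finset.sum_smul, hsum, one_smul, sub_self]
        rw [Finset.sum_neg_distrib, h1, h2, inner_zero_left, neg_zero]
      intro j
      have h3 := (Finset.sum_eq_zero_iff_of_nonneg (fun j _ =>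
        neg_nonneg.2 (mul_nonpos_of_nonneg_of_nonpos (hlam j) (hfirst j)))).1 h0 j
          (Finset.mem_univ j)
      linarith only [h3]
    have hwI : ∀ j, ∀ τ : ℝ, 0 ≤ τ → τ < 1 → τ • w j ∈ X.I := fun j τ h0 h1 =>
      X.smul_mem _ (hWS (hw j)) τ h0 h1
    have hc : Tendsto (fun τ => ∑ j, lam j * (X.H (τ • w j) ξ ξ / τ)) (𝓝[<] τ₁)
        (𝓝 (∑ j, lam j * (X.H (τ₁ • w j) ξ ξ / τ₁))) := by
      refine tendsto_finsetSum _ fun j _ => ?_
      refine Tendsto.const_mul _ (Tendsto.div ?_ nhdsWithin_le_nhds hτ0.ne')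
      have h1 : Tendsto (fun τ : ℝ => τ • w j) (𝓝[<] τ₁) (𝓝 (τ₁ • w j)) := by
        have : Continuous (fun τ : ℝ => τ • w j) := by (clear * -; fun_prop)
        exact (this.tendsto τ₁).mono_left nhdsWithin_le_nhds
      have h2 := (X.contH _ (hwI j τ₁ hτ0.le (hττ.trans hτ'))).tendsto.comp h1
      have h4 : Continuous (fun B : V →L[ℝ] V →L[ℝ] ℝ => B ξ ξ) := by (clear * -; fun_prop)
      exact (h4.tendsto _).comp h2
    have key := X.key_limit hθ hθτ (hWI u huW) ξ μ hc (by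
      have e2 : ∀ᶠ τ in 𝓝[<] τ₁, θ < τ :=
        (lt_mem_nhds hθτ : ∀ᶠ τ in 𝓝 τ₁, θ < τ).filter_mono nhdsWithin_le_nhds
      filter_upwards [e2, self_mem_nhdsWithin] with τ ha hb
      have hτp : 0 < τ := hθ.trans ha
      have hin : ∀ v ∈ convexHull ℝ W, τ • v ∈ X.I :=
        fun v hv => X.smul_mem' (hWI v hv) hτp.le hb
      have hconc := X.concave ((fun v => τ • v) '' convexHull ℝ W) ((convex_convexHull ℝ W).smul τ)
        (by rintro _ ⟨v, hv, rfl⟩; exact hin v hv) (τ • u) ξ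
      have hfil : ∀ g : ι → ℝ, (∀ j, lam j = 0 → g j = 0) →
          ∑ j ∈ Finset.univ.filter (fun j => lam j ≠ 0), g j = ∑ j, g j := by
        intro g hg
        refine Finset.sum_subset (Finset.filter_subset _ _) fun j _ hj => hg j ?_
        by_contra h
        exact hj (Finset.mem_filter.2 ⟨Finset.mem_univ j, h⟩)
      have hfilV : ∀ g : ι → V, (∀ j, lam j = 0 → g j = 0) →
          ∑ j ∈ Finset.univ.filter (fun j => lam j ≠ 0), g j = ∑ j, g j := by
        intro g hg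
        refine Finset.sum_subset (Finset.filter_subset _ _) fun j _ hj => hg j ?_
        by_contra h
        exact hj (Finset.mem_filter.2 ⟨Finset.mem_univ j, h⟩)
      have h1 := hconc.le_map_sum (t := Finset.univ.filter (fun j => lam j ≠ 0)) (w := lam)
        (p := fun j => τ • w j) (fun j _ => hlam j) (by rw [hfil lam (fun j h => h), hsum])
        (fun j hj => ⟨⟨w j, subset_convexHull ℝ _ (hw j), rfl⟩, by
          have hj' : lam j ≠ 0 := (Finset.mem_filter.1 hj).2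
          have hz' : inner ℝ (w j - u) ξ = 0 := by
            have := hz j
            exact (mul_eq_zero.1 this).resolve_left hj'
          simp only [Set.mem_ofPred_eq]
          rw [← smul_sub, real_inner_smul_left, hz', mul_zero]⟩)
      have h2 : ∑ j ∈ Finset.univ.filter (fun j => lam j ≠ 0), lam j • (τ • w j) = τ • u := by
        rw [hfilV _ (fun j h => by rw [h, zero_smul]), ← hu, Finset.smul_sum]
        exact Finset.sum_congr rfl fun y _ => smul_comm _ _ _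
      simp only [h2, smul_eq_mul] at h1
      rw [hfil _ (fun j h => by rw [h, zero_mul])] at h1
      rw [le_div_iff₀ hτp, Finset.sum_mul]
      refine le_trans (le_of_eq ?_) h1
      refine Finset.sum_congr rfl fun j _ => ?_
      (clear * - hτp; field_simp))
    have hlt : ∑ j, lam j * (X.H (τ' • w j) ξ ξ / τ') < ∑ j, lam j * (X.H (τ₁ • w j) ξ ξ / τ₁) := by
      have hs : ∀ j, X.H (τ' • w j) ξ ξ / τ' < X.H (τ₁ • w j) ξ ξ / τ₁ := fun j =>
        X.strict (w j) τ₁ τ' hτ0 hττ (hwI j τ' (hτ0.trans hττ).le hτ') ξ hξ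
      refine Finset.sum_lt_sum (fun j _ => mul_le_mul_of_nonneg_left (hs j).le (hlam j)) ?_
      have : ∃ j, lam j ≠ 0 := by
        by_contra h
        push Not at h
        simp only [h, Finset.sum_const_zero, zero_ne_one] at hsum
      obtain ⟨j, hj⟩ := this
      exact ⟨j, Finset.mem_univ j, mul_lt_mul_of_pos_left (hs j)
        (lt_of_le_of_ne (hlam j) (Ne.symm hj))⟩
    linarith

end HessData

section Partial

variable {Z Y : Type*} [NormedAddCommGroup Z] [NormedSpace ℝ Z] [NormedAddCommGroup Y]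
  [NormedSpace ℝ Y]

lemma fderiv_partial_left {Φ : Z × Y → ℝ} {ζ : Z} {η : Y} (hd : DifferentiableAt ℝ Φ (ζ, η))
    (h : Z) : fderiv ℝ Φ (ζ, η) (h, 0) = fderiv ℝ (fun z => Φ (z, η)) ζ h := by
  have h1 : HasFDerivAt (fun z : Z => (z, η)) (ContinuousLinearMap.inl ℝ Z Y) ζ :=
    hasFDerivAt_prodMk_left ζ η
  have h2 : HasFDerivAt (fun z => Φ (z, η))
      ((fderiv ℝ Φ (ζ, η)).comp (ContinuousLinearMap.inl ℝ Z Y)) ζ :=
    hd.hasFDerivAt.comp ζ h1
  rw [h2.fderiv]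
  simp only [ContinuousLinearMap.comp_apply, ContinuousLinearMap.inl_apply]

lemma fderiv_partial_right {Φ : Z × Y → ℝ} {ζ : Z} {η : Y} (hd : DifferentiableAt ℝ Φ (ζ, η))
    (h : Y) : fderiv ℝ Φ (ζ, η) (0, h) = fderiv ℝ (fun y => Φ (ζ, y)) η h := by
  have h1 : HasFDerivAt (fun y : Y => (ζ, y)) (ContinuousLinearMap.inr ℝ Z Y) η :=
    hasFDerivAt_prodMk_right ζ η
  have h2 : HasFDerivAt (fun y => Φ (ζ, y))
      ((fderiv ℝ Φ (ζ, η)).comp (ContinuousLinearMap.inr ℝ Z Y)) η :=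
    hd.hasFDerivAt.comp η h1
  rw [h2.fderiv]
  simp only [ContinuousLinearMap.comp_apply, ContinuousLinearMap.inr_apply]

lemma fderiv_partial_add {Φ : Z × Y → ℝ} {ζ : Z} {η : Y} (hd : DifferentiableAt ℝ Φ (ζ, η))
    (h : Z) (h' : Y) : fderiv ℝ Φ (ζ, η) (h, h') =
      fderiv ℝ (fun z => Φ (z, η)) ζ h + fderiv ℝ (fun y => Φ (ζ, y)) η h' := by
  rw [← fderiv_partial_left hd, ← fderiv_partial_right hd, ← map_add]
  simp

lemma hess_partial_left {Φ : Z × Y → ℝ} {ζ : Z} {η : Y} (hd : ContDiffAt ℝ 2 Φ (ζ, η))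
    (h h' : Z) : hess Φ (ζ, η) (h, 0) (h', 0) = hess (fun z => Φ (z, η)) ζ h h' := by
  have h1 := hess_comp_affine hd (ContinuousLinearMap.inl ℝ Z Y) ζ ((0, η) : Z × Y) (by simp only [ContinuousLinearMap.inl_apply, Prod.mk_add_mk, zero_add, add_zero]) h h'
  simp only [ContinuousLinearMap.inl_apply] at h1
  have h2 : (fun w : Z => Φ ((0, η) + (w, 0))) = fun z => Φ (z, η) := by
    funext w
    simp only [Prod.mk_add_mk, zero_add, add_zero]
  rw [← h1, h2]

lemma hess_of_snd {Φ : Y → ℝ} {ζ : Z} {η : Y} (hd : ContDiffAt ℝ 2 Φ η) (h h' : Z × Y) :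
    hess (fun z : Z × Y => Φ z.2) (ζ, η) h h' = hess Φ η h.2 h'.2 := by
  have h1 := hess_comp_affine hd (ContinuousLinearMap.snd ℝ Z Y) (ζ, η) (0 : Y) (by simp) h h'
  simpa only [ContinuousLinearMap.coe_snd', zero_add] using h1

lemma hess_of_fst {Φ : Z → ℝ} {ζ : Z} {η : Y} (hd : ContDiffAt ℝ 2 Φ ζ) (h h' : Z × Y) :
    hess (fun z : Z × Y => Φ z.1) (ζ, η) h h' = hess Φ ζ h.1 h'.1 := by
  have h1 := hess_comp_affine hd (ContinuousLinearMap.fst ℝ Z Y) (ζ, η) (0 : Z) (by simp) h h'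
  simpa only [ContinuousLinearMap.coe_fst', zero_add] using h1

lemma fderiv_of_snd {Φ : Y → ℝ} {ζ : Z} {η : Y} (hd : DifferentiableAt ℝ Φ η) (h : Z × Y) :
    fderiv ℝ (fun z : Z × Y => Φ z.2) (ζ, η) h = fderiv ℝ Φ η h.2 := by
  have h2 : HasFDerivAt (fun z : Z × Y => Φ z.2)
      ((fderiv ℝ Φ η).comp (ContinuousLinearMap.snd ℝ Z Y)) (ζ, η) :=
    HasFDerivAt.comp (x := ((ζ, η) : Z × Y)) (f := Prod.snd) (g := Φ) (g' := fderiv ℝ Φ η)
      hd.hasFDerivAt hasFDerivAt_snd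
  rw [h2.fderiv]
  simp only [ContinuousLinearMap.comp_apply, ContinuousLinearMap.coe_snd']

lemma fderiv_of_fst {Φ : Z → ℝ} {ζ : Z} {η : Y} (hd : DifferentiableAt ℝ Φ ζ) (h : Z × Y) :
    fderiv ℝ (fun z : Z × Y => Φ z.1) (ζ, η) h = fderiv ℝ Φ ζ h.1 := by
  have h2 : HasFDerivAt (fun z : Z × Y => Φ z.1)
      ((fderiv ℝ Φ ζ).comp (ContinuousLinearMap.fst ℝ Z Y)) (ζ, η) :=
    HasFDerivAt.comp (x := ((ζ, η) : Z × Y)) (f := Prod.fst) (g := Φ) (g' := fderiv ℝ Φ ζ)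
      hd.hasFDerivAt hasFDerivAt_fst
  rw [h2.fderiv]
  simp

end Partial

namespace HessData

variable {V : Type*} [NormedAddCommGroup V] [InnerProductSpace ℝ V] (X : HessData V)

/-- No bad sequences: abstract form of Step D. -/
theorem no_bad_sequence [FiniteDimensional ℝ V] {V' ι : Type*} [NormedAddCommGroup V']
    [NormedSpace ℝ V'] [Fintype ι] {A : V × V → ℝ} {Bf : V × V' → ℝ} {W : Set V}
    {θ τ₁ τ' δ : ℝ} (hθ : 0 < θ) (hδ : 0 < δ) (hθδ : τ₁ - θ = δ) (hττ : τ₁ < τ') (hτ' : τ' < 1)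
    (hWS : W ⊆ X.S) (hWI : ∀ v ∈ convexHull ℝ W, τ₁ • v ∈ X.S)
    {lam₀ : ι → ℝ} (hlam₀ : ∀ j, 0 ≤ lam₀ j) (hsum₀ : ∑ j, lam₀ j = 1) {w₀ : ι → V}
    (hw₀ : ∀ j, w₀ j ∈ W) {u : V} (hu : ∑ j, lam₀ j • w₀ j = u)
    (hA0 : ContDiffAt ℝ 2 A (0, θ • u)) (hAj : ∀ j, ContDiffAt ℝ 2 A (0, τ' • w₀ j))
    (hB : ContDiffAt ℝ 2 Bf (θ • u, 0))
    (gA : ∀ ξ, fderiv ℝ (fun a => A (a, θ • u)) 0 ξ = -inner ℝ (θ • u) ξ)
    (gAj : ∀ j ξ, fderiv ℝ (fun a => A (a, τ' • w₀ j)) 0 ξ = -inner ℝ (τ' • w₀ j) ξ)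
    (gB : ∀ μ, fderiv ℝ (fun b => A (0, b)) (θ • u) μ / θ +
      fderiv ℝ (fun b => Bf (b, 0)) (θ • u) μ / δ = 0)
    (hHess : ∀ ξ μ, hess A (0, θ • u) (ξ, μ) (ξ, μ) =
      X.H (θ • u) ξ ξ - 2 * inner ℝ ξ μ + ‖μ‖ ^ 2)
    (hHessj : ∀ j ξ, hess (fun a => A (a, τ' • w₀ j)) 0 ξ ξ = X.H (τ' • w₀ j) ξ ξ)
    (hK : ∀ μ, hess (fun b => Bf (b, 0)) (θ • u) μ μ = X.K (θ • u) (τ₁ • u) μ μ)
    {a a' b b' : ℕ → V} {c : ℕ → V'} {q : ℕ → ι → V} {th : ℕ → ℝ} {lam : ℕ → ι → ℝ}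
    (ha : Tendsto a atTop (𝓝 0)) (ha' : Tendsto a' atTop (𝓝 0))
    (hb : Tendsto b atTop (𝓝 (θ • u))) (hb' : Tendsto b' atTop (𝓝 (θ • u)))
    (hc : Tendsto c atTop (𝓝 0)) (hq : ∀ j, Tendsto (fun k => q k j) atTop (𝓝 (τ' • w₀ j)))
    (hth : Tendsto th atTop (𝓝 θ)) (hlam : ∀ k j, 0 ≤ lam k j)
    (hlamlim : ∀ j, Tendsto (fun k => lam k j) atTop (𝓝 (lam₀ j)))
    (hsum : ∀ k, ∑ j, lam k j = 1)
    (hne : ∀ k, (a k, b k) ≠ (a' k, b' k))
    (hineq : ∀ k j, A (a k, b k) / th k + Bf (b k, c k) / δ - A (a k, q k j) / τ' ≤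
      A (a' k, b' k) / th k + Bf (b' k, c k) / δ - A (a' k, q k j) / τ')
    (hca : ∀ᶠ k in atTop, ∀ ξ, fderiv ℝ (fun x => A (x, b' k)) (a' k) ξ / th k =
      ∑ j, lam k j * (fderiv ℝ (fun x => A (x, q k j)) (a' k) ξ / τ'))
    (hcb : ∀ᶠ k in atTop, ∀ μ, fderiv ℝ (fun x => A (a' k, x)) (b' k) μ / th k +
      fderiv ℝ (fun x => Bf (x, c k)) (b' k) μ / δ = 0) : False := by
  have hθτ : θ < τ₁ := by linarith only [hδ, hθδ]
  have hτ'0 : 0 < τ' := by linarith only [hθ, hδ, hθδ, hττ]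
  let Φ : ι → (V × V) × (ℝ × V' × (ι → V)) → ℝ := fun j p =>
    A p.1 / p.2.1 + Bf (p.1.2, p.2.2.1) / δ - A (p.1.1, p.2.2.2 j) / τ'
  let η₀ : ℝ × V' × (ι → V) := (θ, 0, fun j => τ' • w₀ j)
  have hf1 : ContDiffAt ℝ 2 (fun p : (V × V) × (ℝ × V' × (ι → V)) => A p.1)
      ((0, θ • u), η₀) := by
    have : ContDiffAt ℝ 2 (fun p : (V × V) × (ℝ × V' × (ι → V)) => p.1) ((0, θ • u), η₀) :=
      contDiffAt_fst
    exact ContDiffAt.comp (x := (((0, θ • u), η₀) : (V × V) × (ℝ × V' × (ι → V))))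
      (g := A) (f := Prod.fst) hA0 this
  have hf2 : ContDiffAt ℝ 2 (fun p : (V × V) × (ℝ × V' × (ι → V)) => Bf (p.1.2, p.2.2.1))
      ((0, θ • u), η₀) := by
    have : ContDiffAt ℝ 2 (fun p : (V × V) × (ℝ × V' × (ι → V)) => (p.1.2, p.2.2.1))
        ((0, θ • u), η₀) := by fun_prop
    exact ContDiffAt.comp (x := (((0, θ • u), η₀) : (V × V) × (ℝ × V' × (ι → V))))
      (g := Bf) (f := fun p => (p.1.2, p.2.2.1)) hB this
  have hf3 : ∀ j, ContDiffAt ℝ 2
      (fun p : (V × V) × (ℝ × V' × (ι → V)) => A (p.1.1, p.2.2.2 j)) ((0, θ • u), η₀) := by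
    intro j
    have : ContDiffAt ℝ 2 (fun p : (V × V) × (ℝ × V' × (ι → V)) => (p.1.1, p.2.2.2 j))
        ((0, θ • u), η₀) := by fun_prop
    exact ContDiffAt.comp (x := (((0, θ • u), η₀) : (V × V) × (ℝ × V' × (ι → V))))
      (g := A) (f := fun p => (p.1.1, p.2.2.2 j)) (hAj j) this
  have hΦ : ∀ j, ContDiffAt ℝ 2 (Φ j) ((0, θ • u), η₀) := by
    intro j
    have h1 : ContDiffAt ℝ 2 (fun p : (V × V) × (ℝ × V' × (ι → V)) => p.2.1)
        ((0, θ • u), η₀) := by fun_prop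
    exact ((hf1.div h1 hθ.ne').add (hf2.div_const δ)).sub ((hf3 j).div_const τ')
  -- differentiability near the limit
  have hη : Tendsto (fun k => ((th k, c k, q k) : ℝ × V' × (ι → V))) atTop (𝓝 η₀) :=
    hth.prodMk_nhds (hc.prodMk_nhds (tendsto_pi_nhds.2 hq))
  have hbase : Tendsto (fun k => (((a' k, b' k), (th k, c k, q k)) :
      (V × V) × (ℝ × V' × (ι → V)))) atTop (𝓝 ((0, θ • u), η₀)) :=
    (ha'.prodMk_nhds hb').prodMk_nhds hη
  have dA0 : ∀ᶠ k in atTop, DifferentiableAt ℝ A (a' k, b' k) :=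
    (ha'.prodMk_nhds hb').eventually (eventually_differentiableAt hA0)
  have dB : ∀ᶠ k in atTop, DifferentiableAt ℝ Bf (b' k, c k) :=
    (hb'.prodMk_nhds hc).eventually (eventually_differentiableAt hB)
  have dAj : ∀ᶠ k in atTop, ∀ j, DifferentiableAt ℝ A (a' k, q k j) :=
    eventually_all.2 fun j => (ha'.prodMk_nhds (hq j)).eventually
      (eventually_differentiableAt (hAj j))
  have dΦ : ∀ᶠ k in atTop, ∀ j, DifferentiableAt ℝ (Φ j) ((a' k, b' k), (th k, c k, q k)) :=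
    eventually_all.2 fun j => hbase.eventually (eventually_differentiableAt (hΦ j))
  -- formula for the partial derivative
  have hform : ∀ (j : ι) (x y : V) (t : ℝ) (y' : V') (r : ι → V),
      DifferentiableAt ℝ (Φ j) ((x, y), (t, y', r)) → DifferentiableAt ℝ A (x, y) →
      DifferentiableAt ℝ Bf (y, y') → DifferentiableAt ℝ A (x, r j) → ∀ ξ μ : V,
      fderiv ℝ (Φ j) ((x, y), (t, y', r)) ((ξ, μ), 0) =
        fderiv ℝ (fun s => A (s, y)) x ξ / t - fderiv ℝ (fun s => A (s, r j)) x ξ / τ' +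
        (fderiv ℝ (fun s => A (x, s)) y μ / t + fderiv ℝ (fun s => Bf (s, y')) y μ / δ) := by
    intro j x y t y' r h1 h2 h3 h4 ξ μ
    rw [fderiv_partial_left h1]
    have e1 : HasFDerivAt (fun z : V × V => A z) (fderiv ℝ A (x, y)) (x, y) := h2.hasFDerivAt
    have h3' : DifferentiableAt ℝ (fun s => Bf (s, y')) y :=
      DifferentiableAt.comp (x := y) (g := Bf) (f := fun s => (s, y')) h3 (by fun_prop)
    have h4' : DifferentiableAt ℝ (fun s => A (s, r j)) x :=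
      DifferentiableAt.comp (x := x) (g := A) (f := fun s => (s, r j)) h4 (by fun_prop)
    have e2 : HasFDerivAt (fun z : V × V => Bf (z.2, y'))
        (fderiv ℝ (fun z : V × V => Bf (z.2, y')) (x, y)) (x, y) :=
      (DifferentiableAt.comp (x := (x, y)) (g := fun s => Bf (s, y')) (f := Prod.snd) h3'
        (by fun_prop)).hasFDerivAt
    have e3 : HasFDerivAt (fun z : V × V => A (z.1, r j))
        (fderiv ℝ (fun z : V × V => A (z.1, r j)) (x, y)) (x, y) :=
      (DifferentiableAt.comp (x := (x, y)) (g := fun s => A (s, r j)) (f := Prod.fst) h4'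
        (by fun_prop)).hasFDerivAt
    have e4 := ((e1.mul_const t⁻¹).add (e2.mul_const δ⁻¹)).sub (e3.mul_const τ'⁻¹)
    have e5 : (fun z : V × V => Φ j (z, (t, y', r))) =
        fun z : V × V => A z * t⁻¹ + Bf (z.2, y') * δ⁻¹ - A (z.1, r j) * τ'⁻¹ := by
      funext z
      simp only [Φ, div_eq_mul_inv]
    rw [e5]
    have e6 := e4.fderiv
    have e7 := congrArg (fun L : V × V →L[ℝ] ℝ => L (ξ, μ)) e6
    simp only [sub_apply, add_apply, smul_apply, smul_eq_mul] at e7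
    refine e7.trans ?_
    rw [fderiv_partial_add h2, fderiv_of_snd (Φ := fun s => Bf (s, y')) h3' (ξ, μ),
      fderiv_of_fst (Φ := fun s => A (s, r j)) h4' (ξ, μ)]
    simp only [div_eq_mul_inv]
    ring
  obtain ⟨h, hh0, hfirst, hsecond⟩ := seq_taylor (Φ := Φ) (ζ₀ := (0, θ • u)) (η₀ := η₀) hΦ
    (ζ := fun k => (a k, b k)) (ζ' := fun k => (a' k, b' k)) (η := fun k => (th k, c k, q k))
    (ha.prodMk_nhds hb) (ha'.prodMk_nhds hb') hη hne hlam hlamlim hineq (by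
      filter_upwards [dA0, dB, dAj, dΦ, hca, hcb] with k k1 k2 k3 k4 k5 k6
      rintro ⟨ξ, μ⟩
      have h1 : ∀ j, lam k j * fderiv ℝ (Φ j) ((a' k, b' k), (th k, c k, q k)) ((ξ, μ), 0) =
          lam k j * (fderiv ℝ (fun s => A (s, b' k)) (a' k) ξ / th k) -
            lam k j * (fderiv ℝ (fun s => A (s, q k j)) (a' k) ξ / τ') := by
        intro j
        rw [hform j _ _ _ _ _ (k4 j) k1 k2 (k3 j) ξ μ, k6 μ]
        ring
      rw [Finset.sum_congr rfl fun j _ => h1 j, Finset.sum_sub_distrib, ← Finset.sum_mul, hsum,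
        one_mul, k5 ξ, sub_self])
  obtain ⟨ξ, μ⟩ := h
  have hne' : ¬ (ξ = 0 ∧ μ = 0) := fun h => hh0 (by rw [h.1, h.2]; rfl)
  have two_ne : (2 : WithTop ℕ∞) ≠ 0 := by norm_num
  have hfirst' : ∀ j, inner ℝ (w₀ j - u) ξ ≤ 0 := by
    intro j
    have h1 := hfirst j
    have h2 := hform j 0 (θ • u) θ 0 (fun j => τ' • w₀ j) ((hΦ j).differentiableAt two_ne)
      (hA0.differentiableAt two_ne) (hB.differentiableAt two_ne)
      ((hAj j).differentiableAt two_ne) ξ μ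
    rw [gB, gA, gAj, add_zero] at h2
    have h3 : -inner ℝ (θ • u) ξ / θ - -inner ℝ (τ' • w₀ j) ξ / τ' = inner ℝ (w₀ j - u) ξ := by
      rw [real_inner_smul_left, real_inner_smul_left, inner_sub_left]
      field_simp
      ring
    rw [h3] at h2
    rw [← h2]
    exact h1
  have hpos := X.second_variation_pos hθ hθτ hττ hτ' hWS hWI hlam₀ hsum₀ hw₀ hu hne' hfirst'
  have hsec : ∀ j, hess (Φ j) ((0, θ • u), η₀) ((ξ, μ), 0) ((ξ, μ), 0) =
      X.H (θ • u) ξ ξ / θ - 2 * inner ℝ ξ μ / θ + X.Q θ τ₁ u μ -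
        X.H (τ' • w₀ j) ξ ξ / τ' := by
    intro j
    rw [hess_partial_left (hΦ j)]
    have c3 : ContDiffAt ℝ 2 (fun s => Bf (s, 0)) (θ • u) :=
      ContDiffAt.comp (x := θ • u) (g := Bf) (f := fun s => (s, 0)) hB (by fun_prop)
    have c4 : ContDiffAt ℝ 2 (fun s => A (s, τ' • w₀ j)) 0 :=
      ContDiffAt.comp (x := (0 : V)) (g := A) (f := fun s => (s, τ' • w₀ j)) (hAj j) (by fun_prop)
    have c2' : ContDiffAt ℝ 2 (fun z : V × V => Bf (z.2, 0)) (0, θ • u) :=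
      ContDiffAt.comp (x := ((0, θ • u) : V × V)) (g := fun s => Bf (s, 0)) (f := Prod.snd) c3
        contDiffAt_snd
    have c3' : ContDiffAt ℝ 2 (fun z : V × V => A (z.1, τ' • w₀ j)) (0, θ • u) :=
      ContDiffAt.comp (x := ((0, θ • u) : V × V)) (g := fun s => A (s, τ' • w₀ j)) (f := Prod.fst)
        c4 contDiffAt_fst
    have e5 : (fun z : V × V => Φ j (z, η₀)) =
        fun z : V × V => (θ⁻¹ * A z + δ⁻¹ * Bf (z.2, 0)) + (-τ'⁻¹) * A (z.1, τ' • w₀ j) := by
      funext z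
      simp only [Φ, η₀, div_eq_mul_inv]
      ring
    rw [e5, hess_add ((contDiffAt_const.mul hA0).add (contDiffAt_const.mul c2'))
      (contDiffAt_const.mul c3'), hess_add (contDiffAt_const.mul hA0) (contDiffAt_const.mul c2'),
      hess_const_mul hA0, hess_const_mul c2', hess_const_mul c3']
    simp only [add_apply, smul_apply, smul_eq_mul]
    rw [hHess, hess_of_snd (Φ := fun s => Bf (s, 0)) c3 (ξ, μ) (ξ, μ),
      hess_of_fst (Φ := fun s => A (s, τ' • w₀ j)) c4 (ξ, μ) (ξ, μ)]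
    simp only
    rw [hK, hHessj, Q, hθδ]
    ring
  have hfin : ∑ j, lam₀ j * hess (Φ j) ((0, θ • u), η₀) ((ξ, μ), 0) ((ξ, μ), 0) =
      X.H (θ • u) ξ ξ / θ - 2 * inner ℝ ξ μ / θ + X.Q θ τ₁ u μ -
      ∑ j, lam₀ j * (X.H (τ' • w₀ j) ξ ξ / τ') := by
    rw [Finset.sum_congr rfl fun j _ => by rw [hsec j, mul_sub], Finset.sum_sub_distrib,
      ← Finset.sum_mul, hsum₀, one_mul]
  rw [hfin] at hsecond
  linarith

end HessData

end Vale.Agent.P234
end
end

section

section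

/-! Consequences of `Facts`: uniqueness, betweenness, continuity (`GeoBasic`), smooth local
inverse and openness of the injectivity domain (`GeoLog`). -/
end
end

section

section

/-! Step A: critical points. -/

set_option maxSynthPendingDepth 3

open Bundle Manifold Set Filter
open scoped ContDiff Manifold Topology

namespace Vale.Agent.P234

noncomputable section

variable {E : Type*} [NormedAddCommGroup E] [NormedSpace ℝ E] [FiniteDimensional ℝ E]
  {M : Type*} [MetricSpace M] [ChartedSpace E M]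
  [RiemannianBundle (fun x : M => TangentSpace 𝓘(ℝ, E) x)]
  [IsManifold 𝓘(ℝ, E) ∞ M]
  [IsContMDiffRiemannianBundle 𝓘(ℝ, E) ∞ E (fun x : M => TangentSpace 𝓘(ℝ, E) x)]
  [CompactSpace M]
  {e : ∀ x : M, TangentSpace 𝓘(ℝ, E) x → M}

/-- Difference quotients along a sequence of nearby points. -/
lemma tendsto_slope_of_strict {V : Type*} [NormedAddCommGroup V] [NormedSpace ℝ V]
    {f : V → ℝ} {f' : V →L[ℝ] ℝ} {p : V} (hf : HasStrictFDerivAt f f' p) {r : ℕ → ℝ}
    (hr : Tendsto r atTop (𝓝 0)) (hr0 : ∀ k, 0 < r k) {v : ℕ → V}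
    (hv : Tendsto v atTop (𝓝 p)) (ξ : V) :
    Tendsto (fun k => (f (v k + r k • ξ) - f (v k)) / r k) atTop (𝓝 (f' ξ)) := by
  have h1 : Tendsto (fun k => (v k + r k • ξ, v k)) atTop (𝓝 (p, p)) := by
    have : Tendsto (fun k => v k + r k • ξ) atTop (𝓝 (p + (0 : ℝ) • ξ)) :=
      hv.add (hr.smul_const ξ)
    rw [zero_smul, add_zero] at this
    rw [nhds_prod_eq]
    exact this.prodMk hv
  have h2 := hf.isLittleO.comp_tendsto h1
  have h3 : (fun k => f (v k + r k • ξ) - f (v k) - r k * f' ξ) =o[atTop] fun k => r k := by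
    have h4 : (fun k => f (v k + r k • ξ) - f (v k) - r k * f' ξ) =o[atTop]
        fun k => r k • ξ := by
      refine (h2.congr (fun k => ?_) (fun k => ?_))
      · simp only [Function.comp, add_sub_cancel_left, map_smul, smul_eq_mul, sub_sub]
      · simp only [Function.comp, add_sub_cancel_left]
    refine h4.trans_isBigO ?_
    refine Asymptotics.IsBigO.of_bound ‖ξ‖ (Eventually.of_forall fun k => ?_)
    rw [norm_smul, mul_comm]
  have h5 := h3.tendsto_div_nhds_zero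
  have h6 : Tendsto (fun k => (f (v k + r k • ξ) - f (v k) - r k * f' ξ) / r k + f' ξ) atTop
      (𝓝 (0 + f' ξ)) := h5.add_const _
  rw [zero_add] at h6
  refine h6.congr (fun k => ?_)
  have := (hr0 k).ne'
  field_simp
  ring

set_option backward.isDefEq.respectTransparency false in
/-- The subdifferential is compact. -/
lemma Pot.isCompact_sub (P : Pot M) (he : IsExp e) (z : M) : IsCompact (P.sub e z) := by
  classical
  set n := Module.finrank ℝ E + 1 with hn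
  have hc : IsCompact ((stdSimplex ℝ (Fin n)) ×ˢ
      (Set.pi univ (fun _ : Fin n => P.vtx e z))) :=
    (isCompact_stdSimplex ℝ (Fin n)).prod (isCompact_univ_pi fun _ => P.isCompact_vtx he z)
  have hcont : Continuous (fun p : (Fin n → ℝ) × (Fin n → TangentSpace 𝓘(ℝ, E) z) =>
      ∑ j, p.1 j • p.2 j) := by
    fun_prop
  have himg := hc.image hcont
  have heq : P.sub e z = (fun p : (Fin n → ℝ) × (Fin n → TangentSpace 𝓘(ℝ, E) z) =>
      ∑ j, p.1 j • p.2 j) '' ((stdSimplex ℝ (Fin n)) ×ˢ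
      (Set.pi univ (fun _ : Fin n => P.vtx e z))) := by
    apply Set.Subset.antisymm
    · intro u hu
      obtain ⟨lam, w, h0, h1, hw, hsum⟩ := P.exists_rep hu
      exact ⟨(lam, w), ⟨⟨h0, h1⟩, fun j _ => hw j⟩, hsum⟩
    · rintro _ ⟨⟨lam, w⟩, ⟨⟨h0, h1⟩, hw⟩, rfl⟩
      exact (convex_convexHull ℝ _).sum_mem (fun j _ => h0 j) h1
        (fun j _ => subset_convexHull ℝ _ (hw j (mem_univ _)))
  rw [heq]
  exact himg

set_option backward.isDefEq.respectTransparency false in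
omit [CompactSpace M] in
/-- Upper first variation of the cost. -/
lemma cost_variation (F : Facts e) {x₀ : M} {v : TangentSpace 𝓘(ℝ, E) x₀}
    (hv : v ∈ segMin e x₀) (ξ : TangentSpace 𝓘(ℝ, E) x₀) {r : ℕ → ℝ}
    (hr : Tendsto r atTop (𝓝 0)) (hr0 : ∀ k, 0 < r k) :
    ∃ u : ℕ → ℝ, (∀ k, (cost (e x₀ (r k • ξ)) (e x₀ v) - cost x₀ (e x₀ v)) / r k ≤ u k) ∧
      Tendsto u atTop (𝓝 (-(inner ℝ v ξ))) := by
  have he := F.isExp
  set v' : TangentSpace 𝓘(ℝ, E) x₀ := (1 / 2 : ℝ) • v with hv'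
  have hv'i : v' ∈ injDomain e x₀ := smul_mem_injDomain he hv (by norm_num) (by norm_num)
  have hv's : v' ∈ segMin e x₀ := injDomain_subset_segMin he x₀ hv'i
  have hsm : SmoothAt E x₀ (e x₀ v') := F.smooth_cost x₀ v' hv'i
  set m := e x₀ v' with hm
  have hx0 : e x₀ (0 : TangentSpace 𝓘(ℝ, E) x₀) = x₀ := he.map_zero x₀
  have hder := hasFDerivAt_cost_zero he x₀ v' hv's hsm
  have hsm' : SmoothAt E (e x₀ (0 : TangentSpace 𝓘(ℝ, E) x₀)) (e x₀ v') := by
    rw [hx0]; exact hsm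
  have hcd : ContDiffAt ℝ ∞ (fun a : TangentSpace 𝓘(ℝ, E) x₀ => cost (e x₀ a) (e x₀ v')) 0 := by
    have h1 := SmoothAt.coord he (a := (0 : TangentSpace 𝓘(ℝ, E) x₀)) (b := v') hsm'
    have h2 : ContDiffAt ℝ ∞ (fun a : TangentSpace 𝓘(ℝ, E) x₀ => (a, v')) 0 :=
      contDiffAt_id.prodMk contDiffAt_const
    exact h1.comp (0 : TangentSpace 𝓘(ℝ, E) x₀) h2
  have hstrict : HasStrictFDerivAt (fun a : TangentSpace 𝓘(ℝ, E) x₀ => cost (e x₀ a) m)
      (-(innerSL ℝ v')) 0 := by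
    have := hcd.hasStrictFDerivAt (by simp)
    rwa [hder.fderiv] at this
  have hlim := tendsto_slope_of_strict hstrict hr hr0
    (tendsto_const_nhds : Tendsto (fun _ : ℕ => (0 : TangentSpace 𝓘(ℝ, E) x₀)) atTop _) ξ
  refine ⟨fun k => 2 * ((cost (e x₀ (0 + r k • ξ)) m - cost (e x₀ 0) m) / r k),
    fun k => ?_, ?_⟩
  · have h1 := cost_ineq (e x₀ (r k • ξ)) m (e x₀ v) (s := 1 / 2) (t := 1 / 2)
      (by norm_num) (by norm_num)
    have h2 : cost x₀ (e x₀ v) = ‖v‖ ^ 2 / 2 := by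
      have := segMin_cost he hv (s := 0) (t := 1) le_rfl zero_le_one le_rfl
      rw [zero_smul, one_smul, hx0] at this
      rw [this]; ring
    have h3 : cost x₀ m = ‖v‖ ^ 2 / 8 := by
      have := segMin_cost he hv (s := 0) (t := 1 / 2) le_rfl (by norm_num) (by norm_num)
      rw [zero_smul, hx0] at this
      rw [hm, hv', this]; ring
    have h4 : cost m (e x₀ v) = ‖v‖ ^ 2 / 8 := by
      have := segMin_cost he hv (s := 1 / 2) (t := 1) (by norm_num) (by norm_num) le_rfl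
      rw [one_smul] at this
      rw [hm, hv', this]; ring
    beta_reduce
    rw [zero_add, hx0, h2, h3]
    rw [h4] at h1
    rw [← mul_div_assoc]
    apply div_le_div_of_nonneg_right _ (hr0 k).le
    norm_num at h1
    linarith only [h1]
  · have := hlim.const_mul 2
    convert this using 2
    simp [hv']

set_option backward.isDefEq.respectTransparency false in
/-- Upper first variation of the potential along a sequence. -/
lemma Pot.phi_variation (F : Facts e) (P : Pot M) {x₀ : M} (ξ : TangentSpace 𝓘(ℝ, E) x₀)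
    {r : ℕ → ℝ} (hr : Tendsto r atTop (𝓝 0)) (hr0 : ∀ k, 0 < r k) :
    ∃ (φ : ℕ → ℕ) (u : ℕ → ℝ) (w₀ : TangentSpace 𝓘(ℝ, E) x₀), StrictMono φ ∧
      w₀ ∈ P.vtx e x₀ ∧
      (∀ k, (P.phi (e x₀ (r (φ k) • ξ)) - P.phi x₀) / r (φ k) ≤ u k) ∧
      Tendsto u atTop (𝓝 (inner ℝ w₀ ξ)) := by
  have he := F.isExp
  have hx0 : e x₀ (0 : TangentSpace 𝓘(ℝ, E) x₀) = x₀ := he.map_zero x₀
  -- the moving points
  have hexpc : Continuous (e x₀) := (contMDiff_exp_fiber he x₀).continuous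
  have hxlim : Tendsto (fun k => e x₀ (r k • ξ)) atTop (𝓝 x₀) := by
    have h1 : Tendsto (fun k => r k • ξ) atTop (𝓝 ((0 : ℝ) • ξ)) := hr.smul_const ξ
    rw [zero_smul] at h1
    have h2 := (hexpc.tendsto 0).comp h1
    rwa [hx0] at h2
  -- active indices and minimizing vectors
  have hact : ∀ k, ∃ w : TangentSpace 𝓘(ℝ, E) (e x₀ (r k • ξ)), w ∈ P.vtx e (e x₀ (r k • ξ)) := by
    intro k
    obtain ⟨i, hi⟩ := P.attained (e x₀ (r k • ξ))
    obtain ⟨w, hw1, hw2⟩ := F.hopfRinow (e x₀ (r k • ξ)) (P.y i)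
    refine ⟨w, ?_, i, hw1, hi⟩
    show dist _ _ = _
    rw [hw1, hw2]
  choose w hw using hact
  obtain ⟨z₀, w₀, φ, hφ, hlim⟩ := exists_tendstoTB (fun k => e x₀ (r k • ξ)) w
    (Metric.diam (univ : Set M)) (fun k => P.norm_le_of_mem_sub (subset_convexHull ℝ _ (hw k)))
  have hz : z₀ = x₀ :=
    tendsto_nhds_unique hlim.base (hxlim.comp hφ.tendsto_atTop)
  subst hz
  have hw0 : w₀ ∈ P.vtx e z₀ := P.vtx_closed he hlim (fun k => hw (φ k))
  -- half points
  have hhalf : TendstoTB (z := fun k => e z₀ (r (φ k) • ξ)) (fun k => (1 / 2 : ℝ) • w (φ k))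
      ((1 / 2 : ℝ) • w₀) := hlim.smul tendsto_const_nhds
  have hq : Tendsto (fun k => e (e z₀ (r (φ k) • ξ)) ((1 / 2 : ℝ) • w (φ k))) atTop
      (𝓝 (e z₀ ((1 / 2 : ℝ) • w₀))) := hhalf.exp he
  set q₀ : M := e z₀ ((1 / 2 : ℝ) • w₀) with hq0
  have hqi : (1 / 2 : ℝ) • w₀ ∈ injDomain e z₀ :=
    smul_mem_injDomain he hw0.1 (by norm_num) (by norm_num)
  have hqs : (1 / 2 : ℝ) • w₀ ∈ segMin e z₀ := injDomain_subset_segMin he z₀ hqi
  have hsm : SmoothAt E z₀ q₀ := F.smooth_cost z₀ _ hqi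
  -- coordinates of the half points at `q₀`
  have hb : ∀ k, ∃ b : TangentSpace 𝓘(ℝ, E) q₀,
      e q₀ b = e (e z₀ (r (φ k) • ξ)) ((1 / 2 : ℝ) • w (φ k)) ∧
      dist q₀ (e (e z₀ (r (φ k) • ξ)) ((1 / 2 : ℝ) • w (φ k))) = ‖b‖ := fun k =>
    F.hopfRinow q₀ _
  choose b hb1 hb2 using hb
  have hb0 : Tendsto b atTop (𝓝 0) := by
    rw [tendsto_zero_iff_norm_tendsto_zero]
    have h1 : Tendsto (fun k => dist q₀ (e (e z₀ (r (φ k) • ξ)) ((1 / 2 : ℝ) • w (φ k)))) atTop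
        (𝓝 (dist q₀ q₀)) := tendsto_const_nhds.dist hq
    rw [dist_self] at h1
    exact h1.congr hb2
  have hq00 : e q₀ (0 : TangentSpace 𝓘(ℝ, E) q₀) = q₀ := he.map_zero q₀
  have hsm' : SmoothAt E (e z₀ (0 : TangentSpace 𝓘(ℝ, E) z₀))
      (e q₀ (0 : TangentSpace 𝓘(ℝ, E) q₀)) := by
    rw [hx0, hq00]; exact hsm
  have hcd := SmoothAt.coord he hsm'
  set G : TangentSpace 𝓘(ℝ, E) z₀ × TangentSpace 𝓘(ℝ, E) q₀ → ℝ :=
    fun p => cost (e z₀ p.1) (e q₀ p.2) with hG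
  have hstrict : HasStrictFDerivAt G (fderiv ℝ G (0, 0)) (0, 0) :=
    hcd.hasStrictFDerivAt (by simp)
  have hder := hasFDerivAt_cost_zero he z₀ ((1 / 2 : ℝ) • w₀) hqs hsm
  have hGξ : fderiv ℝ G (0, 0) (ξ, 0) = -(inner ℝ ((1 / 2 : ℝ) • w₀) ξ) := by
    have h1 : HasFDerivAt (fun a : TangentSpace 𝓘(ℝ, E) z₀ =>
        (a, (0 : TangentSpace 𝓘(ℝ, E) q₀)))
        (ContinuousLinearMap.inl ℝ (TangentSpace 𝓘(ℝ, E) z₀) (TangentSpace 𝓘(ℝ, E) q₀)) 0 :=
      hasFDerivAt_prodMk_left 0 0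
    have h2 : HasFDerivAt (fun a : TangentSpace 𝓘(ℝ, E) z₀ =>
        G (a, (0 : TangentSpace 𝓘(ℝ, E) q₀)))
        ((fderiv ℝ G (0, 0)).comp
          (ContinuousLinearMap.inl ℝ (TangentSpace 𝓘(ℝ, E) z₀) (TangentSpace 𝓘(ℝ, E) q₀))) 0 :=
      HasFDerivAt.comp (g := G) (f := fun a : TangentSpace 𝓘(ℝ, E) z₀ =>
        (a, (0 : TangentSpace 𝓘(ℝ, E) q₀))) (0 : TangentSpace 𝓘(ℝ, E) z₀) hstrict.hasFDerivAt h1
    have h3 : (fun a : TangentSpace 𝓘(ℝ, E) z₀ => G (a, (0 : TangentSpace 𝓘(ℝ, E) q₀))) =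
        fun a => cost (e z₀ a) (e z₀ ((1 / 2 : ℝ) • w₀)) := by
      funext a
      simp only [hG]
      rw [hq00]
    rw [h3] at h2
    have h4 := h2.unique hder
    have h5 := congrArg (fun L => L ξ) h4
    rw [real_inner_smul_left]
    simpa using h5
  have hlim2 := tendsto_slope_of_strict hstrict (hr.comp hφ.tendsto_atTop)
    (fun k => hr0 (φ k)) (v := fun k => ((0 : TangentSpace 𝓘(ℝ, E) z₀), b k))
    (by
      rw [nhds_prod_eq]
      exact tendsto_const_nhds.prodMk hb0) (ξ, (0 : TangentSpace 𝓘(ℝ, E) q₀))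
  refine ⟨φ, fun k => -2 * ((G ((0, b k) + r (φ k) • (ξ, (0 : TangentSpace 𝓘(ℝ, E) q₀))) -
    G (0, b k)) / r (φ k)), w₀, hφ, hw0, fun k => ?_, ?_⟩
  · have hGa : G ((0, b k) + r (φ k) • (ξ, (0 : TangentSpace 𝓘(ℝ, E) q₀))) =
        cost (e z₀ (r (φ k) • ξ)) (e q₀ (b k)) := by
      simp only [hG, Prod.smul_mk, smul_zero, Prod.mk_add_mk, zero_add, add_zero]
    have hGb : G (0, b k) = cost z₀ (e q₀ (b k)) := by
      simp only [hG]
      rw [hx0]
    beta_reduce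
    rw [hGa, hGb]
    set x := e z₀ (r (φ k) • ξ) with hx
    set q := e x ((1 / 2 : ℝ) • w (φ k)) with hqdef
    have hbq : e q₀ (b k) = q := hb1 k
    rw [hbq]
    obtain ⟨hwm, i, hwi, hphi⟩ := hw (φ k)
    have h1 := P.lower i z₀
    have h2 := cost_ineq z₀ q (P.y i) (s := 1 / 2) (t := 1 / 2) (by norm_num) (by norm_num)
    have h3 : cost x (P.y i) = ‖w (φ k)‖ ^ 2 / 2 := by
      have := segMin_cost he hwm (s := 0) (t := 1) le_rfl zero_le_one le_rfl
      rw [zero_smul, one_smul, he.map_zero] at this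
      rw [← hwi, this]; ring
    have h4 : cost x q = ‖w (φ k)‖ ^ 2 / 8 := by
      have := segMin_cost he hwm (s := 0) (t := 1 / 2) le_rfl (by norm_num) (by norm_num)
      rw [zero_smul, he.map_zero] at this
      rw [hqdef, this]; ring
    have h5 : cost q (P.y i) = ‖w (φ k)‖ ^ 2 / 8 := by
      have := segMin_cost he hwm (s := 1 / 2) (t := 1) (by norm_num) (by norm_num) le_rfl
      rw [one_smul] at this
      rw [hqdef, ← hwi, this]; ring
    rw [← mul_div_assoc]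
    apply div_le_div_of_nonneg_right _ (hr0 (φ k)).le
    norm_num at h2
    linarith only [hphi, h1, h3, h4, h5, h2]
  · have h := hlim2.const_mul (-2)
    rw [hGξ, real_inner_smul_left] at h
    have h' : -2 * -(1 / 2 * inner ℝ w₀ ξ) = inner ℝ w₀ ξ := by ring
    rw [h'] at h
    exact h

set_option backward.isDefEq.respectTransparency false in
/-- Step A: at a local minimizer of `cost · y / τ + φ`, minimizing vectors towards `y`,
divided by `τ`, are subgradients. -/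
theorem stepA (F : Facts e) (P : Pot M) {τ : ℝ} (hτ : 0 < τ) {x₀ y : M}
    (hmin : ∀ᶠ x in 𝓝 x₀, cost x₀ y / τ + P.phi x₀ ≤ cost x y / τ + P.phi x)
    {v : TangentSpace 𝓘(ℝ, E) x₀} (hv : v ∈ segMin e x₀) (hy : e x₀ v = y) :
    (1 / τ) • v ∈ P.sub e x₀ := by
  by_contra hnot
  have he := F.isExp
  have hx0 : e x₀ (0 : TangentSpace 𝓘(ℝ, E) x₀) = x₀ := he.map_zero x₀
  obtain ⟨f, c, hf1, hf2⟩ := geometric_hahn_banach_closed_point (convex_convexHull ℝ _)
    (P.isCompact_sub he x₀).isClosed hnot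
  have : FiniteDimensional ℝ (TangentSpace 𝓘(ℝ, E) x₀) := inferInstanceAs (FiniteDimensional ℝ E)
  have : CompleteSpace (TangentSpace 𝓘(ℝ, E) x₀) := FiniteDimensional.complete ℝ _
  set ξ : TangentSpace 𝓘(ℝ, E) x₀ := (InnerProductSpace.toDual ℝ _).symm f with hξ
  have hfξ : ∀ w, f w = inner ℝ w ξ := by
    intro w
    rw [real_inner_comm, hξ, InnerProductSpace.toDual_symm_apply]
  set r : ℕ → ℝ := fun k => 1 / ((k : ℝ) + 1) with hr
  have hr0 : ∀ k, 0 < r k := fun k => by (clear * -; positivity)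
  have hrlim : Tendsto r atTop (𝓝 0) := tendsto_one_div_add_atTop_nhds_zero_nat
  obtain ⟨φ, u, w₀, hφ, hw0, hu1, hu2⟩ := P.phi_variation F ξ hrlim hr0
  obtain ⟨u', hu1', hu2'⟩ := cost_variation F hv ξ (hrlim.comp hφ.tendsto_atTop)
    (fun k => hr0 (φ k))
  have hexpc : Continuous (e x₀) := (contMDiff_exp_fiber he x₀).continuous
  have hxlim : Tendsto (fun k => e x₀ (r k • ξ)) atTop (𝓝 x₀) := by
    have h1 : Tendsto (fun k => r k • ξ) atTop (𝓝 ((0 : ℝ) • ξ)) := hrlim.smul_const ξ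
    rw [zero_smul] at h1
    have h2 := (hexpc.tendsto 0).comp h1
    rwa [hx0] at h2
  have hev := (hxlim.comp hφ.tendsto_atTop).eventually hmin
  have hlim : Tendsto (fun k => (1 / τ) * u' k + u k) atTop
      (𝓝 ((1 / τ) * (-(inner ℝ v ξ)) + inner ℝ w₀ ξ)) := (hu2'.const_mul _).add hu2
  have hge : 0 ≤ (1 / τ) * (-(inner ℝ v ξ)) + inner ℝ w₀ ξ := by
    refine ge_of_tendsto hlim (hev.mono fun k hk => ?_)
    have h1 := hu1 k
    have h2 := hu1' k
    have hrk := hr0 (φ k)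
    simp only [Function.comp] at h2 hk
    rw [hy] at h2
    rw [div_le_iff₀ hrk] at h1 h2
    have h3 : 0 ≤ (cost (e x₀ (r (φ k) • ξ)) y - cost x₀ y) / τ +
        (P.phi (e x₀ (r (φ k) • ξ)) - P.phi x₀) := by
      rw [sub_div]; linarith only [hk]
    have h4 : (cost (e x₀ (r (φ k) • ξ)) y - cost x₀ y) / τ ≤ (u' k * r (φ k)) / τ :=
      div_le_div_of_nonneg_right h2 hτ.le
    have h5 : 0 ≤ ((1 / τ) * u' k + u k) * r (φ k) := by
      have : ((1 / τ) * u' k + u k) * r (φ k) = (u' k * r (φ k)) / τ + u k * r (φ k) := by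
        ring
      rw [this]; linarith only [h1, h3, h4]
    exact nonneg_of_mul_nonneg_left h5 hrk
  have h1 := hf1 w₀ (subset_convexHull ℝ _ hw0)
  rw [hfξ] at h1 hf2
  rw [real_inner_smul_left] at hf2
  have : (1 / τ) * (-(inner ℝ v ξ)) = - ((1 / τ) * inner ℝ v ξ) := by ring
  rw [this] at hge
  linarith only [hf2, hge, h1]

end

end Vale.Agent.P234
end
end

section

section

/-! Hessians of the cost in exponential coordinates, from `IsExp` and local smoothness. -/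

set_option maxSynthPendingDepth 3

open Bundle Manifold Set Filter
open scoped ContDiff Manifold Topology

namespace Vale.Agent.P234

noncomputable section

variable {E : Type*} [NormedAddCommGroup E] [NormedSpace ℝ E] [FiniteDimensional ℝ E]
  {M : Type*} [MetricSpace M] [ChartedSpace E M]
  [RiemannianBundle (fun x : M => TangentSpace 𝓘(ℝ, E) x)]
  [IsManifold 𝓘(ℝ, E) ∞ M]
  [IsContMDiffRiemannianBundle 𝓘(ℝ, E) ∞ E (fun x : M => TangentSpace 𝓘(ℝ, E) x)]
  {e : ∀ x : M, TangentSpace 𝓘(ℝ, E) x → M}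

/-- Hessian of the cost in the first variable in exponential coordinates. -/
def costHess (e : ∀ x : M, TangentSpace 𝓘(ℝ, E) x → M) (z : M) (v : TangentSpace 𝓘(ℝ, E) z) :
    TangentSpace 𝓘(ℝ, E) z →L[ℝ] TangentSpace 𝓘(ℝ, E) z →L[ℝ] ℝ :=
  hess (fun a : TangentSpace 𝓘(ℝ, E) z => cost (e z a) (e z v)) 0

/-- Hessian in the middle variable: `b ↦ cost (e z b) (e z q)` at `b = p`. -/
def midHess (e : ∀ x : M, TangentSpace 𝓘(ℝ, E) x → M) (z : M) (p q : TangentSpace 𝓘(ℝ, E) z) :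
    TangentSpace 𝓘(ℝ, E) z →L[ℝ] TangentSpace 𝓘(ℝ, E) z →L[ℝ] ℝ :=
  hess (fun b : TangentSpace 𝓘(ℝ, E) z => cost (e z b) (e z q)) p

/-- The cost in exponential coordinates at the point `z`. -/
lemma coord0 (he : IsExp e) {z : M} {v : TangentSpace 𝓘(ℝ, E) z}
    (hs : SmoothAt E z (e z v)) :
    ContDiffAt ℝ ∞ (fun p : TangentSpace 𝓘(ℝ, E) z × TangentSpace 𝓘(ℝ, E) z =>
      cost (e z p.1) (e z p.2)) (0, v) := by
  refine SmoothAt.coord he (a := (0 : TangentSpace 𝓘(ℝ, E) z)) (b := v) ?_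
  rw [he.map_zero]
  exact hs

lemma contDiffAt_fst0 (he : IsExp e) {z : M} {v : TangentSpace 𝓘(ℝ, E) z}
    (hs : SmoothAt E z (e z v)) :
    ContDiffAt ℝ ∞ (fun a : TangentSpace 𝓘(ℝ, E) z => cost (e z a) (e z v)) 0 := by
  have h1 := coord0 he hs
  have h2 : ContDiffAt ℝ ∞ (fun a : TangentSpace 𝓘(ℝ, E) z =>
      ((a, v) : TangentSpace 𝓘(ℝ, E) z × TangentSpace 𝓘(ℝ, E) z)) 0 := by fun_prop
  exact ContDiffAt.comp (g := fun p : TangentSpace 𝓘(ℝ, E) z × TangentSpace 𝓘(ℝ, E) z =>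
      cost (e z p.1) (e z p.2)) 0 h1 h2

lemma contDiffAt_costHess (he : IsExp e) {z : M} {v : TangentSpace 𝓘(ℝ, E) z}
    (hs : SmoothAt E z (e z v)) : ContDiffAt ℝ ∞ (costHess e z) v := by
  have h1 := contDiffAt_hess_fst (coord0 he hs)
  have h2 : ContDiffAt ℝ ∞ (fun b : TangentSpace 𝓘(ℝ, E) z =>
      ((0, b) : TangentSpace 𝓘(ℝ, E) z × TangentSpace 𝓘(ℝ, E) z)) v := by fun_prop
  exact ContDiffAt.comp (g := fun p : TangentSpace 𝓘(ℝ, E) z × TangentSpace 𝓘(ℝ, E) z =>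
    hess (fun a' => cost (e z a') (e z p.2)) p.1) v h1 h2

lemma contDiffAt_midHess (he : IsExp e) {z : M} {p q : TangentSpace 𝓘(ℝ, E) z}
    (hs : SmoothAt E (e z p) (e z q)) :
    ContDiffAt ℝ ∞ (fun r : TangentSpace 𝓘(ℝ, E) z × TangentSpace 𝓘(ℝ, E) z =>
      midHess e z r.1 r.2) (p, q) :=
  contDiffAt_hess_fst (SmoothAt.coord he hs)

lemma iteratedDeriv_cost_eq (he : IsExp e) {z : M} {v : TangentSpace 𝓘(ℝ, E) z}
    (hs : SmoothAt E z (e z v)) (ξ : TangentSpace 𝓘(ℝ, E) z) :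
    iteratedDeriv 2 (fun t : ℝ => cost (e z (t • ξ)) (e z v)) 0 = costHess e z v ξ ξ := by
  have h := iteratedDeriv_two_line ((contDiffAt_fst0 he hs).of_le two_le_infty) ξ
  simp only [zero_add] at h
  exact h

lemma costHess_symm (he : IsExp e) {z : M} {v : TangentSpace 𝓘(ℝ, E) z}
    (hs : SmoothAt E z (e z v)) (ξ η : TangentSpace 𝓘(ℝ, E) z) :
    costHess e z v ξ η = costHess e z v η ξ :=
  hess_symm ((contDiffAt_fst0 he hs).of_le two_le_infty) ξ η

/-- The radial direction is an eigenvector of the Hessian with eigenvalue one. -/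
lemma costHess_radial (he : IsExp e) {z : M} {v : TangentSpace 𝓘(ℝ, E) z}
    (hv : v ∈ segMin e z) (hs : SmoothAt E z (e z v)) (ξ : TangentSpace 𝓘(ℝ, E) z) :
    costHess e z v v ξ = inner ℝ v ξ := by
  refine hess_radial ((contDiffAt_fst0 he hs).of_le two_le_infty)
    (hasFDerivAt_cost_zero he z v hv hs) ?_ ?_ ξ
  · intro a ha
    have h1 : dist z (e z v) = ‖v‖ := hv
    have h2 : dist z (e z a) ≤ ‖a‖ := dist_exp_le' he z a
    have h3 : dist z (e z v) ≤ dist z (e z a) + dist (e z a) (e z v) := dist_triangle _ _ _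
    have h4 : ‖v‖ - ‖a‖ ≤ dist (e z a) (e z v) := by linarith only [h1, h2, h3]
    have h5 : 0 ≤ ‖v‖ - ‖a‖ := by linarith only [ha]
    unfold cost
    nlinarith only [ha, h1, h2, h3]
  · intro t ht0 ht1
    have h1 := segMin_cost he hv ht0 ht1 le_rfl
    rw [one_smul] at h1
    exact h1

/-- The full second derivative of `(a, b) ↦ cost (e z a) (e z b)` at `(0, v)`. -/
lemma hess_pair (he : IsExp e) {z : M} {v : TangentSpace 𝓘(ℝ, E) z}
    (hN : ∀ᶠ b in 𝓝 v, b ∈ segMin e z) (hs : SmoothAt E z (e z v))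
    (ξ μ : TangentSpace 𝓘(ℝ, E) z) :
    hess (fun p : TangentSpace 𝓘(ℝ, E) z × TangentSpace 𝓘(ℝ, E) z =>
      cost (e z p.1) (e z p.2)) (0, v) (ξ, μ) (ξ, μ) =
      costHess e z v ξ ξ - 2 * inner ℝ ξ μ + ‖μ‖ ^ 2 := by
  have hF := coord0 he hs
  rw [hess_expand hF, hess_fst hF, hess_snd hF]
  have h1 : hess (fun b' : TangentSpace 𝓘(ℝ, E) z =>
      (fun p : TangentSpace 𝓘(ℝ, E) z × TangentSpace 𝓘(ℝ, E) z =>
      cost (e z p.1) (e z p.2)) (0, b')) v μ μ = ‖μ‖ ^ 2 := by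
    rw [hess_half_norm_sq (V := TangentSpace 𝓘(ℝ, E) z) (v := v), real_inner_self_eq_norm_sq]
    filter_upwards [hN] with b hb
    have h2 : dist z (e z b) = ‖b‖ := hb
    simp only [cost, he.map_zero, h2]
  have h3 : hess (fun p : TangentSpace 𝓘(ℝ, E) z × TangentSpace 𝓘(ℝ, E) z =>
      cost (e z p.1) (e z p.2)) (0, v) (0, μ) (ξ, 0) = - inner ℝ ξ μ := by
    refine hess_mixed hF ξ μ ?_
    have hcont : Tendsto (fun s : ℝ => v + s • μ) (𝓝 0) (𝓝 v) := by
      have : Continuous (fun s : ℝ => v + s • μ) := by fun_prop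
      have h4 := this.tendsto 0
      simpa only [zero_smul, add_zero] using h4
    have hev : ∀ᶠ s in 𝓝 (0:ℝ), fderiv ℝ (fun a' : TangentSpace 𝓘(ℝ, E) z =>
        cost (e z a') (e z (v + s • μ))) 0 ξ = - inner ℝ (v + s • μ) ξ := by
      have hsm : ∀ᶠ b in 𝓝 v, SmoothAt E z (e z b) := by
        have h5 := hs.eventually
        have h6 : Tendsto (fun b : TangentSpace 𝓘(ℝ, E) z => (z, e z b)) (𝓝 v) (𝓝 (z, e z v)) := by
          have h7 : Continuous (e z) := (contMDiff_exp_fiber he z).continuous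
          exact (continuous_const.prodMk h7).tendsto v
        exact h6.eventually h5
      filter_upwards [hcont.eventually hsm, hcont.eventually hN] with s h8 h9
      rw [(hasFDerivAt_cost_zero he z _ h9 h8).fderiv]
      rfl
    have h10 : HasDerivAt (fun s : ℝ => - inner ℝ (v + s • μ) ξ) (- inner ℝ ξ μ) 0 := by
      have h11 : (fun s : ℝ => - inner ℝ (v + s • μ) ξ) =
          fun s : ℝ => - (inner ℝ v ξ + s * inner ℝ ξ μ) := by
        funext s
        rw [inner_add_left, real_inner_smul_left, real_inner_comm μ ξ]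
      rw [h11]
      have h12 := (((hasDerivAt_id' (0:ℝ)).mul_const (inner ℝ ξ μ)).const_add (inner ℝ v ξ)).neg
      rw [one_mul] at h12
      exact h12
    exact h10.congr_of_eventuallyEq hev
  rw [h1, h3]
  unfold costHess
  ring

/-- Key second order inequality (a two-piece path is at least as costly). -/
lemma key_ineq (he : IsExp e) {z : M} {w : TangentSpace 𝓘(ℝ, E) z} {s s' : ℝ}
    (hs : 0 < s) (hss : s < s') (hN : ∀ᶠ b in 𝓝 (s • w), b ∈ segMin e z)
    (hw : s' • w ∈ segMin e z) (h1 : SmoothAt E z (e z (s • w)))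
    (h2 : SmoothAt E z (e z (s' • w))) (h3 : SmoothAt E (e z (s • w)) (e z (s' • w)))
    (ξ μ : TangentSpace 𝓘(ℝ, E) z) :
    costHess e z (s' • w) ξ ξ / s' ≤
      costHess e z (s • w) ξ ξ / s - 2 * inner ℝ ξ μ / s + ‖μ‖ ^ 2 / s +
        midHess e z (s • w) (s' • w) μ μ / (s' - s) := by
  have hs' : 0 < s' := hs.trans hss
  have hd : 0 < s' - s := sub_pos.mpr hss
  -- the three terms as functions of the pair
  set F1 : TangentSpace 𝓘(ℝ, E) z × TangentSpace 𝓘(ℝ, E) z → ℝ :=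
    fun p => cost (e z p.1) (e z p.2) with hF1
  set F2 : TangentSpace 𝓘(ℝ, E) z × TangentSpace 𝓘(ℝ, E) z → ℝ :=
    fun p => cost (e z p.2) (e z (s' • w)) with hF2
  set F3 : TangentSpace 𝓘(ℝ, E) z × TangentSpace 𝓘(ℝ, E) z → ℝ :=
    fun p => cost (e z p.1) (e z (s' • w)) with hF3
  have c1 : ContDiffAt ℝ ∞ F1 (0, s • w) := coord0 he h1
  have c2 : ContDiffAt ℝ ∞ F2 (0, s • w) := by
    have h4 := SmoothAt.coord he h3
    have h5 : ContDiffAt ℝ ∞ (fun p : TangentSpace 𝓘(ℝ, E) z × TangentSpace 𝓘(ℝ, E) z =>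
        ((p.2, s' • w) : TangentSpace 𝓘(ℝ, E) z × TangentSpace 𝓘(ℝ, E) z)) (0, s • w) := by
      fun_prop
    exact ContDiffAt.comp (g := fun p : TangentSpace 𝓘(ℝ, E) z × TangentSpace 𝓘(ℝ, E) z =>
      cost (e z p.1) (e z p.2)) (0, s • w) h4 h5
  have c3 : ContDiffAt ℝ ∞ F3 (0, s • w) := by
    have h4 := contDiffAt_fst0 he h2
    have h5 : ContDiffAt ℝ ∞ (fun p : TangentSpace 𝓘(ℝ, E) z × TangentSpace 𝓘(ℝ, E) z => p.1)
        (0, s • w) := contDiffAt_fst
    exact ContDiffAt.comp (g := fun a : TangentSpace 𝓘(ℝ, E) z => cost (e z a) (e z (s' • w)))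
      (0, s • w) h4 h5
  have d1 := c1.of_le two_le_infty
  have d2 := c2.of_le two_le_infty
  have d3 := c3.of_le two_le_infty
  -- the function with a minimum
  have e1 : ContDiffAt ℝ 2 (fun p => (1 / s) * F1 p) (0, s • w) := contDiffAt_const.mul d1
  have e2 : ContDiffAt ℝ 2 (fun p => (1 / (s' - s)) * F2 p) (0, s • w) := contDiffAt_const.mul d2
  have e3 : ContDiffAt ℝ 2 (fun p => (-(1 / s')) * F3 p) (0, s • w) := contDiffAt_const.mul d3
  have hmin : IsLocalMin (fun p => ((1 / s) * F1 p + (1 / (s' - s)) * F2 p) + (-(1 / s')) * F3 p)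
      (0, s • w) := by
    refine Filter.Eventually.of_forall fun p => ?_
    have h4 := cost_ineq (e z p.1) (e z p.2) (e z (s' • w)) hs hd
    rw [add_sub_cancel] at h4
    have h5 : F1 (0, s • w) = s ^ 2 * ‖w‖ ^ 2 / 2 := by
      have h6 := segMin_cost he hw (s := 0) (t := s / s') le_rfl (by positivity)
        (by rw [div_le_one hs']; exact hss.le)
      rw [smul_smul, smul_smul, div_mul_cancel₀ _ hs'.ne', zero_mul, zero_smul, norm_smul,
        Real.norm_eq_abs, abs_of_pos hs'] at h6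
      rw [hF1]
      simp only
      rw [h6]
      field_simp
      ring
    have h7 : F2 (0, s • w) = (s' - s) ^ 2 * ‖w‖ ^ 2 / 2 := by
      have h6 := segMin_cost he hw (s := s / s') (t := 1) (by positivity)
        (by rw [div_le_one hs']; exact hss.le) le_rfl
      rw [smul_smul, one_smul, div_mul_cancel₀ _ hs'.ne', norm_smul,
        Real.norm_eq_abs, abs_of_pos hs'] at h6
      rw [hF2]
      simp only
      rw [h6]
      (clear * - hs' hd; field_simp)
    have h8 : F3 (0, s • w) = s' ^ 2 * ‖w‖ ^ 2 / 2 := by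
      have h6 := segMin_cost he hw (s := 0) (t := 1) le_rfl zero_le_one le_rfl
      rw [zero_smul, one_smul, norm_smul, Real.norm_eq_abs, abs_of_pos hs'] at h6
      rw [hF3]
      simp only
      rw [h6]
      ring
    simp only [h5, h7, h8]
    have h9 : 1 / s * (s ^ 2 * ‖w‖ ^ 2 / 2) + 1 / (s' - s) * ((s' - s) ^ 2 * ‖w‖ ^ 2 / 2) +
        -(1 / s') * (s' ^ 2 * ‖w‖ ^ 2 / 2) = 0 := by
      field_simp
      ring
    rw [h9]
    have h10 : 1 / s * F1 p + 1 / (s' - s) * F2 p + -(1 / s') * F3 p =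
        cost (e z p.1) (e z p.2) / s + cost (e z p.2) (e z (s' • w)) / (s' - s) -
          cost (e z p.1) (e z (s' • w)) / s' := by
      simp only [hF1, hF2, hF3]
      ring
    rw [h10]
    linarith only [h4]
  have key := hess_nonneg_of_isLocalMin ((e1.add e2).add e3) hmin (ξ, μ)
  rw [hess_add (e1.add e2) e3, hess_add e1 e2, hess_const_mul d1, hess_const_mul d2,
    hess_const_mul d3] at key
  simp only [add_apply, FunLike.coe_smul, Pi.smul_apply, smul_eq_mul] at key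
  have k1 : hess F1 (0, s • w) (ξ, μ) (ξ, μ) =
      costHess e z (s • w) ξ ξ - 2 * inner ℝ ξ μ + ‖μ‖ ^ 2 := hess_pair he hN h1 ξ μ
  have k2 : hess F2 (0, s • w) (ξ, μ) (ξ, μ) = midHess e z (s • w) (s' • w) μ μ := by
    have d2' : ContDiffAt ℝ 2 (fun b : TangentSpace 𝓘(ℝ, E) z => cost (e z b) (e z (s' • w)))
        (s • w) := by
      have h4 := SmoothAt.coord he h3
      have h5 : ContDiffAt ℝ ∞ (fun p : TangentSpace 𝓘(ℝ, E) z =>
          ((p, s' • w) : TangentSpace 𝓘(ℝ, E) z × TangentSpace 𝓘(ℝ, E) z)) (s • w) := by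
        fun_prop
      have h6 := ContDiffAt.comp (g := fun p : TangentSpace 𝓘(ℝ, E) z × TangentSpace 𝓘(ℝ, E) z =>
        cost (e z p.1) (e z p.2)) (s • w) h4 h5
      exact h6.of_le two_le_infty
    have h7 := hess_comp_affine d2' (ContinuousLinearMap.snd ℝ (TangentSpace 𝓘(ℝ, E) z)
      (TangentSpace 𝓘(ℝ, E) z)) (0, s • w) 0 (by simp) (ξ, μ) (ξ, μ)
    simp only [ContinuousLinearMap.coe_snd', zero_add] at h7
    exact h7
  have k3 : hess F3 (0, s • w) (ξ, μ) (ξ, μ) = costHess e z (s' • w) ξ ξ := by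
    have h7 := hess_comp_affine ((contDiffAt_fst0 he h2).of_le two_le_infty)
      (ContinuousLinearMap.fst ℝ (TangentSpace 𝓘(ℝ, E) z)
      (TangentSpace 𝓘(ℝ, E) z)) (0, s • w) 0 (by simp) (ξ, μ) (ξ, μ)
    simp only [ContinuousLinearMap.coe_fst', zero_add] at h7
    exact h7
  rw [k1, k2, k3] at key
  have h11 : 1 / s * (costHess e z (s • w) ξ ξ - 2 * inner ℝ ξ μ + ‖μ‖ ^ 2) +
      1 / (s' - s) * midHess e z (s • w) (s' • w) μ μ + -(1 / s') * costHess e z (s' • w) ξ ξ =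
      (costHess e z (s • w) ξ ξ / s - 2 * inner ℝ ξ μ / s + ‖μ‖ ^ 2 / s +
        midHess e z (s • w) (s' • w) μ μ / (s' - s)) - costHess e z (s' • w) ξ ξ / s' := by
    ring
  rw [h11] at key
  linarith only [key]

/-- Strict monotonicity of the Hessian divided by time. -/
lemma costHess_strict (he : IsExp e) {z : M} {w : TangentSpace 𝓘(ℝ, E) z} {s s' : ℝ}
    (hs : 0 < s) (hss : s < s') (hN : ∀ᶠ b in 𝓝 (s • w), b ∈ segMin e z)
    (hw : s' • w ∈ segMin e z) (h1 : SmoothAt E z (e z (s • w)))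
    (h2 : SmoothAt E z (e z (s' • w))) (h3 : SmoothAt E (e z (s • w)) (e z (s' • w)))
    {ξ : TangentSpace 𝓘(ℝ, E) z} (hξ : ξ ≠ 0) :
    costHess e z (s' • w) ξ ξ / s' < costHess e z (s • w) ξ ξ / s := by
  have hd : 0 < s' - s := sub_pos.mpr hss
  have hn : 0 < ‖ξ‖ ^ 2 := by
    have := norm_pos_iff.mpr hξ
    positivity
  set K : ℝ := ‖ξ‖ ^ 2 / s + |midHess e z (s • w) (s' • w) ξ ξ| / (s' - s) with hK
  have hK0 : 0 < K := by
    have h1 : 0 < ‖ξ‖ ^ 2 / s := by positivity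
    have h2 : 0 ≤ |midHess e z (s • w) (s' • w) ξ ξ| / (s' - s) := by (clear * - hss; positivity)
    linarith only [h1, h2]
  set ε : ℝ := ‖ξ‖ ^ 2 / s / K with hε
  have hε0 : 0 < ε := by (clear * - hξ hs hss; positivity)
  have key := key_ineq he hs hss hN hw h1 h2 h3 ξ (ε • ξ)
  have e1 : inner ℝ ξ (ε • ξ) = ε * ‖ξ‖ ^ 2 := by
    rw [real_inner_smul_right, real_inner_self_eq_norm_sq]
  have e2 : ‖ε • ξ‖ ^ 2 = ε ^ 2 * ‖ξ‖ ^ 2 := by
    rw [norm_smul, mul_pow, Real.norm_eq_abs, sq_abs]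
  have e3 : midHess e z (s • w) (s' • w) (ε • ξ) (ε • ξ) =
      ε ^ 2 * midHess e z (s • w) (s' • w) ξ ξ := by
    simp only [map_smul, FunLike.coe_smul, Pi.smul_apply, smul_eq_mul]
    ring
  rw [e1, e2, e3] at key
  have e4 : ε ^ 2 * midHess e z (s • w) (s' • w) ξ ξ / (s' - s) ≤
      ε ^ 2 * (|midHess e z (s • w) (s' • w) ξ ξ| / (s' - s)) := by
    rw [mul_div_assoc]
    gcongr
    exact le_abs_self _
  have e5 : ε * K = ‖ξ‖ ^ 2 / s := by
    rw [hε]
    (clear * - hK0 hs hξ; field_simp)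
  have e6 : ε ^ 2 * ‖ξ‖ ^ 2 / s + ε ^ 2 * (|midHess e z (s • w) (s' • w) ξ ξ| / (s' - s)) =
      ε * (‖ξ‖ ^ 2 / s) := by
    rw [← e5, hK]
    ring
  have e7 : 2 * (ε * ‖ξ‖ ^ 2) / s = 2 * (ε * (‖ξ‖ ^ 2 / s)) := by ring
  have e8 : 0 < ε * (‖ξ‖ ^ 2 / s) := by (clear * - hξ hs hss; positivity)
  linarith only [key, e4, e6, e7, e8]

end

end Vale.Agent.P234
end
end

section

section

/-! Hessian estimates inside the injectivity domain, from `Facts`. -/

set_option maxSynthPendingDepth 3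

open Bundle Manifold Set Filter
open scoped ContDiff Manifold Topology

namespace Vale.Agent.P234

noncomputable section

section Aux

variable {V : Type*} [NormedAddCommGroup V] [InnerProductSpace ℝ V]

lemma contDiff_half_sq : ContDiff ℝ ∞ (fun b : V => ‖b‖ ^ 2 / 2) :=
  (contDiff_norm_sq ℝ).div_const 2

lemma hess_half_sq (x μ ν : V) : hess (fun b : V => ‖b‖ ^ 2 / 2) x μ ν = inner ℝ μ ν := by
  have h1 : fderiv ℝ (fun b : V => ‖b‖ ^ 2 / 2) = fun b => innerSL ℝ b := by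
    funext b
    have h2 : HasFDerivAt (fun b : V => ‖b‖ ^ 2 / 2) ((1 / 2 : ℝ) • (2 • innerSL ℝ b)) b := by
      have h3 := (hasStrictFDerivAt_norm_sq b).hasFDerivAt.const_mul (1 / 2 : ℝ)
      refine h3.congr_of_eventuallyEq ?_
      filter_upwards with c
      ring
    rw [h2.fderiv]
    ext c
    simp
  unfold hess
  rw [h1]
  have h4 : fderiv ℝ (fun b : V => innerSL ℝ b) x = innerSL ℝ :=
    (innerSL ℝ : V →L[ℝ] V →L[ℝ] ℝ).fderiv
  rw [h4]
  rfl

lemma quad_iter (A D B : ℝ) :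
    iteratedDeriv 2 (fun r : ℝ => A + r * D + r ^ 2 * B) 0 = 2 * B := by
  have h1 : deriv (fun r : ℝ => A + r * D + r ^ 2 * B) = fun r => D + 2 * r * B := by
    funext r
    have : HasDerivAt (fun r : ℝ => A + r * D + r ^ 2 * B) (D + 2 * r * B) r := by
      have h1 := (((hasDerivAt_id r).mul_const D).const_add A).add
        (((hasDerivAt_id r).pow 2).mul_const B)
      simp only [id_eq, Pi.pow_apply, one_mul, Nat.cast_ofNat, Nat.add_one_sub_one, pow_one, mul_one] at h1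
      exact h1
    exact this.deriv
  rw [iteratedDeriv_succ, iteratedDeriv_one, h1]
  have : HasDerivAt (fun r : ℝ => D + 2 * r * B) (2 * 1 * B) 0 :=
    (((hasDerivAt_id (0 : ℝ)).const_mul 2).mul_const B).const_add D
  rw [this.deriv]
  ring

end Aux

variable {E : Type*} [NormedAddCommGroup E] [NormedSpace ℝ E] [FiniteDimensional ℝ E]
  {M : Type*} [MetricSpace M] [ChartedSpace E M]
  [RiemannianBundle (fun x : M => TangentSpace 𝓘(ℝ, E) x)]
  [IsManifold 𝓘(ℝ, E) ∞ M]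
  [IsContMDiffRiemannianBundle 𝓘(ℝ, E) ∞ E (fun x : M => TangentSpace 𝓘(ℝ, E) x)]
  [CompactSpace M]
  {e : ∀ x : M, TangentSpace 𝓘(ℝ, E) x → M}

omit [CompactSpace M] in
lemma smul_mem_injDomain_of_lt (he : IsExp e) {z : M} {w : TangentSpace 𝓘(ℝ, E) z} {s s' : ℝ}
    (hs : 0 ≤ s) (hss : s < s') (hw : s' • w ∈ segMin e z) : s • w ∈ injDomain e z := by
  have hs' : 0 < s' := lt_of_le_of_lt hs hss
  have h1 : s • w = (s / s') • (s' • w) := by
    rw [smul_smul]
    congr 1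
    (clear * - hs'; field_simp)
  rw [h1]
  exact smul_mem_injDomain he hw (div_nonneg hs hs'.le) ((div_lt_one hs').mpr hss)

lemma Facts.smooth_pair (F : Facts e) {z : M} {w : TangentSpace 𝓘(ℝ, E) z} {s s' a : ℝ}
    (hs : 0 ≤ s) (hss : s ≤ s') (hsa : s' ≤ a) (ha : 0 < a) (hw : a • w ∈ segMin e z)
    (h : s' - s < a) : SmoothAt E (e z (s • w)) (e z (s' • w)) := by
  have h1 : s • w = (s / a) • (a • w) := by
    rw [smul_smul]
    congr 1
    (clear * - ha; field_simp)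
  have h2 : s' • w = (s' / a) • (a • w) := by
    rw [smul_smul]
    congr 1
    field_simp
  rw [h1, h2]
  apply F.smooth_between hw (div_nonneg hs ha.le) ((div_le_one ha).mpr (hss.trans hsa))
    (div_nonneg (hs.trans hss) ha.le) ((div_le_one ha).mpr hsa)
  rw [← sub_div, abs_of_nonneg (div_nonneg (sub_nonneg.mpr hss) ha.le), div_lt_one ha]
  exact h

lemma Facts.key_ineq (F : Facts e) {z : M} {w : TangentSpace 𝓘(ℝ, E) z} {s s' : ℝ}
    (hs : 0 < s) (hss : s < s') (hw : s' • w ∈ injDomain e z) (ξ μ : TangentSpace 𝓘(ℝ, E) z) :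
    costHess e z (s' • w) ξ ξ / s' ≤
      costHess e z (s • w) ξ ξ / s - 2 * inner ℝ ξ μ / s + ‖μ‖ ^ 2 / s +
        midHess e z (s • w) (s' • w) μ μ / (s' - s) := by
  have hwm := injDomain_subset_segMin F.isExp z hw
  have h1 : s • w ∈ injDomain e z := smul_mem_injDomain_of_lt F.isExp hs.le hss hwm
  exact Vale.Agent.P234.key_ineq F.isExp hs hss (F.eventually_segMin h1) hwm
    (F.smooth_cost z _ h1) (F.smooth_cost z _ hw)
    (F.smooth_pair hs.le hss.le le_rfl (hs.trans hss) hwm (by linarith)) ξ μ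

lemma Facts.costHess_strict (F : Facts e) {z : M} {w : TangentSpace 𝓘(ℝ, E) z} {s s' : ℝ}
    (hs : 0 < s) (hss : s < s') (hw : s' • w ∈ injDomain e z) {ξ : TangentSpace 𝓘(ℝ, E) z}
    (hξ : ξ ≠ 0) : costHess e z (s' • w) ξ ξ / s' < costHess e z (s • w) ξ ξ / s := by
  have hwm := injDomain_subset_segMin F.isExp z hw
  have h1 : s • w ∈ injDomain e z := smul_mem_injDomain_of_lt F.isExp hs.le hss hwm
  exact Vale.Agent.P234.costHess_strict F.isExp hs hss (F.eventually_segMin h1) hwm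
    (F.smooth_cost z _ h1) (F.smooth_cost z _ hw)
    (F.smooth_pair hs.le hss.le le_rfl (hs.trans hss) hwm (by linarith)) hξ

/-- Concavity consequence of weak MTW. -/
lemma Facts.concaveOn_costHess (F : Facts e) (hW : WeakMTW e) (z : M)
    {K : Set (TangentSpace 𝓘(ℝ, E) z)} (hK : Convex ℝ K) (hKI : K ⊆ injDomain e z)
    (w₀ ξ : TangentSpace 𝓘(ℝ, E) z) :
    ConcaveOn ℝ (K ∩ {u | inner ℝ (u - w₀) ξ = 0}) (fun u => costHess e z u ξ ξ) := by
  have hconv : Convex ℝ (K ∩ {u | inner ℝ (u - w₀) ξ = 0}) := by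
    apply hK.inter
    intro u hu v hv a b ha hb hab
    simp only [Set.mem_ofPred_eq] at hu hv ⊢
    have h1 : a • u + b • v - w₀ = a • (u - w₀) + b • (v - w₀) := by
      have : w₀ = a • w₀ + b • w₀ := by rw [← add_smul, hab, one_smul]
      rw [smul_sub, smul_sub]
      nth_rewrite 1 [this]
      abel
    rw [h1, inner_add_left, inner_smul_left, inner_smul_left, hu, hv]
    simp
  refine ⟨hconv, ?_⟩
  intro u0 hu0 u1 hu1 a b ha hb hab
  set η := u1 - u0 with hη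
  have hperp : inner ℝ ξ η = 0 := by
    have h0 : inner ℝ (u0 - w₀) ξ = 0 := hu0.2
    have h1 : inner ℝ (u1 - w₀) ξ = 0 := hu1.2
    have h2 : η = (u1 - w₀) - (u0 - w₀) := by rw [hη]; abel
    rw [real_inner_comm, h2, inner_sub_left, h0, h1, sub_zero]
  set f : ℝ → ℝ := fun t => costHess e z (u0 + t • η) ξ ξ with hf
  have hseg : ∀ t ∈ Icc (0 : ℝ) 1, u0 + t • η ∈ injDomain e z := by
    intro t ht
    apply hKI
    have h3 : u0 + t • η = (1 - t) • u0 + t • u1 := by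
      rw [hη, smul_sub, sub_smul, one_smul]
      abel
    rw [h3]
    exact hK hu0.1 hu1.1 (by linarith [ht.2]) ht.1 (by ring)
  have hsmooth : ∀ t ∈ Icc (0 : ℝ) 1, ContDiffAt ℝ ∞ f t := by
    intro t ht
    have h1 : ContDiffAt ℝ ∞ (costHess e z) (u0 + t • η) :=
      contDiffAt_costHess F.isExp (F.smooth_cost z _ (hseg t ht))
    have h2 : ContDiffAt ℝ ∞ (fun t : ℝ => u0 + t • η) t := by
      apply ContDiffAt.add contDiffAt_const
      exact contDiffAt_id.smul contDiffAt_const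
    have h3 : ContDiffAt ℝ ∞ (fun t : ℝ => costHess e z (u0 + t • η)) t :=
      ContDiffAt.comp (g := costHess e z) t h1 h2
    exact (h3.clm_apply contDiffAt_const).clm_apply contDiffAt_const
  have hconc : ConcaveOn ℝ (Icc (0 : ℝ) 1) f := by
    apply concaveOn_of_deriv2_nonpos' (convex_Icc 0 1)
    · intro t ht
      exact ((hsmooth t ht).differentiableAt (by simp)).differentiableWithinAt
    · intro t ht
      have h1 : ContDiffAt ℝ 1 (fderiv ℝ f) t :=
        (hsmooth t ht).fderiv_right (m := 1) (by norm_cast)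
      have h2 : DifferentiableAt ℝ (deriv f) t :=
        (h1.differentiableAt (by simp)).clm_apply (differentiableAt_const (1 : ℝ))
      exact h2.differentiableWithinAt
    · intro t ht
      have hv := hseg t ht
      have hm := hW z (u0 + t • η) hv ξ η hperp
      unfold mtw at hm
      have h1 : (fun s : ℝ => iteratedDeriv 2
          (fun r : ℝ => cost (e z (r • ξ)) (e z (u0 + t • η + s • η))) 0)
          =ᶠ[𝓝 0] (fun s : ℝ => f (t + s)) := by
        have h2 : ∀ᶠ s in 𝓝 (0 : ℝ), u0 + t • η + s • η ∈ injDomain e z := by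
          have h3 : ContinuousAt (fun s : ℝ => u0 + t • η + s • η) 0 := by
            apply Continuous.continuousAt
            exact continuous_const.add (continuous_id.smul continuous_const)
          have h4 : injDomain e z ∈ 𝓝 (u0 + t • η + (0 : ℝ) • η) := by
            rw [zero_smul, add_zero]
            exact (F.isOpen_injDomain z).mem_nhds hv
          exact h3 h4
        filter_upwards [h2] with s hs
        rw [iteratedDeriv_cost_eq F.isExp (F.smooth_cost z _ hs)]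
        simp only [hf]
        rw [add_smul, add_assoc]
      rw [h1.iteratedDeriv_eq 2] at hm
      have h5 := congrFun (iteratedDeriv_comp_const_add 2 f t) 0
      simp only [add_zero] at h5
      rw [h5] at hm
      have h6 : iteratedDeriv 2 f t = deriv^[2] f t := by
        rw [iteratedDeriv_eq_iterate]
      rw [h6] at hm
      linarith only [hm]
  have h7 := hconc.2 (left_mem_Icc.mpr zero_le_one) (right_mem_Icc.mpr zero_le_one) ha hb hab
  simp only [hf, zero_smul, add_zero, smul_eq_mul, one_smul, mul_zero, mul_one, zero_add] at h7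
  have h8 : u0 + η = u1 := by rw [hη]; abel
  have h9 : u0 + b • η = a • u0 + b • u1 := by
    have : a = 1 - b := by linarith only [hab]
    rw [hη, this, smul_sub, sub_smul, one_smul]
    abel
  rw [h8, h9] at h7
  exact h7

omit [FiniteDimensional ℝ E] [IsManifold 𝓘(ℝ, E) ∞ M]
  [IsContMDiffRiemannianBundle 𝓘(ℝ, E) ∞ E fun x : M => TangentSpace 𝓘(ℝ, E) x]
  [CompactSpace M] in
/-- cost to the point reached by a minimizing vector -/
lemma cost_of_segMin {z : M} {b : TangentSpace 𝓘(ℝ, E) z} (hb : b ∈ segMin e z) :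
    cost z (e z b) = ‖b‖ ^ 2 / 2 := by
  have h : dist z (e z b) = ‖b‖ := hb
  unfold cost
  rw [h]

/-- Nonnegativity of the Hessian of the two-piece functional along a minimizing geodesic. -/
lemma Facts.midHess_nonneg (F : Facts e) {z : M} {w : TangentSpace 𝓘(ℝ, E) z} {s s' : ℝ}
    (hs : 0 < s) (hss : s < s') (hw : s' • w ∈ segMin e z) (μ : TangentSpace 𝓘(ℝ, E) z) :
    0 ≤ ‖μ‖ ^ 2 / s + midHess e z (s • w) (s' • w) μ μ / (s' - s) := by
  have hs' : 0 < s' := hs.trans hss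
  have hd : 0 < s' - s := sub_pos.mpr hss
  have h1 : s • w ∈ injDomain e z := smul_mem_injDomain_of_lt F.isExp hs.le hss hw
  have h1m := injDomain_subset_segMin F.isExp z h1
  have hsm : SmoothAt E (e z (s • w)) (e z (s' • w)) :=
    F.smooth_pair hs.le hss.le le_rfl hs' hw (by linarith only [hs])
  set y := e z (s' • w) with hy
  set f1 : TangentSpace 𝓘(ℝ, E) z → ℝ := fun b => ‖b‖ ^ 2 / 2 with hf1
  set f2 : TangentSpace 𝓘(ℝ, E) z → ℝ := fun b => cost (e z b) y with hf2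
  have hc1 : ContDiffAt ℝ 2 f1 (s • w) := by
    have := (contDiff_half_sq (V := TangentSpace 𝓘(ℝ, E) z)).contDiffAt (x := s • w)
    exact this.of_le (by norm_cast)
  have hc2 : ContDiffAt ℝ 2 f2 (s • w) := by
    have h2 := SmoothAt.coord F.isExp (x := z) (q := z) (a := s • w) (b := s' • w) hsm
    have h3 : ContDiffAt ℝ ∞ (fun b : TangentSpace 𝓘(ℝ, E) z => (b, s' • w)) (s • w) :=
      contDiffAt_id.prodMk contDiffAt_const
    have h4 := ContDiffAt.comp (g := fun p : TangentSpace 𝓘(ℝ, E) z × TangentSpace 𝓘(ℝ, E) z =>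
      cost (e z p.1) (e z p.2)) (s • w) h2 h3
    exact h4.of_le (by norm_cast)
  set g : TangentSpace 𝓘(ℝ, E) z → ℝ := fun b => (1 / s) * f1 b + (1 / (s' - s)) * f2 b with hg
  have hcg : ContDiffAt ℝ 2 g (s • w) :=
    (contDiffAt_const.mul hc1).add (contDiffAt_const.mul hc2)
  have hmin : IsLocalMin g (s • w) := by
    have hev := F.eventually_segMin h1
    filter_upwards [hev] with b hb
    have h5 := cost_ineq z (e z b) y hs hd
    rw [cost_of_segMin hb] at h5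
    have h6 : cost z y = s' ^ 2 * ‖w‖ ^ 2 / 2 := by
      rw [hy, cost_of_segMin hw, norm_smul, mul_pow, Real.norm_eq_abs, sq_abs]
    have h7 : f2 (s • w) = (s' - s) ^ 2 * ‖w‖ ^ 2 / 2 := by
      have h8 := segMin_cost F.isExp hw (s := s / s') (t := 1) (div_nonneg hs.le hs'.le)
        ((div_le_one hs').mpr hss.le) le_rfl
      rw [one_smul, smul_smul, div_mul_cancel₀ _ hs'.ne'] at h8
      simp only [hf2]
      rw [hy, h8, norm_smul, Real.norm_eq_abs, abs_of_pos hs']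
      field_simp
    have h9 : g (s • w) = cost z y / (s + (s' - s)) := by
      simp only [hg]
      rw [h7, h6]
      simp only [hf1]
      rw [norm_smul, Real.norm_eq_abs, abs_of_pos hs]
      have h10 : s + (s' - s) = s' := by ring
      rw [h10]
      field_simp
      ring
    rw [h9]
    refine h5.trans (le_of_eq ?_)
    simp only [hg, hf1, hf2]
    ring
  have hh := hess_nonneg_of_isLocalMin hcg hmin μ
  rw [hg, hess_add (contDiffAt_const.mul hc1) (contDiffAt_const.mul hc2), hess_const_mul hc1,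
    hess_const_mul hc2] at hh
  have h11 : hess f1 (s • w) μ μ = ‖μ‖ ^ 2 := by
    rw [hf1, hess_half_sq, real_inner_self_eq_norm_sq]
  have h12 : hess f2 (s • w) μ μ = midHess e z (s • w) (s' • w) μ μ := rfl
  simp only [add_apply, smul_apply, h11, smul_eq_mul, h12] at hh
  refine hh.trans (le_of_eq ?_)
  ring

omit [CompactSpace M] in
lemma contDiffAt_cost_left (he : IsExp e) {z : M} {p : TangentSpace 𝓘(ℝ, E) z} {y : M}
    (q : TangentSpace 𝓘(ℝ, E) z) (hq : e z q = y) (h : SmoothAt E (e z p) y) :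
    ContDiffAt ℝ 2 (fun b : TangentSpace 𝓘(ℝ, E) z => cost (e z b) y) p := by
  subst hq
  have h2 := SmoothAt.coord he (x := z) (q := z) (a := p) (b := q) h
  have h3 : ContDiffAt ℝ ∞ (fun b : TangentSpace 𝓘(ℝ, E) z => (b, q)) p :=
    contDiffAt_id.prodMk contDiffAt_const
  have h4 := ContDiffAt.comp (g := fun p : TangentSpace 𝓘(ℝ, E) z × TangentSpace 𝓘(ℝ, E) z =>
    cost (e z p.1) (e z p.2)) p h2 h3
  exact h4.of_le (by norm_cast)

/-- Strict positivity when the geodesic is minimizing a little longer. -/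
lemma Facts.midHess_pos (F : Facts e) {z : M} {w : TangentSpace 𝓘(ℝ, E) z} {s s' : ℝ}
    (hs : 0 < s) (hss : s < s') (hw : s' • w ∈ injDomain e z) {μ : TangentSpace 𝓘(ℝ, E) z}
    (hμ : μ ≠ 0) : 0 < ‖μ‖ ^ 2 / s + midHess e z (s • w) (s' • w) μ μ / (s' - s) := by
  have hs' : 0 < s' := hs.trans hss
  obtain ⟨a, ha, haw⟩ := (mem_injDomain_iff F.isExp).mp hw
  rw [smul_smul] at haw
  set A := a * s' with hA
  have hA' : s' < A := by
    rw [hA]
    nlinarith only [hs, ha, hss]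
  set s'' := (s' + A) / 2 with hs''
  have h1 : s' < s'' := by rw [hs'']; linarith only [hA']
  have h2 : s'' < A := by rw [hs'']; linarith
  have hApos : 0 < A := hs'.trans hA'
  have hwI : s'' • w ∈ injDomain e z :=
    smul_mem_injDomain_of_lt F.isExp (hs'.trans h1).le h2 haw
  have hwm := injDomain_subset_segMin F.isExp z hwI
  have hpI : s • w ∈ injDomain e z :=
    smul_mem_injDomain_of_lt F.isExp hs.le ((hss.trans h1).trans h2) haw
  -- the flow vector at the middle point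
  obtain ⟨p, hp'⟩ : ∃ p, e z (s • w) = p := ⟨_, rfl⟩
  have hp : p = e z (s • w) := hp'.symm
  obtain ⟨wf, hwf, hflow⟩ := F.flow' w s hp'
  set y := e z (s' • w) with hy
  set y' := e z (s'' • w) with hy'
  have hyf : e p ((s' - s) • wf) = y := by
    rw [hflow, hy]
    congr 2
    ring
  have hyf' : e p ((s'' - s) • wf) = y' := by
    rw [hflow, hy']
    congr 2
    ring
  have hAf : (A - s) • wf ∈ segMin e p := by
    show dist p (e p ((A - s) • wf)) = ‖(A - s) • wf‖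
    rw [hflow]
    have h3 := segMin_dist F.isExp haw (s := s / A) (t := 1) (div_nonneg hs.le hApos.le)
      ((div_le_one hApos).mpr (by linarith only [hss, hA'])) le_rfl
    rw [one_smul, smul_smul, div_mul_cancel₀ _ hApos.ne', hp'] at h3
    have h4 : s + (A - s) = A := by ring
    rw [h4, h3, norm_smul, norm_smul, hwf, Real.norm_eq_abs, Real.norm_eq_abs,
      abs_of_pos hApos, abs_of_pos (by linarith only [hss, hA'] : 0 < A - s)]
    (clear * - hApos; field_simp)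
  have hI' : (s'' - s) • wf ∈ injDomain e p :=
    smul_mem_injDomain_of_lt F.isExp (by linarith only [hss, h1]) (by linarith) hAf
  have hI : (s' - s) • wf ∈ injDomain e p :=
    smul_mem_injDomain_of_lt F.isExp (by linarith only [hss]) (by linarith only [hA']) hAf
  have hS : SmoothAt E p y := by
    rw [← hyf]
    exact F.smooth_cost p _ hI
  have hS' : SmoothAt E p y' := by
    rw [← hyf']
    exact F.smooth_cost p _ hI'
  -- the function in coordinates at the middle point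
  set c1 : ℝ := 1 / (s' - s) with hc1
  set c2 : ℝ := -(1 / (s'' - s)) with hc2
  set g : TangentSpace 𝓘(ℝ, E) p → ℝ := fun a => c1 * cost (e p a) y + c2 * cost (e p a) y'
    with hg
  have he0 : e p 0 = p := F.isExp.map_zero p
  have hg1 : ContDiffAt ℝ 2 (fun a : TangentSpace 𝓘(ℝ, E) p => cost (e p a) y) 0 :=
    contDiffAt_cost_left F.isExp _ hyf (by rw [he0]; exact hS)
  have hg2 : ContDiffAt ℝ 2 (fun a : TangentSpace 𝓘(ℝ, E) p => cost (e p a) y') 0 :=
    contDiffAt_cost_left F.isExp _ hyf' (by rw [he0]; exact hS')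
  have hgs : ContDiffAt ℝ 2 g 0 :=
    (contDiffAt_const.mul hg1).add (contDiffAt_const.mul hg2)
  have hcrit : fderiv ℝ g 0 = 0 := by
    have h3 := hasFDerivAt_cost_zero F.isExp p ((s' - s) • wf)
      (injDomain_subset_segMin F.isExp p hI) (by rw [hyf]; exact hS)
    have h4 := hasFDerivAt_cost_zero F.isExp p ((s'' - s) • wf)
      (injDomain_subset_segMin F.isExp p hI') (by rw [hyf']; exact hS')
    rw [hyf] at h3
    rw [hyf'] at h4
    have h5 := (h3.const_mul c1).add (h4.const_mul c2)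
    have h6 := h5.fderiv
    have h7 : fderiv ℝ g 0 = c1 • -(innerSL ℝ) ((s' - s) • wf) +
        c2 • -(innerSL ℝ) ((s'' - s) • wf) := h6
    rw [h7]
    ext ξ
    simp only [add_apply, smul_apply, neg_apply, innerSL_apply_apply, inner_smul_left, smul_eq_mul, zero_apply]
    have e1 : s' - s ≠ 0 := by linarith only [hss]
    have e2 : s'' - s ≠ 0 := by linarith only [hss, h1]
    rw [hc1, hc2]
    simp only [RCLike.conj_to_real]
    field_simp
    ring
  have hpos : ∀ ξ : TangentSpace 𝓘(ℝ, E) p, ξ ≠ 0 → 0 < hess g 0 ξ ξ := by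
    intro ξ hξ
    have h3 := F.costHess_strict (z := p) (w := wf) (s := s' - s) (s' := s'' - s)
      (by linarith only [hss]) (by linarith only [h1]) hI' hξ
    rw [hg, hess_add (contDiffAt_const.mul hg1) (contDiffAt_const.mul hg2), hess_const_mul hg1,
      hess_const_mul hg2]
    have h4 : hess (fun a : TangentSpace 𝓘(ℝ, E) p => cost (e p a) y) 0
        = costHess e p ((s' - s) • wf) := by
      unfold costHess
      rw [hyf]
    have h5 : hess (fun a : TangentSpace 𝓘(ℝ, E) p => cost (e p a) y') 0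
        = costHess e p ((s'' - s) • wf) := by
      unfold costHess
      rw [hyf']
    rw [h4, h5]
    simp only [add_apply, smul_apply, smul_eq_mul, hc1, hc2]
    have h6 : 1 / (s' - s) * costHess e p ((s' - s) • wf) ξ ξ +
        -(1 / (s'' - s)) * costHess e p ((s'' - s) • wf) ξ ξ
        = costHess e p ((s' - s) • wf) ξ ξ / (s' - s) -
          costHess e p ((s'' - s) • wf) ξ ξ / (s'' - s) := by ring
    rw [h6]
    linarith only [h3]
  -- change of coordinates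
  have h0I : (0 : TangentSpace 𝓘(ℝ, E) p) ∈ injDomain e p := by
    have h3 := smul_mem_injDomain_of_lt F.isExp (le_refl (0 : ℝ))
      (by linarith only [hss, hA'] : (0 : ℝ) < A - s) hAf
    rwa [zero_smul] at h3
  obtain ⟨L, hL, hL0, hLe, hLb⟩ := F.smoothLog h0I
  obtain ⟨L', hL', hL0', hLe', hLb'⟩ := F.smoothLog hpI
  rw [he0] at hL hL0 hLe
  set ψ : TangentSpace 𝓘(ℝ, E) z → TangentSpace 𝓘(ℝ, E) p := fun b => L (e z b) with hψ
  have hψ0 : ψ (s • w) = 0 := by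
    simp only [hψ, hp']
    exact hL0
  have hez := contMDiff_exp_fiber F.isExp z
  have hep := contMDiff_exp_fiber F.isExp p
  have hψs : ContDiffAt ℝ ∞ ψ (s • w) := by
    rw [← contMDiffAt_iff_contDiffAt]
    refine ContMDiffAt.comp (s • w) ?_ hez.contMDiffAt
    rw [hp']
    exact hL
  have hΦs : ContDiffAt ℝ ∞ (fun a : TangentSpace 𝓘(ℝ, E) p => L' (e p a)) 0 := by
    rw [← contMDiffAt_iff_contDiffAt]
    refine ContMDiffAt.comp (0 : TangentSpace 𝓘(ℝ, E) p) ?_ hep.contMDiffAt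
    rw [he0, hp]
    exact hL'
  have hcont : Tendsto (e z) (𝓝 (s • w)) (𝓝 p) := by
    rw [hp]
    exact hez.continuous.continuousAt
  have hev : ∀ᶠ b in 𝓝 (s • w), e p (ψ b) = e z b :=
    (hcont.eventually hLe).mono fun b hb => hb.2
  have hcomp : ∀ᶠ b in 𝓝 (s • w), L' (e p (ψ b)) = b := by
    filter_upwards [hev, hLb'] with b hb1 hb2
    rw [hb1, hb2]
  have hinj : fderiv ℝ ψ (s • w) μ ≠ 0 := by
    intro h0
    have h3 : HasFDerivAt ψ (fderiv ℝ ψ (s • w)) (s • w) :=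
      (hψs.differentiableAt (by simp)).hasFDerivAt
    have h4 : HasFDerivAt (fun a : TangentSpace 𝓘(ℝ, E) p => L' (e p a))
        (fderiv ℝ (fun a : TangentSpace 𝓘(ℝ, E) p => L' (e p a)) 0) (ψ (s • w)) := by
      rw [hψ0]
      exact (hΦs.differentiableAt (by simp)).hasFDerivAt
    have h5 := h4.comp (s • w) h3
    have h6 : HasFDerivAt (fun b : TangentSpace 𝓘(ℝ, E) z => L' (e p (ψ b)))
        (ContinuousLinearMap.id ℝ (TangentSpace 𝓘(ℝ, E) z)) (s • w) := by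
      refine (hasFDerivAt_id (s • w)).congr_of_eventuallyEq ?_
      exact hcomp
    have h7 := h5.unique h6
    have h8 := congrArg (fun T : TangentSpace 𝓘(ℝ, E) z →L[ℝ] TangentSpace 𝓘(ℝ, E) z => T μ) h7
    simp only [ContinuousLinearMap.comp_apply, h0, map_zero, ContinuousLinearMap.id_apply] at h8
    exact hμ h8.symm
  have hmain : 0 < hess (fun b : TangentSpace 𝓘(ℝ, E) z => g (ψ b)) (s • w) μ μ := by
    rw [hess_comp_crit (hψs.of_le (by norm_cast)) (by rw [hψ0]; exact hgs)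
      (by rw [hψ0]; exact hcrit), hψ0]
    exact hpos _ hinj
  have hSz : SmoothAt E (e z (s • w)) y := by rw [hp']; exact hS
  have hSz' : SmoothAt E (e z (s • w)) y' := by rw [hp']; exact hS'
  have hf1 : ContDiffAt ℝ 2 (fun b : TangentSpace 𝓘(ℝ, E) z => cost (e z b) y) (s • w) :=
    contDiffAt_cost_left F.isExp _ hy.symm hSz
  have hf2 : ContDiffAt ℝ 2 (fun b : TangentSpace 𝓘(ℝ, E) z => cost (e z b) y') (s • w) :=
    contDiffAt_cost_left F.isExp _ hy'.symm hSz'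
  have hgψ : (fun b : TangentSpace 𝓘(ℝ, E) z => g (ψ b)) =ᶠ[𝓝 (s • w)]
      (fun b : TangentSpace 𝓘(ℝ, E) z => c1 * cost (e z b) y + c2 * cost (e z b) y') := by
    filter_upwards [hev] with b hb
    simp only [hg, hb]
  have hhess : hess (fun b : TangentSpace 𝓘(ℝ, E) z => g (ψ b)) (s • w)
      = c1 • midHess e z (s • w) (s' • w) + c2 • midHess e z (s • w) (s'' • w) := by
    have h3 : hess (fun b : TangentSpace 𝓘(ℝ, E) z => g (ψ b)) (s • w)
        = hess (fun b : TangentSpace 𝓘(ℝ, E) z =>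
          c1 * cost (e z b) y + c2 * cost (e z b) y') (s • w) := by
      unfold hess
      exact hgψ.fderiv.fderiv_eq
    rw [h3, hess_add (contDiffAt_const.mul hf1) (contDiffAt_const.mul hf2), hess_const_mul hf1,
      hess_const_mul hf2]
    rfl
  rw [hhess] at hmain
  simp only [hc1, hc2, add_apply, smul_apply, smul_eq_mul] at hmain
  have hnn := F.midHess_nonneg (s := s) (s' := s'') hs (hss.trans h1) hwm μ
  have h9 : 1 / (s' - s) * midHess e z (s • w) (s' • w) μ μ +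
      -(1 / (s'' - s)) * midHess e z (s • w) (s'' • w) μ μ
      = midHess e z (s • w) (s' • w) μ μ / (s' - s)
        - midHess e z (s • w) (s'' • w) μ μ / (s'' - s) := by ring
  rw [h9] at hmain
  linarith only [hmain, hnn]

omit [ChartedSpace E M] [RiemannianBundle (fun x : M => TangentSpace 𝓘(ℝ, E) x)]
  [IsManifold 𝓘(ℝ, E) ∞ M]
  [IsContMDiffRiemannianBundle 𝓘(ℝ, E) ∞ E fun x : M => TangentSpace 𝓘(ℝ, E) x]
  [CompactSpace M] in
/-- Equality case of the two-piece inequality. -/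
lemma cost_eq_case (x m y : M) {s t : ℝ} (hs : 0 < s) (ht : 0 < t)
    (h : cost x y / (s + t) = cost x m / s + cost m y / t) :
    dist x m + dist m y = dist x y ∧ (s + t) * dist x m = s * dist x y := by
  unfold cost at h
  have hD := dist_triangle x m y
  have ha := dist_nonneg (x := x) (y := m)
  have hb := dist_nonneg (x := m) (y := y)
  have hD0 := dist_nonneg (x := x) (y := y)
  set a := dist x m
  set b := dist m y
  set D := dist x y
  have hst : 0 < s + t := by linarith only [hs, ht]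
  have h1 : (t * a - s * b) ^ 2 + s * t * ((a + b) ^ 2 - D ^ 2) = 0 := by
    field_simp at h
    linarith
  have h2 : D ^ 2 ≤ (a + b) ^ 2 := by nlinarith only [hD, hD0]
  have h3 : 0 ≤ s * t * ((a + b) ^ 2 - D ^ 2) := mul_nonneg (by positivity) (by linarith only [h2])
  have h4 : (t * a - s * b) ^ 2 = 0 := by nlinarith only [h1, h3]
  have h5 : s * t * ((a + b) ^ 2 - D ^ 2) = 0 := by linarith
  have h6 : t * a - s * b = 0 := by simpa only [ne_eq, OfNat.ofNat_ne_zero, not_false_eq_true, pow_eq_zero_iff] using h4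
  have h7 : (a + b) ^ 2 = D ^ 2 := by
    have : (a + b) ^ 2 - D ^ 2 = 0 := by
      rcases mul_eq_zero.mp h5 with h8 | h8
      · exact absurd h8 (by positivity)
      · exact h8
    linarith only [this]
  have h8 : a + b = D := by
    have := abs_eq_abs.mpr (sq_eq_sq_iff_eq_or_eq_neg.mp h7)
    rwa [abs_of_nonneg (by linarith only [ha, hb]), abs_of_nonneg hD0] at this
  refine ⟨h8, ?_⟩
  rw [← h8]
  linarith only [h6]

/-- For endpoints near `z` there are optimal middle points near `e z (s • w)`. -/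
lemma Facts.exists_mid_near (F : Facts e) {z : M} {w : TangentSpace 𝓘(ℝ, E) z} {s s' : ℝ}
    (hs : 0 < s) (hss : s < s') (hw : s' • w ∈ injDomain e z) (ξ : TangentSpace 𝓘(ℝ, E) z)
    {δ : ℝ} (hδ : 0 < δ) :
    ∀ᶠ r in 𝓝 (0 : ℝ), ∃ b : TangentSpace 𝓘(ℝ, E) z, ‖b - s • w‖ < δ ∧
      cost (e z (r • ξ)) (e z (s' • w)) / s' =
        cost (e z (r • ξ)) (e z b) / s + cost (e z b) (e z (s' • w)) / (s' - s) := by
  by_contra hcon
  rw [Filter.not_eventually] at hcon
  obtain ⟨r, hr, hrn⟩ := exists_seq_forall_of_frequently hcon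
  have hs' : 0 < s' := hs.trans hss
  have hd : 0 < s' - s := sub_pos.mpr hss
  have hwm := injDomain_subset_segMin F.isExp z hw
  have hpI : s • w ∈ injDomain e z := smul_mem_injDomain_of_lt F.isExp hs.le hss hwm
  set y := e z (s' • w) with hy
  choose n hn using fun k => F.exists_between (e z (r k • ξ)) y hs hd
  obtain ⟨n0, φ, hφ, hnφ⟩ := CompactSpace.tendsto_subseq n
  choose u hu1 hu2 using fun k => F.hopfRinow z (n k)
  have hst : s + (s' - s) = s' := by ring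
  -- the limit point is the middle point
  have hx : Tendsto (fun k => e z (r (φ k) • ξ)) atTop (𝓝 z) := by
    have h1 : Continuous (fun t : ℝ => e z (t • ξ)) :=
      (contMDiff_exp_fiber F.isExp z).continuous.comp (continuous_id.smul continuous_const)
    have h2 : Tendsto (fun k => e z (r (φ k) • ξ)) atTop (𝓝 (e z ((0 : ℝ) • ξ))) :=
      (h1.tendsto 0).comp (hr.comp hφ.tendsto_atTop)
    rwa [zero_smul, F.isExp.map_zero] at h2
  have hlim : cost z y / (s + (s' - s)) = cost z n0 / s + cost n0 y / (s' - s) := by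
    have h1 : Tendsto (fun k => cost (e z (r (φ k) • ξ)) y / (s + (s' - s))) atTop
        (𝓝 (cost z y / (s + (s' - s)))) :=
      ((continuous_cost.tendsto (z, y)).comp (hx.prodMk_nhds tendsto_const_nhds)).div_const _
    have h2 : Tendsto (fun k => cost (e z (r (φ k) • ξ)) (n (φ k)) / s +
        cost (n (φ k)) y / (s' - s)) atTop (𝓝 (cost z n0 / s + cost n0 y / (s' - s))) :=
      (((continuous_cost.tendsto (z, n0)).comp (hx.prodMk_nhds hnφ)).div_const _).add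
        (((continuous_cost.tendsto (n0, y)).comp (hnφ.prodMk_nhds tendsto_const_nhds)).div_const _)
    refine tendsto_nhds_unique h1 (h2.congr fun k => ?_)
    exact (hn (φ k)).symm
  obtain ⟨h1, h2⟩ := cost_eq_case z n0 y hs hd hlim
  rw [hst] at h2
  obtain ⟨w', hw', hw'y, t, ht0, ht1, htn, htd⟩ := F.between h1
  have h3 : w' = s' • w := F.injDomain_unique hw hw' (by rw [hw'y])
  have h4 : n0 = e z (s • w) := by
    rw [← htn, h3, smul_smul]
    by_cases hw0 : w = 0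
    · rw [hw0, smul_zero, smul_zero]
    · congr 2
      have h5 : 0 < ‖w'‖ := by
        rw [h3, norm_smul, Real.norm_eq_abs, abs_of_pos hs']
        exact mul_pos hs' (norm_pos_iff.mpr hw0)
      have h6 : dist z y = ‖w'‖ := by
        rw [← hw'y]
        exact hw'
      rw [htd, h6] at h2
      have h7 : (s' * t - s) * ‖w'‖ = 0 := by linarith only [h2]
      rcases mul_eq_zero.mp h7 with h8 | h8
      · linarith only [h8]
      · exact absurd h8 h5.ne'
  rw [h4] at hnφ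
  -- minimizing vectors converge
  have hTB : TendstoTB (z := fun _ => z) (fun k => u (φ k)) (s • w) := by
    apply F.segMin_tendsto tendsto_const_nhds hpI
    · intro k
      show dist z (e z (u (φ k))) = ‖u (φ k)‖
      rw [hu1, hu2]
    · simp only [hu1]
      exact hnφ
  rw [tendstoTB_const_base] at hTB
  have hev : ∀ᶠ k in atTop, ‖u (φ k) - s • w‖ < δ := by
    have h5 := (tendsto_iff_norm_sub_tendsto_zero.mp hTB).eventually (gt_mem_nhds hδ)
    exact h5
  obtain ⟨k, hk⟩ := hev.exists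
  apply hrn (φ k)
  refine ⟨u (φ k), hk, ?_⟩
  have h5 := hn (φ k)
  rw [hst] at h5
  rw [h5, hu1]

/-- Lower bound for the Hessian by completing the square: if the two-piece functional
is uniformly convex in the middle point, the Hessian is bounded below. -/
lemma Facts.costHess_lower (F : Facts e) {z : M} {w : TangentSpace 𝓘(ℝ, E) z} {s s' κ : ℝ}
    (hs : 0 < s) (hss : s < s') (hw : s' • w ∈ injDomain e z) (hκ : 0 < κ)
    (hQ : ∀ μ : TangentSpace 𝓘(ℝ, E) z,
      κ * ‖μ‖ ^ 2 ≤ ‖μ‖ ^ 2 / s + midHess e z (s • w) (s' • w) μ μ / (s' - s))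
    (ξ : TangentSpace 𝓘(ℝ, E) z) :
    costHess e z (s • w) ξ ξ / s - ‖ξ‖ ^ 2 / (s ^ 2 * κ) ≤ costHess e z (s' • w) ξ ξ / s' := by
  have hs' : 0 < s' := hs.trans hss
  have hd : 0 < s' - s := sub_pos.mpr hss
  have hwm := injDomain_subset_segMin F.isExp z hw
  have hpI : s • w ∈ injDomain e z := smul_mem_injDomain_of_lt F.isExp hs.le hss hwm
  have hN := F.eventually_segMin hpI
  have hS1 := F.smooth_cost z _ hpI
  have hS2 := F.smooth_cost z _ hw
  have hS3 : SmoothAt E (e z (s • w)) (e z (s' • w)) :=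
    F.smooth_pair hs.le hss.le le_rfl hs' hwm (by linarith)
  have he0 : e z 0 = z := F.isExp.map_zero z
  set y := e z (s' • w) with hy
  set F1 : TangentSpace 𝓘(ℝ, E) z × TangentSpace 𝓘(ℝ, E) z → ℝ :=
    fun p => cost (e z p.1) (e z p.2) with hF1
  set f2 : TangentSpace 𝓘(ℝ, E) z → ℝ := fun b => cost (e z b) y with hf2
  set F2 : TangentSpace 𝓘(ℝ, E) z × TangentSpace 𝓘(ℝ, E) z → ℝ := fun p => f2 p.2 with hF2
  have hF1c : ContDiffAt ℝ 2 F1 (0, s • w) := by
    have h1 := SmoothAt.coord F.isExp (x := z) (q := z) (a := 0) (b := s • w)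
      (by rw [he0]; exact hS1)
    exact h1.of_le (by norm_cast)
  have hf2c : ContDiffAt ℝ 2 f2 (s • w) := contDiffAt_cost_left F.isExp _ hy.symm hS3
  have hF2c : ContDiffAt ℝ 2 F2 (0, s • w) :=
    ContDiffAt.comp (g := f2) ((0 : TangentSpace 𝓘(ℝ, E) z), s • w) hf2c contDiffAt_snd
  set G : TangentSpace 𝓘(ℝ, E) z × TangentSpace 𝓘(ℝ, E) z → ℝ :=
    fun p => (1 / s) * F1 p + (1 / (s' - s)) * F2 p with hG
  have hGc : ContDiffAt ℝ 2 G (0, s • w) :=
    (contDiffAt_const.mul hF1c).add (contDiffAt_const.mul hF2c)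
  -- second derivative of the two-piece functional
  have hGh : ∀ α μ : TangentSpace 𝓘(ℝ, E) z, hess G (0, s • w) (α, μ) (α, μ)
      = costHess e z (s • w) α α / s - 2 * inner ℝ α μ / s + (‖μ‖ ^ 2 / s +
        midHess e z (s • w) (s' • w) μ μ / (s' - s)) := by
    intro α μ
    rw [hG, hess_add (contDiffAt_const.mul hF1c) (contDiffAt_const.mul hF2c),
      hess_const_mul hF1c, hess_const_mul hF2c]
    have h1 := hess_pair F.isExp hN hS1 α μ
    have h2 : hess F2 (0, s • w) (α, μ) (α, μ) = midHess e z (s • w) (s' • w) μ μ := by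
      have h3 := hess_comp_affine (f := f2) (x₀ := s • w) hf2c
        (ContinuousLinearMap.snd ℝ (TangentSpace 𝓘(ℝ, E) z) (TangentSpace 𝓘(ℝ, E) z))
        ((0 : TangentSpace 𝓘(ℝ, E) z), s • w) 0 (by simp) (α, μ) (α, μ)
      simp only [zero_add] at h3
      exact h3
    simp only [add_apply, smul_apply, smul_eq_mul]
    rw [h2]
    have h4 : hess F1 (0, s • w) (α, μ) (α, μ)
        = costHess e z (s • w) α α - 2 * inner ℝ α μ + ‖μ‖ ^ 2 := h1
    rw [h4]
    ring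
  -- the partial derivative in the middle variable vanishes
  have hmin : IsLocalMin (fun b : TangentSpace 𝓘(ℝ, E) z => G (0, b)) (s • w) := by
    filter_upwards [hN] with b hb
    have h5 := cost_ineq z (e z b) y hs hd
    have h6 : cost z y = s' ^ 2 * ‖w‖ ^ 2 / 2 := by
      rw [hy, cost_of_segMin hwm, norm_smul, mul_pow, Real.norm_eq_abs, sq_abs]
    have h8 := segMin_cost F.isExp hwm (s := s / s') (t := 1) (div_nonneg hs.le hs'.le)
        ((div_le_one hs').mpr hss.le) le_rfl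
    rw [one_smul, smul_smul, div_mul_cancel₀ _ hs'.ne', norm_smul, Real.norm_eq_abs,
      abs_of_pos hs', ← hy] at h8
    have h9 : cost z (e z (s • w)) = s ^ 2 * ‖w‖ ^ 2 / 2 := by
      rw [cost_of_segMin (injDomain_subset_segMin F.isExp z hpI), norm_smul, mul_pow,
        Real.norm_eq_abs, sq_abs]
    have h10 : G (0, s • w) = cost z y / (s + (s' - s)) := by
      simp only [hG, hF1, hF2, hf2, he0]
      rw [h8, h9, h6]
      have h10 : s + (s' - s) = s' := by ring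
      rw [h10]
      field_simp
      ring
    rw [h10]
    refine h5.trans (le_of_eq ?_)
    simp only [hG, hF1, hF2, hf2, he0]
    ring
  have hDb : ∀ μ : TangentSpace 𝓘(ℝ, E) z, fderiv ℝ G (0, s • w) (0, μ) = 0 := by
    intro μ
    have h1 : HasFDerivAt G (fderiv ℝ G (0, s • w)) (0, s • w) :=
      (hGc.differentiableAt (by simp)).hasFDerivAt
    have h2 : HasFDerivAt (fun b : TangentSpace 𝓘(ℝ, E) z =>
        ((0 : TangentSpace 𝓘(ℝ, E) z), b)) (ContinuousLinearMap.inr ℝ _ _) (s • w) :=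
      hasFDerivAt_prodMk_right _ _
    have h3 := h1.comp (s • w) h2
    have h4 := hmin.hasFDerivAt_eq_zero h3
    have h5 := congrArg (fun T : TangentSpace 𝓘(ℝ, E) z →L[ℝ] ℝ => T μ) h4
    exact h5
  set Hs := costHess e z (s • w) ξ ξ with hHs
  set D : ℝ := fderiv ℝ G (0, s • w) (ξ, 0) with hD
  set h0 : ℝ := cost z y / s' with hh0
  have hG0 : G (0, s • w) = h0 := by
    have h1 := hmin
    have h8 := segMin_cost F.isExp hwm (s := s / s') (t := 1) (div_nonneg hs.le hs'.le)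
        ((div_le_one hs').mpr hss.le) le_rfl
    rw [one_smul, smul_smul, div_mul_cancel₀ _ hs'.ne', norm_smul, Real.norm_eq_abs,
      abs_of_pos hs', ← hy] at h8
    have h9 : cost z (e z (s • w)) = s ^ 2 * ‖w‖ ^ 2 / 2 := by
      rw [cost_of_segMin (injDomain_subset_segMin F.isExp z hpI), norm_smul, mul_pow,
        Real.norm_eq_abs, sq_abs]
    have h6 : cost z y = s' ^ 2 * ‖w‖ ^ 2 / 2 := by
      rw [hy, cost_of_segMin hwm, norm_smul, mul_pow, Real.norm_eq_abs, sq_abs]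
    simp only [hG, hF1, hF2, hf2, he0, hh0]
    rw [h8, h9, h6]
    field_simp
    ring
  -- for every small epsilon
  have hclaim : ∀ ε : ℝ, 0 < ε → 2 * ε < κ →
      Hs / s - ‖ξ‖ ^ 2 / (s ^ 2 * (κ - 2 * ε)) - 2 * ε * ‖ξ‖ ^ 2 ≤
        costHess e z (s' • w) ξ ξ / s' := by
    intro ε hε hεκ
    obtain ⟨δ, hδ, hT⟩ := taylor2 hGc hε
    set B : ℝ := (Hs / s - ‖ξ‖ ^ 2 / (s ^ 2 * (κ - 2 * ε)) - 2 * ε * ‖ξ‖ ^ 2) / 2 with hB
    have hk : 0 < κ - 2 * ε := by linarith only [hεκ]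
    have hsmall : ∀ᶠ r in 𝓝 (0 : ℝ), ‖r • ξ‖ < δ := by
      have h1 : Tendsto (fun r : ℝ => ‖r • ξ‖) (𝓝 0) (𝓝 ‖(0 : ℝ) • ξ‖) :=
        ((continuous_id.smul continuous_const).norm).tendsto 0
      rw [zero_smul, norm_zero] at h1
      exact h1.eventually (gt_mem_nhds hδ)
    have hlow : ∀ᶠ r in 𝓝 (0 : ℝ),
        h0 + r * D + r ^ 2 * B ≤ cost (e z (r • ξ)) y / s' := by
      filter_upwards [F.exists_mid_near hs hss hw ξ hδ, hsmall] with r hr1 hr2
      obtain ⟨b, hb, hbe⟩ := hr1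
      rw [hbe]
      set h : TangentSpace 𝓘(ℝ, E) z := b - s • w with hh
      have h1 := hT (0, s • w) (r • ξ, h) (by simpa using hδ) (by
        rw [Prod.norm_def]
        exact max_lt hr2 hb)
      have h2 : ((0 : TangentSpace 𝓘(ℝ, E) z), s • w) + (r • ξ, h) = (r • ξ, b) := by
        rw [Prod.mk_add_mk, zero_add, hh]
        congr 1
        abel
      rw [h2, hG0, hGh] at h1
      have h3 : fderiv ℝ G (0, s • w) (r • ξ, h) = r * D := by
        have h4 : ((r • ξ, h) : TangentSpace 𝓘(ℝ, E) z × TangentSpace 𝓘(ℝ, E) z)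
            = r • (ξ, (0 : TangentSpace 𝓘(ℝ, E) z)) + ((0 : TangentSpace 𝓘(ℝ, E) z), h) := by
          simp
        rw [h4, map_add, map_smul, hDb, add_zero, smul_eq_mul, hD]
      rw [h3] at h1
      have h4 : ‖((r • ξ, h) : TangentSpace 𝓘(ℝ, E) z × TangentSpace 𝓘(ℝ, E) z)‖ ^ 2
          ≤ r ^ 2 * ‖ξ‖ ^ 2 + ‖h‖ ^ 2 := by
        rw [Prod.norm_def]
        have h5 : ‖r • ξ‖ ^ 2 = r ^ 2 * ‖ξ‖ ^ 2 := by
          rw [norm_smul, mul_pow, Real.norm_eq_abs, sq_abs]
        rcases max_cases ‖r • ξ‖ ‖h‖ with ⟨h6, -⟩ | ⟨h6, -⟩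
        · simp only [h6, h5]
          linarith only [sq_nonneg ‖h‖]
        · simp only [h6]
          have : 0 ≤ r ^ 2 * ‖ξ‖ ^ 2 := by (clear * -; positivity)
          linarith only [this]
      have h5 := hQ h
      have h6 : costHess e z (s • w) (r • ξ) (r • ξ) = r ^ 2 * Hs := by
        rw [map_smul, hHs]
        simp only [smul_apply, map_smul, smul_eq_mul]
        ring
      have h7 : inner ℝ (r • ξ) h = r * inner ℝ ξ h := by
        rw [inner_smul_left]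
        simp
      rw [h6, h7] at h1
      have h8 : |inner ℝ ξ h| ≤ ‖ξ‖ * ‖h‖ := abs_real_inner_le_norm ξ h
      have h9 : G (r • ξ, b) = cost (e z (r • ξ)) (e z b) / s + cost (e z b) y / (s' - s) := by
        simp only [hG, hF1, hF2, hf2]
        ring
      rw [h9] at h1
      have h10 := (abs_le.mp h1).1
      -- complete the square
      have h11 : - (r ^ 2 * ‖ξ‖ ^ 2 / (2 * s ^ 2 * (κ - 2 * ε))) ≤
          (κ - 2 * ε) / 2 * ‖h‖ ^ 2 - r * inner ℝ ξ h / s := by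
        have h12 : r * inner ℝ ξ h / s ≤ |r| * (‖ξ‖ * ‖h‖) / s := by
          apply div_le_div_of_nonneg_right _ hs.le
          calc r * inner ℝ ξ h ≤ |r * inner ℝ ξ h| := le_abs_self _
            _ = |r| * |inner ℝ ξ h| := abs_mul _ _
            _ ≤ |r| * (‖ξ‖ * ‖h‖) := mul_le_mul_of_nonneg_left h8 (abs_nonneg r)
        have h13 : 0 ≤ ((κ - 2 * ε) * s * ‖h‖ - |r| * ‖ξ‖) ^ 2 / (2 * s ^ 2 * (κ - 2 * ε)) := by
          (clear * - hs hεκ; positivity)
        have h14 : ((κ - 2 * ε) * s * ‖h‖ - |r| * ‖ξ‖) ^ 2 / (2 * s ^ 2 * (κ - 2 * ε))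
            = (κ - 2 * ε) / 2 * ‖h‖ ^ 2 - |r| * (‖ξ‖ * ‖h‖) / s
              + r ^ 2 * ‖ξ‖ ^ 2 / (2 * s ^ 2 * (κ - 2 * ε)) := by
          rw [← sq_abs r]
          field_simp
          ring
        rw [h14] at h13
        linarith only [h12, h13]
      have h15 : r ^ 2 * B = r ^ 2 * Hs / s / 2 - r ^ 2 * ‖ξ‖ ^ 2 / (2 * s ^ 2 * (κ - 2 * ε))
          - ε * (r ^ 2 * ‖ξ‖ ^ 2) := by
        rw [hB]
        (clear * - hk hs; field_simp)
      rw [h15]
      have h16 := mul_le_mul_of_nonneg_left h4 hε.le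
      have h17 : r ^ 2 * Hs / s = r ^ 2 * Hs / s := rfl
      have h18 : 2 * (r * inner ℝ ξ h) / s = 2 * (r * inner ℝ ξ h / s) := by ring
      rw [h18] at h10
      linarith only [h5, h10, h11, h16]
    have hgc : ContDiffAt ℝ 2 (fun a : TangentSpace 𝓘(ℝ, E) z => cost (e z a) y) 0 :=
      contDiffAt_cost_left F.isExp _ hy.symm (by rw [he0]; exact hS2)
    have hgr : ContDiffAt ℝ 2 (fun r : ℝ => cost (e z (r • ξ)) y) 0 := by
      refine ContDiffAt.comp (g := fun a : TangentSpace 𝓘(ℝ, E) z => cost (e z a) y)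
        (f := fun r : ℝ => r • ξ) (0 : ℝ) ?_ (contDiffAt_id.smul contDiffAt_const)
      rw [zero_smul]
      exact hgc
    have hqr : ContDiffAt ℝ 2 (fun r : ℝ => h0 + r * D + r ^ 2 * B) 0 := by
      apply ContDiff.contDiffAt
      fun_prop
    have hmin2 : IsLocalMin (fun r : ℝ => (1 / s') * cost (e z (r • ξ)) y +
        (-1) * (h0 + r * D + r ^ 2 * B)) 0 := by
      filter_upwards [hlow] with r hr
      rw [zero_smul, he0]
      have h1 : 1 / s' * cost z y + -1 * (h0 + 0 * D + 0 ^ 2 * B) = 0 := by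
        rw [hh0]
        ring
      rw [h1]
      have h2 : 1 / s' * cost (e z (r • ξ)) y = cost (e z (r • ξ)) y / s' := by ring
      rw [h2]
      linarith only [hr]
    have h20 := hess_nonneg_of_isLocalMin
      ((contDiffAt_const.mul hgr).add (contDiffAt_const.mul hqr)) hmin2 1
    rw [hess_add (contDiffAt_const.mul hgr) (contDiffAt_const.mul hqr), hess_const_mul hgr,
      hess_const_mul hqr] at h20
    simp only [add_apply, smul_apply, smul_eq_mul] at h20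
    have h21 := iteratedDeriv_two_line hgr (1 : ℝ)
    have h22 := iteratedDeriv_two_line hqr (1 : ℝ)
    simp only [smul_eq_mul, mul_one, zero_add] at h21 h22
    rw [← h21, ← h22, quad_iter] at h20
    have h23 := iteratedDeriv_cost_eq F.isExp (z := z) (v := s' • w) hS2 ξ
    rw [← hy] at h23
    rw [h23] at h20
    have h24 : 1 / s' * costHess e z (s' • w) ξ ξ = costHess e z (s' • w) ξ ξ / s' := by ring
    rw [h24] at h20
    rw [hB] at h20
    linarith only [h20]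
  -- let epsilon tend to zero
  have hlim : Tendsto (fun ε : ℝ => Hs / s - ‖ξ‖ ^ 2 / (s ^ 2 * (κ - 2 * ε)) - 2 * ε * ‖ξ‖ ^ 2)
      (𝓝[>] 0) (𝓝 (Hs / s - ‖ξ‖ ^ 2 / (s ^ 2 * κ))) := by
    have h1 : ContinuousAt (fun ε : ℝ => Hs / s - ‖ξ‖ ^ 2 / (s ^ 2 * (κ - 2 * ε))
        - 2 * ε * ‖ξ‖ ^ 2) 0 := by
      apply ContinuousAt.sub
      · apply ContinuousAt.sub continuousAt_const
        apply ContinuousAt.div continuousAt_const
        · fun_prop
        · simp only [mul_zero, sub_zero]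
          positivity
      · fun_prop
    have h2 := h1.tendsto
    simp only [mul_zero, sub_zero, zero_mul] at h2
    exact h2.mono_left nhdsWithin_le_nhds
  apply le_of_tendsto hlim
  have h1 : ∀ᶠ ε in 𝓝[>] (0 : ℝ), 2 * ε < κ := by
    have h2 : ∀ᶠ ε in 𝓝 (0 : ℝ), 2 * ε < κ := by
      have h3 : ContinuousAt (fun ε : ℝ => 2 * ε) 0 := by fun_prop
      apply h3.eventually (gt_mem_nhds _)
      simpa using hκ
    exact h2.filter_mono nhdsWithin_le_nhds
  filter_upwards [h1, self_mem_nhdsWithin] with ε hε1 hε2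
  exact hclaim ε hε2 hε1

end

end Vale.Agent.P234
end
end

section

section

/-! Step B: nondegeneracy (no focal points). -/

set_option maxSynthPendingDepth 3

open Bundle Manifold Set Filter
open scoped ContDiff Manifold Topology

namespace Vale.Agent.P234

noncomputable section

variable {E : Type*} [NormedAddCommGroup E] [NormedSpace ℝ E] [FiniteDimensional ℝ E]
  {M : Type*} [MetricSpace M] [ChartedSpace E M]
  [RiemannianBundle (fun x : M => TangentSpace 𝓘(ℝ, E) x)]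
  [IsManifold 𝓘(ℝ, E) ∞ M]
  [IsContMDiffRiemannianBundle 𝓘(ℝ, E) ∞ E (fun x : M => TangentSpace 𝓘(ℝ, E) x)]
  [CompactSpace M]
  {e : ∀ x : M, TangentSpace 𝓘(ℝ, E) x → M}

lemma Facts.smoothAt_mid (F : Facts e) {z : M} {w : TangentSpace 𝓘(ℝ, E) z} {θ τ₁ : ℝ}
    (hθ : 0 < θ) (hθτ : θ < τ₁) (hw : τ₁ • w ∈ segMin e z) :
    SmoothAt E (e z (θ • w)) (e z (τ₁ • w)) := by
  have h1 : 0 < τ₁ := lt_trans hθ hθτ
  have h2 := F.smooth_between hw (s := θ / τ₁) (t := 1) (by positivity)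
    ((div_le_one h1).2 hθτ.le) zero_le_one le_rfl (by
      rw [abs_of_nonneg]
      · have : 0 < θ / τ₁ := by positivity
        linarith only [this]
      · have : θ / τ₁ ≤ 1 := (div_le_one h1).2 hθτ.le
        linarith only [this])
  rwa [smul_smul, div_mul_cancel₀ _ h1.ne', one_smul] at h2

/-- The abstract Hessian data of a tangent space. -/
def Facts.hessData (F : Facts e) (hW : WeakMTW e) (z : M) :
    HessData (TangentSpace 𝓘(ℝ, E) z) where
  I := injDomain e z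
  S := segMin e z
  H := costHess e z
  K := midHess e z
  smul_mem _ hw _ h0 h1 := smul_mem_injDomain F.isExp hw h0 h1
  contH w hw := (contDiffAt_costHess F.isExp (F.smooth_cost z w hw)).continuousAt
  symm w hw a b := costHess_symm F.isExp (F.smooth_cost z w hw) a b
  radial w hw a := costHess_radial F.isExp (injDomain_subset_segMin F.isExp z hw)
    (F.smooth_cost z w hw) a
  smoothK _ _ _ hs hss hw := contDiffAt_midHess F.isExp (F.smoothAt_mid hs hss hw)
  key _ _ _ hs hss hw ξ μ := F.key_ineq hs hss hw ξ μ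
  strict _ _ _ hs hss hw _ hξ := F.costHess_strict hs hss hw hξ
  concave _ hD hDI w₀ ξ := F.concaveOn_costHess hW z hD hDI w₀ ξ
  mid_nonneg _ _ _ hs hss hw μ := F.midHess_nonneg hs hss hw μ
  mid_pos _ _ _ hs hss hw _ hμ := F.midHess_pos hs hss hw hμ
  lower _ _ _ _ hs hss hw hκ hQ ξ := F.costHess_lower hs hss hw hκ hQ ξ

end

end Vale.Agent.P234
end
end

section

section

/-! Step D: uniform strict local minimality. -/

set_option maxSynthPendingDepth 3

open Bundle Manifold Set Filter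
open scoped ContDiff Manifold Topology

namespace Vale.Agent.P234

noncomputable section

variable {E : Type*} [NormedAddCommGroup E] [NormedSpace ℝ E] [FiniteDimensional ℝ E]
  {M : Type*} [MetricSpace M] [ChartedSpace E M]
  [RiemannianBundle (fun x : M => TangentSpace 𝓘(ℝ, E) x)]
  [IsManifold 𝓘(ℝ, E) ∞ M]
  [IsContMDiffRiemannianBundle 𝓘(ℝ, E) ∞ E (fun x : M => TangentSpace 𝓘(ℝ, E) x)]
  [CompactSpace M]
  {e : ∀ x : M, TangentSpace 𝓘(ℝ, E) x → M}

set_option backward.isDefEq.respectTransparency false in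
omit [CompactSpace M] in
/-- Gradient formula with a free centre: the same linear map works for all targets. -/
lemma exists_dexp (he : IsExp e) {x z : M} {a : TangentSpace 𝓘(ℝ, E) x} (hz : e x a = z) :
    ∃ L : TangentSpace 𝓘(ℝ, E) x →L[ℝ] TangentSpace 𝓘(ℝ, E) z,
      ∀ v ∈ segMin e z, ∀ y, e z v = y → SmoothAt E z y → ∀ ξ,
        fderiv ℝ (fun a' : TangentSpace 𝓘(ℝ, E) x => cost (e x a') y) a ξ = -inner ℝ v (L ξ) := by
  subst hz
  refine ⟨mfderiv 𝓘(ℝ, TangentSpace 𝓘(ℝ, E) x) 𝓘(ℝ, E) (e x) a, ?_⟩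
  rintro v hv y rfl hs ξ
  have h := (hasFDerivAt_cost he x a v hv hs).fderiv
  exact congrArg (fun L : TangentSpace 𝓘(ℝ, E) x →L[ℝ] ℝ => L ξ) h

/-- The two-piece functional is critical at the middle point. -/
lemma Facts.mid_crit (F : Facts e) {θ δ ρ : ℝ} (hθ : 0 < θ) (hδ : 0 < δ)
    (hρmin : ∀ (x : M) (v : TangentSpace 𝓘(ℝ, E) x) (s t : ℝ),
      ‖v‖ * |t - s| ≤ ρ → dist (e x (s • v)) (e x (t • v)) = ‖v‖ * |t - s|)
    {x z : M} {b : TangentSpace 𝓘(ℝ, E) x} {u : TangentSpace 𝓘(ℝ, E) z}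
    (hb : e x b = e z (θ • u)) (hu : θ • u ∈ injDomain e z) (h2 : 2 * δ * ‖u‖ ≤ ρ)
    (μ : TangentSpace 𝓘(ℝ, E) x) :
    fderiv ℝ (fun s : TangentSpace 𝓘(ℝ, E) x => cost z (e x s)) b μ / θ +
      fderiv ℝ (fun s : TangentSpace 𝓘(ℝ, E) x => cost (e x s) (e z ((θ + δ) • u))) b μ / δ
        = 0 := by
  obtain ⟨L, hL⟩ := exists_dexp F.isExp hb
  obtain ⟨w, hw, hfl⟩ := F.flow z u θ
  have hus : θ • u ∈ segMin e z := injDomain_subset_segMin F.isExp z hu
  have h1 : e (e z (θ • u)) ((-θ) • w) = z := by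
    rw [hfl]
    simp [F.isExp.map_zero]
  have h3 : (-θ) • w ∈ segMin e (e z (θ • u)) := by
    have h4 : dist z (e z (θ • u)) = ‖θ • u‖ := hus
    show dist _ _ = _
    rw [h1, dist_comm, h4, norm_smul, norm_smul, hw, norm_neg]
  have h5 : e (e z (θ • u)) (δ • w) = e z ((θ + δ) • u) := hfl δ
  have h6 : δ • w ∈ injDomain e (e z (θ • u)) := by
    refine ⟨2, one_lt_two, ?_⟩
    have h7 := hρmin z u θ (θ + 2 * δ) (by
      rw [add_sub_cancel_left, abs_of_pos (by positivity)]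
      linarith only [h2])
    rw [smul_smul, hfl, h7, add_sub_cancel_left, abs_of_pos (by positivity), norm_smul, hw,
      Real.norm_of_nonneg hδ.le]
    ring
  have h8 : SmoothAt E (e z (θ • u)) z := (F.smooth_cost z _ hu).symm
  have h9 : SmoothAt E (e z (θ • u)) (e z ((θ + δ) • u)) := by
    have := F.smooth_cost _ _ h6
    rwa [h5] at this
  have e1 := hL _ h3 z h1 h8 μ
  have e2 := hL _ (injDomain_subset_segMin F.isExp _ h6) _ h5 h9 μ
  have e3 : (fun s : TangentSpace 𝓘(ℝ, E) x => cost z (e x s)) =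
      fun s : TangentSpace 𝓘(ℝ, E) x => cost (e x s) z := funext fun s => cost_comm _ _
  rw [e3, e1, e2, real_inner_smul_left, real_inner_smul_left]
  field_simp
  ring

/-- Minimizing vectors from a fixed base point towards a convergent sequence converge. -/
lemma Facts.exists_coords (F : Facts e) {z₀ : M} {v : TangentSpace 𝓘(ℝ, E) z₀}
    (hv : v ∈ injDomain e z₀) {x : ℕ → M} (hx : Tendsto x atTop (𝓝 (e z₀ v))) :
    ∃ a : ℕ → TangentSpace 𝓘(ℝ, E) z₀, (∀ k, e z₀ (a k) = x k) ∧ Tendsto a atTop (𝓝 v) := by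
  choose a ha1 ha2 using fun k => F.hopfRinow z₀ (x k)
  refine ⟨a, ha1, ?_⟩
  refine tendstoTB_const_base.1 (F.segMin_tendsto tendsto_const_nhds hv a (fun k => ?_) ?_)
  · show dist _ _ = _
    rw [ha1, ha2]
  · simpa only [ha1] using hx

/-- Core of Step D: there is no bad sequence. -/
lemma stepD_core (F : Facts e) (hW : WeakMTW e) (P : Pot M) {τ₁ δ ρ : ℝ} (hδ : 0 < δ)
    (hδτ : δ < τ₁) (hτ₁ : τ₁ < 1) (hA : P.A e τ₁)
    (hρmin : ∀ (x : M) (v : TangentSpace 𝓘(ℝ, E) x) (s t : ℝ),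
      ‖v‖ * |t - s| ≤ ρ → dist (e x (s • v)) (e x (t • v)) = ‖v‖ * |t - s|)
    (hδρ : ∀ (z : M), ∀ u ∈ P.sub e z, 2 * δ * ‖u‖ ≤ ρ)
    {ι : Type*} [Fintype ι] (z : ℕ → M) (lam : ℕ → ι → ℝ)
    (w : ∀ k, ι → TangentSpace 𝓘(ℝ, E) (z k)) (u : ∀ k, TangentSpace 𝓘(ℝ, E) (z k)) (τ : ℕ → ℝ)
    (hlam : ∀ k j, 0 ≤ lam k j) (hsum : ∀ k, ∑ j, lam k j = 1)
    (hw : ∀ k j, w k j ∈ P.vtx e (z k)) (hu : ∀ k, ∑ j, lam k j • w k j = u k)
    (z₀ : M) (lam₀ : ι → ℝ) (w₀ : ι → TangentSpace 𝓘(ℝ, E) z₀) (u₀ : TangentSpace 𝓘(ℝ, E) z₀)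
    (hu₀ : ∑ j, lam₀ j • w₀ j = u₀)
    (hz : Tendsto z atTop (𝓝 z₀))
    (hlam₀ : ∀ j, Tendsto (fun k => lam k j) atTop (𝓝 (lam₀ j)))
    (hw₀ : ∀ j, TendstoTB (fun k => w k j) (w₀ j)) (hulim : TendstoTB u u₀)
    (hτ : Tendsto τ atTop (𝓝 τ₁))
    (x n : ℕ → M) (hx : Tendsto x atTop (𝓝 z₀))
    (hn : Tendsto n atTop (𝓝 (e z₀ ((τ₁ - δ) • u₀))))
    (hne : ∀ k, (x k, n k) ≠ (z k, e (z k) ((τ k - δ) • u k)))
    (hbad : ∀ k, two (τ k - δ) δ (x k) (n k) (e (z k) (τ k • u k)) + P.phi (x k) ≤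
      two (τ k - δ) δ (z k) (e (z k) ((τ k - δ) • u k)) (e (z k) (τ k • u k)) + P.phi (z k)) :
    False := by
  have he := F.isExp
  have hτ0 : 0 < τ₁ := hδ.trans hδτ
  set θ : ℝ := τ₁ - δ with hθdef
  have hθ : 0 < θ := sub_pos.2 hδτ
  have hθτ : θ < τ₁ := by linarith only [hδ]
  obtain ⟨τ', hτ'1, hτ'2⟩ := exists_between hτ₁
  have hτ'0 : 0 < τ' := hτ0.trans hτ'1
  have hsum₀ : ∑ j, lam₀ j = 1 := by
    have h1 : Tendsto (fun k => ∑ j, lam k j) atTop (𝓝 (∑ j, lam₀ j)) :=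
      tendsto_finsetSum _ fun j _ => hlam₀ j
    simp only [hsum] at h1
    exact (tendsto_nhds_unique h1 tendsto_const_nhds)
  have hlam₀0 : ∀ j, 0 ≤ lam₀ j := fun j => ge_of_tendsto' (hlam₀ j) fun k => hlam k j
  have hw₀v : ∀ j, w₀ j ∈ P.vtx e z₀ := fun j => P.vtx_closed he (hw₀ j) fun k => hw k j
  have hu₀s : u₀ ∈ P.sub e z₀ := by
    rw [← hu₀]
    exact (convex_convexHull ℝ _).sum_mem (fun j _ => hlam₀0 j) hsum₀
      (fun j _ => subset_convexHull ℝ _ (hw₀v j))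
  have hus : ∀ k, u k ∈ P.sub e (z k) := by
    intro k
    rw [← hu k]
    exact (convex_convexHull ℝ _).sum_mem (fun j _ => hlam k j) (hsum k)
      (fun j _ => subset_convexHull ℝ _ (hw k j))
  have hθI : θ • u₀ ∈ injDomain e z₀ :=
    smul_mem_injDomain_of_lt he hθ.le hθτ (hA.segMin he hτ0 hu₀s)
  -- eventual facts
  have hth : Tendsto (fun k => τ k - δ) atTop (𝓝 θ) := hτ.sub_const δ
  have eth : ∀ᶠ k in atTop, 0 < τ k - δ ∧ τ k - δ < τ₁ :=
    (hth.eventually (lt_mem_nhds hθ)).and (hth.eventually (gt_mem_nhds hθτ))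
  have huI : ∀ᶠ k in atTop, (τ k - δ) • u k ∈ injDomain e (z k) := by
    filter_upwards [eth] with k hk
    exact smul_mem_injDomain_of_lt he hk.1.le hk.2 (hA.segMin he hτ0 (hus k))
  -- coordinates
  have h0I : (0 : TangentSpace 𝓘(ℝ, E) z₀) ∈ injDomain e z₀ := zero_mem_injDomain he z₀
  have hw₀I : ∀ j, τ' • w₀ j ∈ injDomain e z₀ := fun j =>
    smul_mem_injDomain he (hw₀v j).1 hτ'0.le hτ'2
  obtain ⟨a, ha1, ha⟩ := F.exists_coords h0I (x := x) (by rw [he.map_zero]; exact hx)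
  obtain ⟨a', ha'1, ha'⟩ := F.exists_coords h0I (x := z) (by rw [he.map_zero]; exact hz)
  obtain ⟨b, hb1, hb⟩ := F.exists_coords hθI (x := n) hn
  obtain ⟨b', hb'1, hb'⟩ := F.exists_coords hθI (x := fun k => e (z k) ((τ k - δ) • u k))
    ((hulim.smul hth).exp he)
  have hq' : ∀ j, ∃ q : ℕ → TangentSpace 𝓘(ℝ, E) z₀, (∀ k, e z₀ (q k) = e (z k) (τ' • w k j)) ∧
      Tendsto q atTop (𝓝 (τ' • w₀ j)) := fun j =>
    F.exists_coords (hw₀I j) (x := fun k => e (z k) (τ' • w k j))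
      (((hw₀ j).smul tendsto_const_nhds).exp he)
  choose q hq1 hq using hq'
  obtain ⟨y₀, hy₀⟩ : ∃ y₀, y₀ = e z₀ (τ₁ • u₀) := ⟨_, rfl⟩
  obtain ⟨c, hc1, hc⟩ := F.exists_coords (zero_mem_injDomain he y₀)
    (x := fun k => e (z k) (τ k • u k)) (by
      rw [he.map_zero, hy₀]
      exact (hulim.smul hτ).exp he)
  have hsm0 : SmoothAt E z₀ (e z₀ (θ • u₀)) := F.smooth_cost _ _ hθI
  have hsm1 : SmoothAt E (e z₀ (θ • u₀)) y₀ := by
    rw [hy₀]
    exact F.smoothAt_mid hθ hθτ (hA.segMin he hτ0 hu₀s)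
  refine (F.hessData hW z₀).no_bad_sequence
    (A := fun p => cost (e z₀ p.1) (e z₀ p.2)) (Bf := fun p => cost (e z₀ p.1) (e y₀ p.2))
    (W := P.vtx e z₀) (θ := θ) (τ₁ := τ₁) (τ' := τ') (δ := δ) hθ hδ (by rw [hθdef]; ring) hτ'1 hτ'2
    (fun v hv => hv.1) (fun v hv => hA.segMin he hτ0 hv) hlam₀0 hsum₀ (w₀ := w₀) hw₀v hu₀
    ?_ ?_ ?_ ?_ ?_ ?_ ?_ ?_ ?_ (a := a) (a' := a') (b := b) (b' := b') (c := c)
    (q := fun k j => q j k) (th := fun k => τ k - δ) (lam := lam) ha ha' hb hb' hc hq hth hlam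
    hlam₀ hsum ?_ ?_ ?_ ?_
  · refine (SmoothAt.coord he (a := (0 : TangentSpace 𝓘(ℝ, E) z₀)) (b := θ • u₀) ?_).of_le
      ENat.LEInfty.out
    rw [he.map_zero]
    exact hsm0
  · intro j
    refine (SmoothAt.coord he (a := (0 : TangentSpace 𝓘(ℝ, E) z₀)) (b := τ' • w₀ j) ?_).of_le
      ENat.LEInfty.out
    rw [he.map_zero]
    exact F.smooth_cost _ _ (hw₀I j)
  · refine (SmoothAt.coord he (a := θ • u₀) (b := (0 : TangentSpace 𝓘(ℝ, E) y₀)) ?_).of_le
      ENat.LEInfty.out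
    rw [he.map_zero]
    exact hsm1
  · intro ξ
    have h := (hasFDerivAt_cost_zero he z₀ _ (injDomain_subset_segMin he z₀ hθI) hsm0).fderiv
    exact congrArg (fun L : TangentSpace 𝓘(ℝ, E) z₀ →L[ℝ] ℝ => L ξ) h
  · intro j ξ
    have h := (hasFDerivAt_cost_zero he z₀ _ (injDomain_subset_segMin he z₀ (hw₀I j))
      (F.smooth_cost _ _ (hw₀I j))).fderiv
    exact congrArg (fun L : TangentSpace 𝓘(ℝ, E) z₀ →L[ℝ] ℝ => L ξ) h
  · intro μ
    have h := F.mid_crit hθ hδ hρmin (x := z₀) (z := z₀) (b := θ • u₀) (u := u₀) rfl hθI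
      (hδρ z₀ u₀ hu₀s) μ
    have h1 : θ + δ = τ₁ := by rw [hθdef]; ring
    rw [h1] at h
    simp only [he.map_zero]
    rw [hy₀]
    exact h
  · intro ξ μ
    exact hess_pair he (F.eventually_segMin hθI) hsm0 ξ μ
  · intro j ξ
    rfl
  · intro μ
    simp only [he.map_zero]
    rw [hy₀]
    rfl
  · intro k h
    apply hne k
    have h1 : a k = a' k := congrArg Prod.fst h
    have h2 : b k = b' k := congrArg Prod.snd h
    have h3 : x k = z k := by rw [← ha1, ← ha'1, h1]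
    have h4 : n k = e (z k) ((τ k - δ) • u k) := by rw [← hb1, ← hb'1, h2]
    rw [h3, h4]
  · intro k j
    simp only [ha1, ha'1, hb1, hb'1, hc1, hq1]
    have h1 := hbad k
    have h2 := P.phi_lower he (hw k j) hτ'0 hτ'2 (x k)
    have h3 : cost (z k) (e (z k) (τ' • w k j)) = τ' ^ 2 * ‖w k j‖ ^ 2 / 2 := by
      have h4 := segMin_cost he (hw k j).1 le_rfl hτ'0.le hτ'2.le
      rw [zero_smul, he.map_zero, sub_zero] at h4
      exact h4
    have h5 : cost (z k) (e (z k) (τ' • w k j)) / τ' = τ' * ‖w k j‖ ^ 2 / 2 := by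
      rw [h3]
      (clear * - hτ'0; field_simp)
    simp only [two] at h1
    rw [h5]
    linarith
  · filter_upwards [huI, eth] with k hk1 hk2
    intro ξ
    obtain ⟨L, hL⟩ := exists_dexp he (ha'1 k)
    have h1 := hL _ (injDomain_subset_segMin he _ hk1) _ rfl (F.smooth_cost _ _ hk1) ξ
    simp only [hb'1, hq1]
    rw [h1]
    have h2 : ∀ j, fderiv ℝ (fun x : TangentSpace 𝓘(ℝ, E) z₀ =>
        cost (e z₀ x) (e (z k) (τ' • w k j))) (a' k) ξ = -inner ℝ (τ' • w k j) (L ξ) := fun j =>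
      have hj : τ' • w k j ∈ injDomain e (z k) := smul_mem_injDomain he (hw k j).1 hτ'0.le hτ'2
      hL _ (injDomain_subset_segMin he _ hj) _ rfl (F.smooth_cost _ _ hj) ξ
    simp only [h2]
    have h3 : ∀ j, lam k j * (-inner ℝ (τ' • w k j) (L ξ) / τ') =
        -inner ℝ (lam k j • w k j) (L ξ) := by
      intro j
      rw [real_inner_smul_left, real_inner_smul_left]
      (clear * - hτ'0; field_simp)
    rw [Finset.sum_congr rfl fun j _ => h3 j, Finset.sum_neg_distrib, ← sum_inner, hu k,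
      real_inner_smul_left]
    have := hk2.1.ne'
    field_simp
  · filter_upwards [huI, eth] with k hk1 hk2
    intro μ
    have h := F.mid_crit hk2.1 hδ hρmin (hb'1 k) hk1 (hδρ _ _ (hus k)) μ
    have h1 : τ k - δ + δ = τ k := by ring
    rw [h1] at h
    simp only [ha'1, hc1]
    exact h

/-- Step D: uniform strict local minimality, in sequential form. -/
theorem stepD (F : Facts e) (hW : WeakMTW e) (P : Pot M) {τ₁ δ ρ : ℝ} (hδ : 0 < δ) (hδτ : δ < τ₁)
    (hτ₁ : τ₁ < 1) (hA : P.A e τ₁) (hρ : 0 < ρ)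
    (hρmin : ∀ (x : M) (v : TangentSpace 𝓘(ℝ, E) x) (s t : ℝ),
      ‖v‖ * |t - s| ≤ ρ → dist (e x (s • v)) (e x (t • v)) = ‖v‖ * |t - s|)
    (hδρ : ∀ (z : M), ∀ u ∈ P.sub e z, 2 * δ * ‖u‖ ≤ ρ)
    {ι : Type*} [Fintype ι] (z : ℕ → M) (lam : ℕ → ι → ℝ)
    (w : ∀ k, ι → TangentSpace 𝓘(ℝ, E) (z k)) (τ : ℕ → ℝ)
    (hlam : ∀ k j, 0 ≤ lam k j) (hsum : ∀ k, ∑ j, lam k j = 1)
    (hw : ∀ k j, w k j ∈ P.vtx e (z k))
    (z₀ : M) (lam₀ : ι → ℝ) (w₀ : ι → TangentSpace 𝓘(ℝ, E) z₀)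
    (hz : Tendsto z atTop (𝓝 z₀))
    (hlam₀ : ∀ j, Tendsto (fun k => lam k j) atTop (𝓝 (lam₀ j)))
    (hw₀ : ∀ j, TendstoTB (fun k => w k j) (w₀ j))
    (hτ : Tendsto τ atTop (𝓝 τ₁)) (hτge : ∀ k, τ₁ ≤ τ k)
    (x n : ℕ → M) (hx : Tendsto x atTop (𝓝 z₀))
    (hn : Tendsto n atTop (𝓝 (e z₀ ((τ₁ - δ) • ∑ j, lam₀ j • w₀ j))))
    (hne : ∀ k, (x k, n k) ≠ (z k, e (z k) ((τ k - δ) • ∑ j, lam k j • w k j))) :
    ∀ᶠ k in atTop,
      two (τ k - δ) δ (z k) (e (z k) ((τ k - δ) • ∑ j, lam k j • w k j))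
          (e (z k) (τ k • ∑ j, lam k j • w k j)) + P.phi (z k) <
        two (τ k - δ) δ (x k) (n k) (e (z k) (τ k • ∑ j, lam k j • w k j)) + P.phi (x k) := by
  by_contra hcon
  rw [Filter.not_eventually] at hcon
  obtain ⟨φ, hφ, hbad⟩ := Filter.extraction_of_frequently_atTop hcon
  have hφ' := hφ.tendsto_atTop
  refine stepD_core F hW P hδ hδτ hτ₁ hA hρmin hδρ (fun k => z (φ k)) (fun k => lam (φ k))
    (fun k => w (φ k)) (fun k => ∑ j, lam (φ k) j • w (φ k) j) (fun k => τ (φ k))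
    (fun k j => hlam _ j) (fun k => hsum _) (fun k j => hw _ j) (fun k => rfl) z₀ lam₀ w₀ _ rfl
    (hz.comp hφ') (fun j => (hlam₀ j).comp hφ') (fun j => (hw₀ j).subseq hφ)
    ?_ (hτ.comp hφ') (fun k => x (φ k)) (fun k => n (φ k)) (hx.comp hφ') (hn.comp hφ')
    (fun k => hne _) (fun k => not_lt.1 (hbad k))
  exact (TendstoTB.sum hz hw₀ hlam₀).subseq hφ

end

end Vale.Agent.P234
end
end

section

section

/-! Openness of the support property. -/

set_option maxSynthPendingDepth 3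

open Bundle Manifold Set Filter
open scoped ContDiff Manifold Topology

namespace Vale.Agent.P234

noncomputable section

variable {E : Type*} [NormedAddCommGroup E] [NormedSpace ℝ E] [FiniteDimensional ℝ E]
  {M : Type*} [MetricSpace M] [ChartedSpace E M]
  [RiemannianBundle (fun x : M => TangentSpace 𝓘(ℝ, E) x)]
  [IsManifold 𝓘(ℝ, E) ∞ M]
  [IsContMDiffRiemannianBundle 𝓘(ℝ, E) ∞ E (fun x : M => TangentSpace 𝓘(ℝ, E) x)]
  [CompactSpace M]
  {e : ∀ x : M, TangentSpace 𝓘(ℝ, E) x → M}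

set_option backward.isDefEq.respectTransparency false in
omit [FiniteDimensional ℝ E] [CompactSpace M] [IsManifold 𝓘(ℝ, E) ∞ M]
  [IsContMDiffRiemannianBundle 𝓘(ℝ, E) ∞ E (fun x : M => TangentSpace 𝓘(ℝ, E) x)] in
/-- Value of the two-piece functional along a geodesic. -/
lemma two_eq {θ δ ρ : ℝ} (hθ : 0 < θ) (hδ : 0 < δ)
    (hρmin : ∀ (x : M) (v : TangentSpace 𝓘(ℝ, E) x) (s t : ℝ),
      ‖v‖ * |t - s| ≤ ρ → dist (e x (s • v)) (e x (t • v)) = ‖v‖ * |t - s|)
    {z : M} {u : TangentSpace 𝓘(ℝ, E) z} (hu : θ • u ∈ segMin e z) (hs : ‖u‖ * δ ≤ ρ) :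
    two θ δ z (e z (θ • u)) (e z ((θ + δ) • u)) = (θ + δ) * ‖u‖ ^ 2 / 2 := by
  have h1 : dist z (e z (θ • u)) = θ * ‖u‖ := by
    have : dist z (e z (θ • u)) = ‖θ • u‖ := hu
    rw [this, norm_smul, Real.norm_of_nonneg hθ.le]
  have h2 : dist (e z (θ • u)) (e z ((θ + δ) • u)) = ‖u‖ * δ := by
    have h3 := hρmin z u θ (θ + δ) (by simpa only [add_sub_cancel_left, abs_of_pos hδ] using hs)
    rw [h3]; simp [abs_of_pos hδ]
  unfold two cost
  rw [h1, h2]
  (clear * - hθ hδ; field_simp)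

set_option backward.isDefEq.respectTransparency false in
/-- Critical points of the two-piece functional. -/
lemma crit_two (F : Facts e) (P : Pot M) {θ δ : ℝ} (hθ : 0 < θ) (hδ : 0 < δ)
    {x₁ n₁ y : M}
    (hmin : ∀ᶠ p : M × M in 𝓝 (x₁, n₁),
      two θ δ x₁ n₁ y + P.phi x₁ ≤ two θ δ p.1 p.2 y + P.phi p.1)
    (hs1 : SmoothAt E x₁ n₁) (hs2 : SmoothAt E n₁ y) :
    ∃ u ∈ P.sub e x₁, e x₁ (θ • u) = n₁ ∧ e x₁ ((θ + δ) • u) = y ∧
      two θ δ x₁ n₁ y = (θ + δ) * ‖u‖ ^ 2 / 2 := by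
  have he := F.isExp
  obtain ⟨p, hp1, hp2⟩ := F.hopfRinow n₁ x₁
  obtain ⟨q, hq1, hq2⟩ := F.hopfRinow n₁ y
  have hn0 : e n₁ (0 : TangentSpace 𝓘(ℝ, E) n₁) = n₁ := he.map_zero n₁
  have hps : p ∈ segMin e n₁ := by
    show dist _ _ = _
    rw [hp1, hp2]
  have hqs : q ∈ segMin e n₁ := by
    show dist _ _ = _
    rw [hq1, hq2]
  have hsp : SmoothAt E n₁ (e n₁ p) := by rw [hp1]; exact hs1.symm
  have hsq : SmoothAt E n₁ (e n₁ q) := by rw [hq1]; exact hs2
  have hd1 := hasFDerivAt_cost_zero he n₁ p hps hsp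
  have hd2 := hasFDerivAt_cost_zero he n₁ q hqs hsq
  rw [hp1] at hd1
  rw [hq1] at hd2
  have hexpc : Continuous (e n₁) := (contMDiff_exp_fiber he n₁).continuous
  -- first order condition in the middle point
  have hloc : IsLocalMin (fun a : TangentSpace 𝓘(ℝ, E) n₁ =>
      (1 / θ) * cost (e n₁ a) x₁ + (1 / δ) * cost (e n₁ a) y) 0 := by
    have h1 : Tendsto (fun a : TangentSpace 𝓘(ℝ, E) n₁ => (x₁, e n₁ a)) (𝓝 0) (𝓝 (x₁, n₁)) := by
      rw [nhds_prod_eq]
      refine tendsto_const_nhds.prodMk ?_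
      have := hexpc.tendsto 0
      rwa [hn0] at this
    filter_upwards [h1.eventually hmin] with a ha
    simp only [two] at ha
    rw [hn0]
    rw [cost_comm (e n₁ a) x₁, cost_comm n₁ x₁]
    have e1 : ∀ c : ℝ, 1 / θ * c = c / θ := fun c => by ring
    have e2 : ∀ c : ℝ, 1 / δ * c = c / δ := fun c => by ring
    rw [e1, e1, e2, e2]
    linarith
  have hder := (hd1.const_mul (1 / θ)).add (hd2.const_mul (1 / δ))
  have hzero := hloc.hasFDerivAt_eq_zero hder
  have hpq : (1 / θ) • p + (1 / δ) • q = 0 := by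
    have h1 : ∀ ζ : TangentSpace 𝓘(ℝ, E) n₁, inner ℝ ((1 / θ) • p + (1 / δ) • q) ζ = 0 := by
      intro ζ
      have h2 := congrArg (fun L => L ζ) hzero
      rw [inner_add_left, real_inner_smul_left, real_inner_smul_left]
      simp at h2
      have e1 : ∀ c : ℝ, 1 / θ * c = θ⁻¹ * c := fun c => by ring
      have e2 : ∀ c : ℝ, 1 / δ * c = δ⁻¹ * c := fun c => by ring
      rw [e1, e2]
      linarith only [h2]
    exact inner_self_eq_zero.1 (h1 _)
  have hqp : q = (-(δ / θ)) • p := by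
    have h1 : (1 / δ) • q = -((1 / θ) • p) := by
      rw [eq_neg_iff_add_eq_zero, add_comm]; exact hpq
    have h2 : q = δ • ((1 / δ) • q) := by
      rw [smul_smul]; simp [hδ.ne']
    rw [h2, h1, ← neg_smul, smul_smul]
    congr 1; ring
  -- go to the base point `x₁`
  obtain ⟨w', hw'1, hw'2⟩ := F.flow' p 1 (x' := x₁) (by rw [one_smul, hp1])
  set u : TangentSpace 𝓘(ℝ, E) x₁ := (-(1 / θ)) • w' with hu
  have hexp : ∀ t : ℝ, e x₁ (t • u) = e n₁ ((1 - t / θ) • p) := by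
    intro t
    have h1 : t • u = (-(t / θ)) • w' := by
      rw [hu, smul_smul]; congr 1; ring
    rw [h1, hw'2]
    congr 1
  have hθu : e x₁ (θ • u) = n₁ := by
    rw [hexp, div_self hθ.ne', sub_self, zero_smul, hn0]
  have hyu : e x₁ ((θ + δ) • u) = y := by
    rw [hexp, ← hq1, hqp]
    congr 2
    field_simp
    ring
  have hnu : ‖u‖ = ‖p‖ / θ := by
    rw [hu, norm_smul, hw'1, norm_neg, Real.norm_of_nonneg (by positivity)]
    ring
  have hseg : θ • u ∈ segMin e x₁ := by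
    show dist _ _ = _
    rw [hθu, norm_smul, Real.norm_of_nonneg hθ.le, hnu, dist_comm, hp2]
    field_simp
  refine ⟨u, ?_, hθu, hyu, ?_⟩
  · have h1 := stepA F P hθ (x₀ := x₁) (y := n₁) ?_ hseg hθu
    · rw [smul_smul] at h1
      have h2 : 1 / θ * θ = 1 := by field_simp
      rwa [h2, one_smul] at h1
    · have h1 : Tendsto (fun x : M => (x, n₁)) (𝓝 x₁) (𝓝 (x₁, n₁)) := by
        rw [nhds_prod_eq]
        exact tendsto_id.prodMk tendsto_const_nhds
      filter_upwards [h1.eventually hmin] with x hx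
      simp only [two] at hx
      linarith only [hx]
  · have h1 : dist x₁ n₁ = θ * ‖u‖ := by
      rw [dist_comm, hp2, hnu]; field_simp
    have h2 : dist n₁ y = δ * ‖u‖ := by
      rw [hq2, hqp, norm_smul, hnu, norm_neg, Real.norm_of_nonneg (by positivity)]
      ring
    unfold two cost
    rw [h1, h2]
    field_simp

/-- Scales: everything at scale `δ` is short. -/
lemma exists_scale (F : Facts e) (P : Pot M) {τ₁ : ℝ} (h0 : 0 < τ₁) :
    ∃ δ ρ : ℝ, 0 < δ ∧ δ < τ₁ ∧ 0 < ρ ∧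
      (∀ (x : M) (v : TangentSpace 𝓘(ℝ, E) x) (s t : ℝ),
        ‖v‖ * |t - s| ≤ ρ → dist (e x (s • v)) (e x (t • v)) = ‖v‖ * |t - s|) ∧
      (∀ x y : M, dist x y < ρ → SmoothAt E x y) ∧
      (∀ (z : M), ∀ u ∈ P.sub e z, 2 * δ * ‖u‖ ≤ ρ) := by
  obtain ⟨ρ, hρ, hmin, hsm⟩ := F.short
  have hD : 0 ≤ Metric.diam (univ : Set M) := Metric.diam_nonneg
  refine ⟨min (τ₁ / 2) (ρ / (4 * (Metric.diam (univ : Set M) + 1))), ρ, ?_, ?_, hρ, hmin, hsm, ?_⟩
  · exact lt_min (by linarith) (by positivity)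
  · exact (min_le_left _ _).trans_lt (by linarith only [h0])
  · intro z u hu
    have h1 := P.norm_le_of_mem_sub hu
    have h2 : min (τ₁ / 2) (ρ / (4 * (Metric.diam (univ : Set M) + 1))) ≤
        ρ / (4 * (Metric.diam (univ : Set M) + 1)) := min_le_right _ _
    have h3 : 0 < min (τ₁ / 2) (ρ / (4 * (Metric.diam (univ : Set M) + 1))) :=
      lt_min (by linarith only [h0]) (by positivity)
    calc 2 * min (τ₁ / 2) (ρ / (4 * (Metric.diam (univ : Set M) + 1))) * ‖u‖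
        ≤ 2 * (ρ / (4 * (Metric.diam (univ : Set M) + 1))) * (Metric.diam (univ : Set M) + 1) := by
          gcongr
          linarith only [h1]
      _ = ρ / 2 := by field_simp; ring
      _ ≤ ρ := by linarith only [hρ]

set_option backward.isDefEq.respectTransparency false in
/-- Strict local minimality of the two-piece functional. -/
lemma strict_local (F : Facts e) (hW : WeakMTW e) (P : Pot M) {τ₁ δ ρ : ℝ} (hδ : 0 < δ)
    (hδτ : δ < τ₁) (hτ₁ : τ₁ < 1) (hA : P.A e τ₁) (hρ : 0 < ρ)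
    (hρmin : ∀ (x : M) (v : TangentSpace 𝓘(ℝ, E) x) (s t : ℝ),
      ‖v‖ * |t - s| ≤ ρ → dist (e x (s • v)) (e x (t • v)) = ‖v‖ * |t - s|)
    (hδρ : ∀ (z : M), ∀ u ∈ P.sub e z, 2 * δ * ‖u‖ ≤ ρ)
    {z₀ : M} {u₀ : TangentSpace 𝓘(ℝ, E) z₀} (hu₀ : u₀ ∈ P.sub e z₀) :
    ∃ r > 0, ∀ x n : M, dist x z₀ ≤ r → dist n (e z₀ ((τ₁ - δ) • u₀)) ≤ r →
      (x, n) ≠ (z₀, e z₀ ((τ₁ - δ) • u₀)) →
      two (τ₁ - δ) δ z₀ (e z₀ ((τ₁ - δ) • u₀)) (e z₀ (τ₁ • u₀)) + P.phi z₀ <
        two (τ₁ - δ) δ x n (e z₀ (τ₁ • u₀)) + P.phi x := by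
  by_contra hcon
  push Not at hcon
  obtain ⟨lam, w, hl0, hl1, hw, hsum⟩ := P.exists_rep hu₀
  have hk : ∀ k : ℕ, ∃ p : M × M, dist p.1 z₀ ≤ 1 / ((k : ℝ) + 1) ∧
      dist p.2 (e z₀ ((τ₁ - δ) • u₀)) ≤ 1 / ((k : ℝ) + 1) ∧
      p ≠ (z₀, e z₀ ((τ₁ - δ) • u₀)) ∧
      two (τ₁ - δ) δ p.1 p.2 (e z₀ (τ₁ • u₀)) + P.phi p.1 ≤
        two (τ₁ - δ) δ z₀ (e z₀ ((τ₁ - δ) • u₀)) (e z₀ (τ₁ • u₀)) + P.phi z₀ := by
    intro k
    obtain ⟨x, n, h1, h2, h3, h4⟩ := hcon (1 / ((k : ℝ) + 1)) (by (clear * -; positivity))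
    exact ⟨(x, n), h1, h2, h3, h4⟩
  choose p hp1 hp2 hp3 hp4 using hk
  have hx : Tendsto (fun k => (p k).1) atTop (𝓝 z₀) := by
    rw [tendsto_iff_dist_tendsto_zero]
    exact squeeze_zero (fun _ => dist_nonneg) hp1 tendsto_one_div_add_atTop_nhds_zero_nat
  have hn : Tendsto (fun k => (p k).2) atTop (𝓝 (e z₀ ((τ₁ - δ) • u₀))) := by
    rw [tendsto_iff_dist_tendsto_zero]
    exact squeeze_zero (fun _ => dist_nonneg) hp2 tendsto_one_div_add_atTop_nhds_zero_nat
  have hD := stepD F hW P hδ hδτ hτ₁ hA hρ hρmin hδρ (fun _ => z₀) (fun _ => lam) (fun _ => w)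
    (fun _ => τ₁) (fun _ => hl0) (fun _ => hl1) (fun _ => hw) z₀ lam w tendsto_const_nhds
    (fun _ => tendsto_const_nhds) (fun _ => tendsto_const_nhds) tendsto_const_nhds
    (fun _ => le_rfl) (fun k => (p k).1) (fun k => (p k).2) hx (by rw [hsum]; exact hn)
    (fun k => by rw [hsum]; exact hp3 k)
  obtain ⟨k, hk⟩ := hD.exists
  rw [hsum] at hk
  exact absurd hk (not_lt.2 (hp4 k))

set_option backward.isDefEq.respectTransparency false in
omit [CompactSpace M] in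
/-- Difference quotients of the cost with a moving second point. -/
lemma slope_cost (F : Facts e) {x q : M} {V : TangentSpace 𝓘(ℝ, E) x} (hV : V ∈ segMin e x)
    (hq : e x V = q) (hs : SmoothAt E x q) (ζ : TangentSpace 𝓘(ℝ, E) x) {r : ℕ → ℝ}
    (hr : Tendsto r atTop (𝓝 0)) (hr0 : ∀ k, 0 < r k) {q' : ℕ → M}
    (hq' : Tendsto q' atTop (𝓝 q)) :
    Tendsto (fun k => (cost (e x (r k • ζ)) (q' k) - cost x (q' k)) / r k) atTop
      (𝓝 (-(inner ℝ V ζ))) := by
  have he := F.isExp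
  have hx0 : e x (0 : TangentSpace 𝓘(ℝ, E) x) = x := he.map_zero x
  have hq0 : e q (0 : TangentSpace 𝓘(ℝ, E) q) = q := he.map_zero q
  have hb : ∀ k, ∃ b : TangentSpace 𝓘(ℝ, E) q, e q b = q' k ∧ dist q (q' k) = ‖b‖ :=
    fun k => F.hopfRinow q _
  choose b hb1 hb2 using hb
  have hb0 : Tendsto b atTop (𝓝 0) := by
    rw [tendsto_zero_iff_norm_tendsto_zero]
    have h1 : Tendsto (fun k => dist q (q' k)) atTop (𝓝 (dist q q)) :=
      tendsto_const_nhds.dist hq'
    rw [dist_self] at h1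
    exact h1.congr hb2
  have hsm' : SmoothAt E (e x (0 : TangentSpace 𝓘(ℝ, E) x)) (e q (0 : TangentSpace 𝓘(ℝ, E) q)) := by
    rw [hx0, hq0]; exact hs
  have hcd := SmoothAt.coord he hsm'
  set G : TangentSpace 𝓘(ℝ, E) x × TangentSpace 𝓘(ℝ, E) q → ℝ :=
    fun p => cost (e x p.1) (e q p.2) with hG
  have hstrict : HasStrictFDerivAt G (fderiv ℝ G (0, 0)) (0, 0) :=
    hcd.hasStrictFDerivAt (by simp)
  have hder := hasFDerivAt_cost_zero he x V hV (by rw [hq]; exact hs)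
  have hGξ : fderiv ℝ G (0, 0) (ζ, 0) = -(inner ℝ V ζ) := by
    have h1 : HasFDerivAt (fun a : TangentSpace 𝓘(ℝ, E) x =>
        (a, (0 : TangentSpace 𝓘(ℝ, E) q)))
        (ContinuousLinearMap.inl ℝ (TangentSpace 𝓘(ℝ, E) x) (TangentSpace 𝓘(ℝ, E) q)) 0 :=
      hasFDerivAt_prodMk_left 0 0
    have h2 : HasFDerivAt (fun a : TangentSpace 𝓘(ℝ, E) x =>
        G (a, (0 : TangentSpace 𝓘(ℝ, E) q)))
        ((fderiv ℝ G (0, 0)).comp
          (ContinuousLinearMap.inl ℝ (TangentSpace 𝓘(ℝ, E) x) (TangentSpace 𝓘(ℝ, E) q))) 0 :=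
      HasFDerivAt.comp (g := G) (f := fun a : TangentSpace 𝓘(ℝ, E) x =>
        (a, (0 : TangentSpace 𝓘(ℝ, E) q))) (0 : TangentSpace 𝓘(ℝ, E) x) hstrict.hasFDerivAt h1
    have h3 : (fun a : TangentSpace 𝓘(ℝ, E) x => G (a, (0 : TangentSpace 𝓘(ℝ, E) q))) =
        fun a => cost (e x a) (e x V) := by
      funext a
      simp only [hG]
      rw [hq0, hq]
    rw [h3] at h2
    have h4 := h2.unique hder
    have h5 := congrArg (fun L => L ζ) h4
    simpa only [ContinuousLinearMap.comp_apply, ContinuousLinearMap.inl_apply, neg_apply, coe_innerSL_apply] using     h5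
  have hlim2 := tendsto_slope_of_strict hstrict hr hr0
    (v := fun k => ((0 : TangentSpace 𝓘(ℝ, E) x), b k))
    (by
      rw [nhds_prod_eq]
      exact tendsto_const_nhds.prodMk hb0) (ζ, (0 : TangentSpace 𝓘(ℝ, E) q))
  rw [hGξ] at hlim2
  refine hlim2.congr (fun k => ?_)
  have hGa : G ((0, b k) + r k • (ζ, (0 : TangentSpace 𝓘(ℝ, E) q))) =
      cost (e x (r k • ζ)) (e q (b k)) := by
    simp [hG]
  have hGb : G (0, b k) = cost x (e q (b k)) := by
    simp only [hG]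
    rw [hx0]
  rw [hGa, hGb, hb1]

lemma continuous_two (P : Pot M) (θ δ : ℝ) :
    Continuous (fun q : (M × M) × M => two θ δ q.1.1 q.1.2 q.2 + P.phi q.1.1) := by
  have hc := continuous_cost (M := M)
  have h1 : Continuous (fun q : (M × M) × M => cost q.1.1 q.1.2) := hc.comp continuous_fst
  have h2 : Continuous (fun q : (M × M) × M => cost q.1.2 q.2) :=
    hc.comp ((continuous_snd.comp continuous_fst).prodMk continuous_snd)
  have h3 : Continuous (fun q : (M × M) × M => P.phi q.1.1) :=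
    P.continuous_phi.comp (continuous_fst.comp continuous_fst)
  exact ((h1.div_const θ).add (h2.div_const δ)).add h3

/-- Minimizers of a perturbed functional converge to the strict minimizer. -/
lemma exists_min_seq {X Y : Type*} [TopologicalSpace X] [FirstCountableTopology X]
    [TopologicalSpace Y] {G : X → Y → ℝ}
    (hG : Continuous (fun q : X × Y => G q.1 q.2)) {K : Set X} (hK : IsCompact K) {a : X}
    (ha : a ∈ K) {y : Y} (hstrict : ∀ b ∈ K, b ≠ a → G a y < G b y) {y' : ℕ → Y}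
    (hy : Tendsto y' atTop (𝓝 y)) :
    ∃ (ψ : ℕ → ℕ) (q : ℕ → X), StrictMono ψ ∧ Tendsto q atTop (𝓝 a) ∧ (∀ k, q k ∈ K) ∧
      ∀ k, ∀ b ∈ K, G (q k) (y' (ψ k)) ≤ G b (y' (ψ k)) := by
  have hmin : ∀ k, ∃ q ∈ K, ∀ b ∈ K, G q (y' k) ≤ G b (y' k) := by
    intro k
    have hck : Continuous (fun q : X => G q (y' k)) :=
      hG.comp (continuous_id.prodMk continuous_const)
    obtain ⟨q, hq1, hq2⟩ := hK.exists_isMinOn ⟨_, ha⟩ hck.continuousOn
    exact ⟨q, hq1, fun b hb => hq2 hb⟩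
  choose q hqN hqmin using hmin
  obtain ⟨qs, hqs, ψ, hψ, hψlim⟩ := hK.tendsto_subseq hqN
  have hlimeq : qs = a := by
    by_contra hne
    have h2 := hstrict qs hqs hne
    have h3 : Tendsto (fun k => G (q (ψ k)) (y' (ψ k))) atTop (𝓝 (G qs y)) := by
      have h4 : Tendsto (fun k => (q (ψ k), y' (ψ k))) atTop (𝓝 (qs, y)) := by
        rw [nhds_prod_eq]
        exact hψlim.prodMk (hy.comp hψ.tendsto_atTop)
      exact (hG.tendsto (qs, y)).comp h4
    have h5 : Tendsto (fun k => G a (y' (ψ k))) atTop (𝓝 (G a y)) := by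
      have h4 : Tendsto (fun k => (a, y' (ψ k))) atTop (𝓝 (a, y)) := by
        rw [nhds_prod_eq]
        exact tendsto_const_nhds.prodMk (hy.comp hψ.tendsto_atTop)
      exact (hG.tendsto (a, y)).comp h4
    have h6 := le_of_tendsto_of_tendsto' h3 h5 (fun k => hqmin (ψ k) _ ha)
    linarith
  rw [hlimeq] at hψlim
  exact ⟨ψ, q ∘ ψ, hψ, hψlim, fun k => hqN _, fun k => hqmin _⟩

/-- Perturbed minimizers of the two-piece functional. -/
lemma perturbed (F : Facts e) (P : Pot M) {τ₁ θ δ r : ℝ} (hθ0 : 0 < θ)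
    (hδ : 0 < δ) (hθδ : θ + δ = τ₁) (hr : 0 < r) (hA : P.A e τ₁) {z z' m y : M}
    (hstrict : ∀ x n : M, dist x z ≤ r → dist n m ≤ r → (x, n) ≠ (z, m) →
      two θ δ z m y + P.phi z < two θ δ x n y + P.phi x)
    (hsm1 : SmoothAt E z m) (hsm2 : SmoothAt E m y)
    (hle0 : cost z' y / τ₁ + P.phi z' ≤ two θ δ z m y + P.phi z)
    {Y : ℕ → M} (hYlim : Tendsto Y atTop (𝓝 y)) :
    ∃ (ψ : ℕ → ℕ) (n : ℕ → M), StrictMono ψ ∧ Tendsto n atTop (𝓝 m) ∧
      ∀ᶠ k in atTop, (cost (n k) (Y (ψ k)) - cost (n k) y) / δ ≤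
          (cost z' (Y (ψ k)) - cost z' y) / τ₁ := by
  have hcpt : IsCompact (Metric.closedBall z r ×ˢ Metric.closedBall m r) :=
    (Metric.isClosed_closedBall.isCompact).prod (Metric.isClosed_closedBall.isCompact)
  have hmem : (z, m) ∈ Metric.closedBall z r ×ˢ Metric.closedBall m r :=
    ⟨Metric.mem_closedBall_self hr.le, Metric.mem_closedBall_self hr.le⟩
  obtain ⟨ψ, q, hψ, hψlim, hqN, hqmin⟩ := exists_min_seq
    (G := fun (a : M × M) (b : M) => two θ δ a.1 a.2 b + P.phi a.1)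
    (continuous_two P θ δ) hcpt hmem (y := y)
    (fun b hb hne => hstrict b.1 b.2 (Metric.mem_closedBall.1 hb.1)
      (Metric.mem_closedBall.1 hb.2) hne) hYlim
  have hx : Tendsto (fun k => (q k).1) atTop (𝓝 z) :=
    (continuous_fst.tendsto (z, m)).comp hψlim
  have hn : Tendsto (fun k => (q k).2) atTop (𝓝 m) :=
    (continuous_snd.tendsto (z, m)).comp hψlim
  have hYψ : Tendsto (fun k => Y (ψ k)) atTop (𝓝 y) := hYlim.comp hψ.tendsto_atTop
  refine ⟨ψ, fun k => (q k).2, hψ, hn, ?_⟩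
  -- the inequality at each large `k`
  have e1 : ∀ᶠ k in atTop, (q k).1 ∈ Metric.ball z r :=
    hx.eventually (Metric.ball_mem_nhds z hr)
  have e2 : ∀ᶠ k in atTop, (q k).2 ∈ Metric.ball m r :=
    hn.eventually (Metric.ball_mem_nhds m hr)
  have e3 : ∀ᶠ k in atTop, SmoothAt E (q k).1 (q k).2 :=
    hψlim.eventually hsm1.eventually
  have e4 : ∀ᶠ k in atTop, SmoothAt E (q k).2 (Y (ψ k)) := by
    have h4 : Tendsto (fun k => ((q k).2, Y (ψ k))) atTop (𝓝 (m, y)) := by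
      rw [nhds_prod_eq]
      exact hn.prodMk hYψ
    exact h4.eventually hsm2.eventually
  filter_upwards [e1, e2, e3, e4] with k k1 k2 k3 k4
  have hnb : Metric.ball z r ×ˢ Metric.ball m r ∈ 𝓝 ((q k).1, (q k).2) :=
    prod_mem_nhds (Metric.isOpen_ball.mem_nhds k1) (Metric.isOpen_ball.mem_nhds k2)
  obtain ⟨uk, huk, hθk, hτk, hvk⟩ := crit_two F P hθ0 hδ (x₁ := (q k).1)
    (n₁ := (q k).2) (y := Y (ψ k)) (by
      filter_upwards [hnb] with a ha
      exact hqmin k a ⟨Metric.ball_subset_closedBall ha.1,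
        Metric.ball_subset_closedBall ha.2⟩) k3 k4
  have h2 := hA (q k).1 uk huk z'
  rw [hθδ] at hτk hvk
  rw [hτk] at h2
  have h3 : two θ δ z m y + P.phi z ≤
      two θ δ (q k).1 (q k).2 y + P.phi (q k).1 := by
    by_cases hc : ((q k).1, (q k).2) = (z, m)
    · rw [Prod.mk.injEq] at hc
      rw [hc.1, hc.2]
    · exact (hstrict _ _ (Metric.mem_closedBall.1 (hqN k).1)
        (Metric.mem_closedBall.1 (hqN k).2) hc).le
  have h4 : two θ δ (q k).1 (q k).2 (Y (ψ k)) -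
      two θ δ (q k).1 (q k).2 y =
      (cost (q k).2 (Y (ψ k)) - cost (q k).2 y) / δ := by
    unfold two; ring
  rw [← h4, sub_div]
  linarith

set_option backward.isDefEq.respectTransparency false in
/-- The first variation of the perturbed inequality. -/
lemma inj_key (F : Facts e) (P : Pot M) {τ₁ θ δ r : ℝ} (h0 : 0 < τ₁) (hθ0 : 0 < θ)
    (hδ : 0 < δ) (hθδ : θ + δ = τ₁) (hr : 0 < r) (hA : P.A e τ₁) {z z' m y : M}
    (hstrict : ∀ x n : M, dist x z ≤ r → dist n m ≤ r → (x, n) ≠ (z, m) →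
      two θ δ z m y + P.phi z < two θ δ x n y + P.phi x)
    (hsm1 : SmoothAt E z m) (hsm2 : SmoothAt E m y)
    (hle0 : cost z' y / τ₁ + P.phi z' ≤ two θ δ z m y + P.phi z)
    {p p' : TangentSpace 𝓘(ℝ, E) y} (hV : (-δ) • p ∈ segMin e y) (hVm : e y ((-δ) • p) = m)
    (hV' : (-τ₁) • p' ∈ segMin e y) (hVz' : e y ((-τ₁) • p') = z')
    (ζ : TangentSpace 𝓘(ℝ, E) y) : inner ℝ p ζ ≤ inner ℝ p' ζ := by
  have he := F.isExp
  set ε : ℕ → ℝ := fun k => 1 / ((k : ℝ) + 1) with hε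
  have hε0 : ∀ k, 0 < ε k := fun k => by (clear * -; positivity)
  have hεlim : Tendsto ε atTop (𝓝 0) := tendsto_one_div_add_atTop_nhds_zero_nat
  have hy0 : e y (0 : TangentSpace 𝓘(ℝ, E) y) = y := he.map_zero y
  have hYlim : Tendsto (fun k => e y (ε k • ζ)) atTop (𝓝 y) := by
    have h2 : Tendsto (fun k => ε k • ζ) atTop (𝓝 ((0 : ℝ) • ζ)) := hεlim.smul_const ζ
    rw [zero_smul] at h2
    have h3 := ((contMDiff_exp_fiber he y).continuous.tendsto 0).comp h2
    rwa [hy0] at h3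
  obtain ⟨ψ, n, hψ, hn, hev⟩ := perturbed F P hθ0 hδ hθδ hr hA hstrict hsm1 hsm2 hle0 hYlim
  have hεψ : Tendsto (fun k => ε (ψ k)) atTop (𝓝 0) := hεlim.comp hψ.tendsto_atTop
  have hL : Tendsto (fun k => (cost (e y (ε (ψ k) • ζ)) (n k) - cost y (n k)) / ε (ψ k))
      atTop (𝓝 (-(inner ℝ ((-δ) • p) ζ))) :=
    slope_cost F hV hVm hsm2.symm ζ hεψ (fun k => hε0 _) hn
  obtain ⟨U, hU1, hU2⟩ := cost_variation F hV' ζ hεψ (fun k => hε0 _)
  rw [hVz'] at hU1
  have hfin := le_of_tendsto_of_tendsto (hL.div_const δ) (hU2.div_const τ₁) (by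
    filter_upwards [hev] with k hk
    have h2 := hU1 k
    have h3 := hε0 (ψ k)
    have h4 : (cost (e y (ε (ψ k) • ζ)) (n k) - cost y (n k)) / ε (ψ k) / δ =
        ((cost (n k) (e y (ε (ψ k) • ζ)) - cost (n k) y) / δ) / ε (ψ k) := by
      rw [cost_comm (e y (ε (ψ k) • ζ)), cost_comm y]; ring
    have h5 : ((cost z' (e y (ε (ψ k) • ζ)) - cost z' y) / τ₁) / ε (ψ k) ≤ U k / τ₁ := by
      rw [div_right_comm]
      apply div_le_div_of_nonneg_right _ h0.le
      rw [cost_comm z', cost_comm z']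
      exact h2
    rw [h4]
    exact (div_le_div_of_nonneg_right hk h3.le).trans h5)
  rw [real_inner_smul_left, real_inner_smul_left] at hfin
  have e1 : -(-δ * inner ℝ p ζ) / δ = inner ℝ p ζ := by (clear * - hδ; field_simp)
  have e2 : -(-τ₁ * inner ℝ p' ζ) / τ₁ = inner ℝ p' ζ := by field_simp
  rwa [e1, e2] at hfin

set_option backward.isDefEq.respectTransparency false in
/-- Case I: the endpoint determines the subgradient. -/
lemma inj_of_A (F : Facts e) (hW : WeakMTW e) (P : Pot M) {τ₁ : ℝ} (h0 : 0 < τ₁) (h1 : τ₁ < 1)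
    (hA : P.A e τ₁) {z z' : M} {u : TangentSpace 𝓘(ℝ, E) z} {u' : TangentSpace 𝓘(ℝ, E) z'}
    (hu : u ∈ P.sub e z) (hu' : u' ∈ P.sub e z') (h : e z (τ₁ • u) = e z' (τ₁ • u')) :
    (⟨z, u⟩ : TangentBundle 𝓘(ℝ, E) M) = ⟨z', u'⟩ := by
  have he := F.isExp
  obtain ⟨δ, ρ, hδ, hδτ, hρ, hρmin, hsm, hδρ⟩ := exists_scale F P h0
  obtain ⟨r, hr, hstrict⟩ := strict_local F hW P hδ hδτ h1 hA hρ hρmin hδρ hu
  have hsegz : τ₁ • u ∈ segMin e z := hA.segMin he h0 hu
  have hsegz' : τ₁ • u' ∈ segMin e z' := hA.segMin he h0 hu'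
  set θ := τ₁ - δ with hθ
  have hθ0 : 0 < θ := by linarith only [hδτ]
  have hθδ : θ + δ = τ₁ := by rw [hθ]; ring
  obtain ⟨y, hy⟩ : ∃ y, y = e z (τ₁ • u) := ⟨_, rfl⟩
  obtain ⟨m, hm⟩ : ∃ m, m = e z (θ • u) := ⟨_, rfl⟩
  have hy' : e z' (τ₁ • u') = y := by rw [← h, hy]
  rw [← hy, ← hm] at hstrict
  -- smoothness
  have hθseg : θ • u ∈ injDomain e z := by
    have h2 : θ • u = (θ / τ₁) • (τ₁ • u) := by
      rw [smul_smul]; congr 1; (clear * - h0 hθ0; field_simp)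
    rw [h2]
    exact smul_mem_injDomain he hsegz (by (clear * - hδτ h0; positivity)) (by rw [div_lt_one h0]; linarith only [hδ])
  have hsm1 : SmoothAt E z m := by rw [hm]; exact F.smooth_cost z _ hθseg
  have hδu : 0 ≤ δ * ‖u‖ := by (clear * - hδ; positivity)
  have hδu2 := hδρ z u hu
  have habs : |τ₁ - θ| = δ := by rw [hθ]; simp [abs_of_pos hδ]
  have hdmy : dist m y = ‖u‖ * δ := by
    have h3 := hρmin z u θ τ₁ (by rw [habs]; linarith only [hρ, hδu2])
    rw [hm, hy, h3, habs]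
  have hlt : ‖u‖ * δ < ρ := by nlinarith only [hρ, hδu2]
  have hsm2 : SmoothAt E m y := hsm m y (by rw [hdmy]; exact hlt)
  -- velocities at `y`
  obtain ⟨p, hpn, hp⟩ := F.flow' u τ₁ hy.symm
  obtain ⟨p', hpn', hp'⟩ := F.flow' u' τ₁ hy'
  have hVm : e y ((-δ) • p) = m := by
    rw [hp, hm]; congr 2
  have hVz' : e y ((-τ₁) • p') = z' := by
    rw [hp', add_neg_cancel, zero_smul]; exact he.map_zero z'
  have hV : (-δ) • p ∈ segMin e y := by
    show dist _ _ = _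
    rw [hVm, norm_smul, norm_neg, Real.norm_of_nonneg hδ.le, hpn, dist_comm, hdmy, mul_comm]
  have hV' : (-τ₁) • p' ∈ segMin e y := by
    show dist _ _ = _
    rw [hVz', norm_smul, norm_neg, Real.norm_of_nonneg h0.le, hpn', dist_comm]
    have : dist z' (e z' (τ₁ • u')) = ‖τ₁ • u'‖ := hsegz'
    rw [hy', norm_smul, Real.norm_of_nonneg h0.le] at this
    exact this
  -- values
  have hval : two θ δ z m y = τ₁ * ‖u‖ ^ 2 / 2 := by
    have hθseg' : θ • u ∈ segMin e z := injDomain_subset_segMin he z hθseg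
    have := two_eq hθ0 hδ hρmin hθseg' hlt.le
    rw [hθδ] at this
    rw [hm, hy]
    exact this
  have hle0 : cost z' y / τ₁ + P.phi z' ≤ two θ δ z m y + P.phi z := by
    have h2 := hA z' u' hu' z
    rw [hy'] at h2
    have h3 := cost_exp_le he z (τ₁ • u)
    have h4 := cost_exp_le he z' (τ₁ • u')
    rw [← hy, norm_smul, Real.norm_of_nonneg h0.le] at h3
    rw [hy', norm_smul, Real.norm_of_nonneg h0.le] at h4
    have h5 : cost z y / τ₁ ≤ τ₁ * ‖u‖ ^ 2 / 2 := by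
      rw [div_le_iff₀ h0]; nlinarith only [h3]
    have h6 : cost z' y / τ₁ ≤ τ₁ * ‖u'‖ ^ 2 / 2 := by
      rw [div_le_iff₀ h0]; nlinarith only [h4]
    rw [hval]
    (clear * - h2 h5 h6; linarith)
  have hkey : ∀ ζ : TangentSpace 𝓘(ℝ, E) y, inner ℝ p ζ ≤ inner ℝ p' ζ :=
    fun ζ => inj_key F P h0 hθ0 hδ hθδ hr hA hstrict hsm1 hsm2 hle0 hV hVm hV' hVz' ζ
  have hpp : p = p' := by
    have h2 := hkey (p - p')
    have h3 : inner ℝ (p - p') (p - p') ≤ 0 := by
      rw [inner_sub_left]; linarith only [h2]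
    exact sub_eq_zero.1 (real_inner_self_nonpos.1 h3)
  have hall : ∀ t : ℝ, e z (t • u) = e z' (t • u') := by
    intro t
    have h2 := hp (t - τ₁)
    have h3 := hp' (t - τ₁)
    rw [← hpp, h2] at h3
    simpa using h3
  have hzz : z = z' := by
    have h2 := hall 0
    rwa [zero_smul, zero_smul, he.map_zero, he.map_zero] at h2
  subst hzz
  have huu : u = u' := eq_of_exp_smul_eq he hall
  rw [huu]

set_option backward.isDefEq.respectTransparency false in
/-- A sequence of failures of the support property cannot accumulate at `τ₁`. -/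
lemma no_failure (F : Facts e) (hW : WeakMTW e) (P : Pot M) {τ₁ δ ρ : ℝ} (h0 : 0 < τ₁)
    (h1 : τ₁ < 1) (hA : P.A e τ₁) (hδ : 0 < δ) (hδτ : δ < τ₁) (hρ : 0 < ρ)
    (hρmin : ∀ (x : M) (v : TangentSpace 𝓘(ℝ, E) x) (s t : ℝ),
      ‖v‖ * |t - s| ≤ ρ → dist (e x (s • v)) (e x (t • v)) = ‖v‖ * |t - s|)
    (hδρ : ∀ (z : M), ∀ u ∈ P.sub e z, 2 * δ * ‖u‖ ≤ ρ)
    {τ : ℕ → ℝ} (hτgt : ∀ k, τ₁ < τ k) (hτle : ∀ k, τ k - δ ≤ τ₁)
    (hτlim : Tendsto τ atTop (𝓝 τ₁))
    {z z' y : ℕ → M} {u : ∀ k, TangentSpace 𝓘(ℝ, E) (z k)}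
    {u' : ∀ k, TangentSpace 𝓘(ℝ, E) (z' k)} (hu : ∀ k, u k ∈ P.sub e (z k))
    (hu' : ∀ k, u' k ∈ P.sub e (z' k)) (hy : ∀ k, e (z k) (τ k • u k) = y k)
    (hy' : ∀ k, e (z' k) (τ k • u' k) = y k) (hseg : ∀ k, τ k • u' k ∈ segMin e (z' k))
    (hlt : ∀ k, τ k * ‖u' k‖ ^ 2 / 2 + P.phi (z' k) < τ k * ‖u k‖ ^ 2 / 2 + P.phi (z k)) :
    False := by
  have he := F.isExp
  obtain ⟨φ, z₀, lam, w, lam₀, w₀, hφ, hl0, hl1, hw, hws, hlam, hwlim, hzlim, hl0', hl1', hw0,
    hulim⟩ := P.extract he z u hu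
  obtain ⟨φ', z₀', -, -, lam₀', w₀', hφ', -, -, -, -, -, -, hzlim', hm0', hm1', hw0',
    hulim'⟩ := P.extract he (fun k => z' (φ k)) (fun k => u' (φ k)) (fun k => hu' (φ k))
  have hu₀ : ∑ j, lam₀ j • w₀ j ∈ P.sub e z₀ :=
    (convex_convexHull ℝ _).sum_mem (fun j _ => hl0' j) hl1'
      (fun j _ => subset_convexHull ℝ _ (hw0 j))
  have hu₀' : ∑ j, lam₀' j • w₀' j ∈ P.sub e z₀' :=
    (convex_convexHull ℝ _).sum_mem (fun j _ => hm0' j) hm1'
      (fun j _ => subset_convexHull ℝ _ (hw0' j))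
  have hφφ : StrictMono (fun k => φ (φ' k)) := fun a b hab => hφ (hφ' hab)
  have hτφ : Tendsto (fun k => τ (φ (φ' k))) atTop (𝓝 τ₁) := hτlim.comp hφφ.tendsto_atTop
  have hulim2 := hulim.subseq hφ'
  have hend : e z₀ (τ₁ • ∑ j, lam₀ j • w₀ j) = e z₀' (τ₁ • ∑ j, lam₀' j • w₀' j) := by
    have t1 := (hulim2.smul hτφ).exp he
    have t2 := (hulim'.smul hτφ).exp he
    have t3 : (fun k => e (z (φ (φ' k))) (τ (φ (φ' k)) • u (φ (φ' k)))) =
        fun k => e (z' (φ (φ' k))) (τ (φ (φ' k)) • u' (φ (φ' k))) := by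
      funext k
      rw [hy, hy']
    exact tendsto_nhds_unique (t3 ▸ t1) t2
  have hinj := inj_of_A F hW P h0 h1 hA hu₀ hu₀' hend
  have hz00 : z₀' = z₀ := (congrArg (fun p : TangentBundle 𝓘(ℝ, E) M => p.proj) hinj).symm
  have hmm : e z₀' ((τ₁ - δ) • ∑ j, lam₀' j • w₀' j) = e z₀ ((τ₁ - δ) • ∑ j, lam₀ j • w₀ j) :=
    (congrArg (fun p : TangentBundle 𝓘(ℝ, E) M => e p.proj ((τ₁ - δ) • p.snd)) hinj).symm
  have hτpos : ∀ k, 0 < τ k - δ := fun k => by have := hτgt k; linarith only [hδτ, this]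
  have hval : ∀ k, two (τ k - δ) δ (z k) (e (z k) ((τ k - δ) • u k)) (y k) =
      τ k * ‖u k‖ ^ 2 / 2 := by
    intro k
    have hs : (τ k - δ) • u k ∈ segMin e (z k) := by
      have h2 : (τ k - δ) • u k = ((τ k - δ) / τ₁) • (τ₁ • u k) := by
        rw [smul_smul]; congr 1; (clear * - h0; field_simp)
      rw [h2]
      exact smul_mem_segMin he (hA.segMin he h0 (hu k)) (div_nonneg (hτpos k).le h0.le)
        (by rw [div_le_one h0]; exact hτle k)
    have h3 := two_eq (hτpos k) hδ hρmin hs (by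
      have := hδρ _ _ (hu k)
      have h4 : 0 ≤ δ * ‖u k‖ := by (clear * - hδ; positivity)
      linarith only [hρ, this])
    rw [sub_add_cancel, hy] at h3
    exact h3
  have hval' : ∀ k, two (τ k - δ) δ (z' k) (e (z' k) ((τ k - δ) • u' k)) (y k) =
      τ k * ‖u' k‖ ^ 2 / 2 := by
    intro k
    have hτk : 0 < τ k := h0.trans (hτgt k)
    have hs : (τ k - δ) • u' k ∈ segMin e (z' k) := by
      have h2 : (τ k - δ) • u' k = ((τ k - δ) / τ k) • (τ k • u' k) := by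
        rw [smul_smul]; congr 1; (clear * - hτk; field_simp)
      rw [h2]
      exact smul_mem_segMin he (hseg k) (div_nonneg (hτpos k).le hτk.le)
        (by rw [div_le_one hτk]; linarith only [hδ])
    have h3 := two_eq (hτpos k) hδ hρmin hs (by
      have := hδρ _ _ (hu' k)
      have h4 : 0 ≤ δ * ‖u' k‖ := by (clear * - hδ; positivity)
      linarith only [hρ, this])
    rw [sub_add_cancel, hy'] at h3
    exact h3
  have hD := stepD F hW P hδ hδτ h1 hA hρ hρmin hδρ (fun k => z (φ (φ' k)))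
    (fun k => lam (φ' k)) (fun k => w (φ' k)) (fun k => τ (φ (φ' k)))
    (fun k => hl0 (φ' k)) (fun k => hl1 (φ' k)) (fun k => hw (φ' k)) z₀ lam₀ w₀
    (hzlim.comp hφ'.tendsto_atTop) (fun j => (hlam j).comp hφ'.tendsto_atTop)
    (fun j => (hwlim j).subseq hφ') hτφ (fun k => (hτgt _).le)
    (fun k => z' (φ (φ' k)))
    (fun k => e (z' (φ (φ' k))) ((τ (φ (φ' k)) - δ) • u' (φ (φ' k))))
    (by rw [← hz00]; exact hzlim')
    (by
      rw [← hmm]
      exact (hulim'.smul (hτφ.sub_const δ)).exp he)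
    (fun k => by
      rw [hws]
      intro hcon
      rw [Prod.mk.injEq] at hcon
      obtain ⟨hc1, hc2⟩ := hcon
      have a1 := hval (φ (φ' k))
      have a2 := hval' (φ (φ' k))
      rw [hc2] at a2
      have a3 := hlt (φ (φ' k))
      rw [← a1, ← a2, hc1] at a3
      exact lt_irrefl _ a3)
  obtain ⟨k, hk⟩ := hD.exists
  rw [hws, hy, hval, hval'] at hk
  have := hlt (φ (φ' k))
  linarith only [hk, this]

set_option backward.isDefEq.respectTransparency false in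
/-- Openness: the support property propagates. -/
theorem openStep (F : Facts e) (hW : WeakMTW e) (P : Pot M) {τ₁ : ℝ} (h0 : 0 < τ₁) (h1 : τ₁ < 1)
    (hA : P.A e τ₁) : ∃ τ₂ : ℝ, τ₁ < τ₂ ∧ τ₂ ≤ 1 ∧ P.A e τ₂ := by
  by_contra hcon
  push Not at hcon
  have he := F.isExp
  obtain ⟨δ, ρ, hδ, hδτ, hρ, hρmin, hsm, hδρ⟩ := exists_scale F P h0
  have hc : 0 < min (1 - τ₁) δ := lt_min (by linarith only [h1]) hδ
  set τ : ℕ → ℝ := fun k => τ₁ + min (1 - τ₁) δ * (1 / ((k : ℝ) + 1)) with hτ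
  have hτgt : ∀ k, τ₁ < τ k := fun k => by
    have : 0 < min (1 - τ₁) δ * (1 / ((k : ℝ) + 1)) := by (clear * - h1 hδ; positivity)
    simp only [hτ]; linarith only [this]
  have hτmin : ∀ k, τ k ≤ τ₁ + min (1 - τ₁) δ := fun k => by
    have h2 : 1 / ((k : ℝ) + 1) ≤ 1 := by
      rw [div_le_one (by (clear * -; positivity))]
      have : (0 : ℝ) ≤ k := Nat.cast_nonneg k
      linarith only []
    have : min (1 - τ₁) δ * (1 / ((k : ℝ) + 1)) ≤ min (1 - τ₁) δ * 1 := by (clear * - h2 h1 hδ; gcongr)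
    simp only [hτ]; linarith only [this]
  have hτle : ∀ k, τ k - δ ≤ τ₁ := fun k => by
    have := hτmin k
    have := min_le_right (1 - τ₁) δ
    linarith
  have hτ1 : ∀ k, τ k ≤ 1 := fun k => by
    have := hτmin k
    have := min_le_left (1 - τ₁) δ
    linarith
  have hτlim : Tendsto τ atTop (𝓝 τ₁) := by
    have h2 : Tendsto (fun k : ℕ => τ₁ + min (1 - τ₁) δ * (1 / ((k : ℝ) + 1))) atTop
        (𝓝 (τ₁ + min (1 - τ₁) δ * 0)) :=
      (tendsto_one_div_add_atTop_nhds_zero_nat.const_mul _).const_add _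
    rwa [mul_zero, add_zero] at h2
  have hτ0 : ∀ k, 0 < τ k := fun k => h0.trans (hτgt k)
  have hfail : ∀ k, ∃ (z : M) (u : TangentSpace 𝓘(ℝ, E) z), u ∈ P.sub e z ∧
      ∃ x, cost x (e z (τ k • u)) / τ k + P.phi x < τ k * ‖u‖ ^ 2 / 2 + P.phi z := by
    intro k
    have h2 := hcon (τ k) (hτgt k) (hτ1 k)
    unfold Pot.A at h2
    push Not at h2
    obtain ⟨z, u, hu, x, hx⟩ := h2
    exact ⟨z, u, hu, x, hx⟩
  choose z u hu x hx using hfail
  have hmin : ∀ k, ∃ z' : M, ∀ x', cost z' (e (z k) (τ k • u k)) / τ k + P.phi z' ≤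
      cost x' (e (z k) (τ k • u k)) / τ k + P.phi x' := by
    intro k
    have hck : Continuous (fun x' : M => cost x' (e (z k) (τ k • u k)) / τ k + P.phi x') :=
      ((continuous_cost.comp (continuous_id.prodMk continuous_const)).div_const _).add
        P.continuous_phi
    obtain ⟨z', -, h2⟩ := isCompact_univ.exists_isMinOn ⟨z k, mem_univ _⟩ hck.continuousOn
    exact ⟨z', fun x' => h2 (mem_univ x')⟩
  choose z' hz' using hmin
  have hv : ∀ k, ∃ v' : TangentSpace 𝓘(ℝ, E) (z' k), e (z' k) v' = e (z k) (τ k • u k) ∧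
      dist (z' k) (e (z k) (τ k • u k)) = ‖v'‖ := fun k => F.hopfRinow _ _
  choose v' hv1 hv2 using hv
  have hvs : ∀ k, v' k ∈ segMin e (z' k) := fun k => by
    show dist _ _ = _
    rw [hv1, hv2]
  have hτv : ∀ k, τ k • ((1 / τ k) • v' k) = v' k := fun k => by
    have := (hτ0 k).ne'
    rw [smul_smul]
    have h2 : τ k * (1 / τ k) = 1 := by field_simp
    rw [h2, one_smul]
  refine no_failure F hW P h0 h1 hA hδ hδτ hρ hρmin hδρ hτgt hτle hτlim (z := z) (z' := z')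
    (y := fun k => e (z k) (τ k • u k)) (u := u) (u' := fun k => (1 / τ k) • v' k) hu
    (fun k => stepA F P (hτ0 k) (Eventually.of_forall (hz' k)) (hvs k) (hv1 k))
    (fun k => rfl) (fun k => by rw [hτv, hv1]) (fun k => by rw [hτv]; exact hvs k)
    (fun k => ?_)
  have h2 : τ k * ‖(1 / τ k) • v' k‖ ^ 2 / 2 = cost (z' k) (e (z k) (τ k • u k)) / τ k := by
    have := (hτ0 k).ne'
    unfold cost
    rw [hv2, norm_smul, Real.norm_of_nonneg (by have := hτ0 k; (clear * - h0 h1 hδ; positivity))]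
    (clear * - this; field_simp)
  rw [h2]
  exact (hz' k (x k)).trans_lt (hx k)

end

end Vale.Agent.P234
end
end

section

section

/-! Conclusion from the interface facts. -/

set_option maxSynthPendingDepth 3

open Bundle Manifold Set Filter
open scoped ContDiff Manifold Topology

namespace Vale.Agent.P234

noncomputable section

variable {E : Type*} [NormedAddCommGroup E] [NormedSpace ℝ E] [FiniteDimensional ℝ E]
  {M : Type*} [MetricSpace M] [ChartedSpace E M]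
  [RiemannianBundle (fun x : M => TangentSpace 𝓘(ℝ, E) x)]
  [IsManifold 𝓘(ℝ, E) ∞ M]
  [IsContMDiffRiemannianBundle 𝓘(ℝ, E) ∞ E (fun x : M => TangentSpace 𝓘(ℝ, E) x)]
  [CompactSpace M]
  {e : ∀ x : M, TangentSpace 𝓘(ℝ, E) x → M}

/-- The support property holds at time one. -/
theorem support_one (F : Facts e) (hW : WeakMTW e) (P : Pot M) : P.A e 1 := by
  obtain ⟨τ₀, h0, h1, hA0⟩ := baseCase F P
  let S : Set ℝ := {τ | τ₀ ≤ τ ∧ τ ≤ 1 ∧ P.A e τ}
  have hne : S.Nonempty := ⟨τ₀, le_rfl, h1.le, hA0⟩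
  have hbdd : BddAbove S := ⟨1, fun τ hτ => hτ.2.1⟩
  have hs0 : τ₀ ≤ sSup S := le_csSup hbdd ⟨le_rfl, h1.le, hA0⟩
  have hs1 : sSup S ≤ 1 := csSup_le hne (fun τ hτ => hτ.2.1)
  obtain ⟨τ, -, hτlim, hτS⟩ := exists_seq_tendsto_sSup hne hbdd
  have hAs : P.A e (sSup S) :=
    Pot.A.of_tendsto F.isExp (by linarith) hτlim (fun k => (hτS k).2.2)
  by_contra hcon
  have hs : sSup S < 1 := lt_of_le_of_ne hs1 (fun h => hcon (h ▸ hAs))
  obtain ⟨τ₂, h12, h21, hA2⟩ := openStep F hW P (by linarith) hs hAs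
  have : τ₂ ≤ sSup S := le_csSup hbdd ⟨by linarith, h21, hA2⟩
  linarith

/-- Convexity of the set of minimizing vectors. -/
theorem convex_segMin (F : Facts e) (hW : WeakMTW e) (z : M) : Convex ℝ (segMin e z) := by
  intro v₀ h₀ v₁ h₁ a b ha hb hab
  have c0 : cost z (e z v₀) = ‖v₀‖ ^ 2 / 2 := by
    have : dist z (e z v₀) = ‖v₀‖ := h₀
    rw [cost, this]
  have c1 : cost z (e z v₁) = ‖v₁‖ ^ 2 / 2 := by
    have : dist z (e z v₁) = ‖v₁‖ := h₁
    rw [cost, this]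
  let P : Pot M :=
    { N := 2
      a := fun i => if i = 0 then ‖v₀‖ ^ 2 / 2 else ‖v₁‖ ^ 2 / 2
      y := fun i => if i = 0 then e z v₀ else e z v₁
      phi := fun x => max (‖v₀‖ ^ 2 / 2 - cost x (e z v₀)) (‖v₁‖ ^ 2 / 2 - cost x (e z v₁))
      lower := by
        intro i x
        by_cases hi : i = 0
        · simp only [hi, if_true]
          exact le_max_left _ _
        · simp only [hi, if_false]
          exact le_max_right _ _
      attained := by
        intro x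
        rcases le_total (‖v₀‖ ^ 2 / 2 - cost x (e z v₀)) (‖v₁‖ ^ 2 / 2 - cost x (e z v₁)) with h | h
        · refine ⟨1, ?_⟩
          rw [max_eq_right h, if_neg (by decide), if_neg (by decide)]
        · refine ⟨0, ?_⟩
          rw [max_eq_left h, if_pos rfl, if_pos rfl] }
  have hphi : P.phi z = 0 := by
    change max (‖v₀‖ ^ 2 / 2 - cost z (e z v₀)) (‖v₁‖ ^ 2 / 2 - cost z (e z v₁)) = 0
    rw [c0, c1, sub_self, sub_self, max_self]
  have hv0 : v₀ ∈ P.vtx e z := by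
    refine ⟨h₀, (0 : Fin 2), ?_, ?_⟩
    · change e z v₀ = if (0 : Fin 2) = 0 then e z v₀ else e z v₁
      rw [if_pos rfl]
    · rw [hphi]
      change 0 = (if (0 : Fin 2) = 0 then ‖v₀‖ ^ 2 / 2 else ‖v₁‖ ^ 2 / 2)
        - cost z (if (0 : Fin 2) = 0 then e z v₀ else e z v₁)
      rw [if_pos rfl, if_pos rfl, c0, sub_self]
  have hv1 : v₁ ∈ P.vtx e z := by
    refine ⟨h₁, (1 : Fin 2), ?_, ?_⟩
    · change e z v₁ = if (1 : Fin 2) = 0 then e z v₀ else e z v₁
      rw [if_neg (by decide)]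
    · rw [hphi]
      change 0 = (if (1 : Fin 2) = 0 then ‖v₀‖ ^ 2 / 2 else ‖v₁‖ ^ 2 / 2)
        - cost z (if (1 : Fin 2) = 0 then e z v₀ else e z v₁)
      rw [if_neg (by decide), if_neg (by decide), c1, sub_self]
  have hu : a • v₀ + b • v₁ ∈ P.sub e z :=
    (convex_convexHull ℝ (P.vtx e z)) (subset_convexHull ℝ _ hv0) (subset_convexHull ℝ _ hv1)
      ha hb hab
  have := Pot.A.segMin F.isExp one_pos (support_one F hW P) hu
  rwa [one_smul] at this

/-- Main theorem from the interface facts. -/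
theorem convex_injDomain (F : Facts e) (hW : WeakMTW e) (z : M) : Convex ℝ (injDomain e z) := by
  intro v₀ h₀ v₁ h₁ a b ha hb hab
  obtain ⟨t₀, ht₀, hv₀⟩ := (mem_injDomain_iff F.isExp).mp h₀
  obtain ⟨t₁, ht₁, hv₁⟩ := (mem_injDomain_iff F.isExp).mp h₁
  rw [mem_injDomain_iff F.isExp]
  have key : ∀ (v : TangentSpace 𝓘(ℝ, E) z) (s t : ℝ), 1 < t → t ≤ s → s • v ∈ segMin e z →
      t • v ∈ segMin e z := by
    intro v s t ht hts hs
    have hs0 : 0 < s := by linarith only [ht, hts]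
    have h := smul_mem_segMin F.isExp hs (t := t / s) (div_nonneg (by linarith only [ht]) hs0.le)
      ((div_le_one hs0).mpr hts)
    rwa [smul_smul, div_mul_cancel₀ _ hs0.ne'] at h
  have hmin : 1 < min t₀ t₁ := lt_min ht₀ ht₁
  refine ⟨min t₀ t₁, hmin, ?_⟩
  have k0 := key v₀ t₀ (min t₀ t₁) hmin (min_le_left _ _) hv₀
  have k1 := key v₁ t₁ (min t₀ t₁) hmin (min_le_right _ _) hv₁
  have := convex_segMin F hW z k0 k1 ha hb hab
  rw [smul_add, smul_comm _ a, smul_comm _ b]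
  exact this

end

end Vale.Agent.P234
end
end

section

section

/-! Foundation 3: Hopf-Rinow. -/

set_option maxSynthPendingDepth 3

open Bundle Manifold Set Filter
open scoped ContDiff Manifold Topology

namespace Vale.Agent.P234

noncomputable section

variable {E : Type*} [NormedAddCommGroup E] [NormedSpace ℝ E] [FiniteDimensional ℝ E]
  {M : Type*} [MetricSpace M] [ChartedSpace E M]
  [RiemannianBundle (fun x : M => TangentSpace 𝓘(ℝ, E) x)]
  [IsManifold 𝓘(ℝ, E) ∞ M]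
  [IsContMDiffRiemannianBundle 𝓘(ℝ, E) ∞ E (fun x : M => TangentSpace 𝓘(ℝ, E) x)]
  [CompactSpace M]
  {e : ∀ x : M, TangentSpace 𝓘(ℝ, E) x → M}

omit [FiniteDimensional ℝ E] [IsManifold 𝓘(ℝ, E) ∞ M]
  [IsContMDiffRiemannianBundle 𝓘(ℝ, E) ∞ E (fun x : M => TangentSpace 𝓘(ℝ, E) x)]
  [CompactSpace M] in
/-- Almost intermediate points. -/
lemma exists_almost_between [IsRiemannianManifold 𝓘(ℝ, E) M] (x y : M) {r : ℝ}
    (h0 : 0 ≤ r) (hr : r ≤ dist x y) {ε : ℝ} (hε : 0 < ε) :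
    ∃ z : M, dist x z = r ∧ dist z y ≤ dist x y - r + ε := by
  have h1 : riemannianEDist 𝓘(ℝ, E) x y < ENNReal.ofReal (dist x y + ε) := by
    rw [← IsRiemannianManifold.out x y, edist_dist]
    exact (ENNReal.ofReal_lt_ofReal_iff (by positivity)).2 (by linarith)
  obtain ⟨γ, h2, h3, h4, h5⟩ := exists_lt_of_riemannianEDist_lt h1
  have hcont : ContinuousOn (fun t => dist x (γ t)) (Icc 0 1) :=
    (continuous_const.dist continuous_id).comp_continuousOn h4.continuousOn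
  have h6 : r ∈ Icc (dist x (γ 0)) (dist x (γ 1)) := by
    rw [h2, h3, dist_self]; exact ⟨h0, hr⟩
  obtain ⟨t, ht, htr⟩ := intermediate_value_Icc zero_le_one hcont h6
  refine ⟨γ t, htr, ?_⟩
  have h7 : edist x (γ t) ≤ pathELength 𝓘(ℝ, E) γ 0 t := by
    rw [IsRiemannianManifold.out (I := 𝓘(ℝ, E)) x (γ t)]
    exact riemannianEDist_le_pathELength (h4.mono (Icc_subset_Icc_right ht.2)) h2 rfl ht.1
  have h8 : edist (γ t) y ≤ pathELength 𝓘(ℝ, E) γ t 1 := by
    rw [IsRiemannianManifold.out (I := 𝓘(ℝ, E)) (γ t) y]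
    exact riemannianEDist_le_pathELength (h4.mono (Icc_subset_Icc_left ht.1)) rfl h3 ht.2
  have h9 : edist x (γ t) + edist (γ t) y < ENNReal.ofReal (dist x y + ε) := by
    refine (add_le_add h7 h8).trans_lt ?_
    rwa [pathELength_add ht.1 ht.2]
  rw [edist_dist, edist_dist, ← ENNReal.ofReal_add dist_nonneg dist_nonneg,
    ENNReal.ofReal_lt_ofReal_iff (by positivity)] at h9
  linarith only [htr, h9]

omit [FiniteDimensional ℝ E] [IsManifold 𝓘(ℝ, E) ∞ M]
  [IsContMDiffRiemannianBundle 𝓘(ℝ, E) ∞ E (fun x : M => TangentSpace 𝓘(ℝ, E) x)] in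
/-- Existence of intermediate points (from the Riemannian distance and compactness). -/
lemma exists_between_dist [IsRiemannianManifold 𝓘(ℝ, E) M] [ConnectedSpace M] (x y : M) {r : ℝ}
    (h0 : 0 ≤ r) (hr : r ≤ dist x y) : ∃ z : M, dist x z = r ∧ dist z y = dist x y - r := by
  have hK : IsCompact {z : M | dist x z = r} :=
    (isClosed_eq (continuous_const.dist continuous_id) continuous_const).isCompact
  obtain ⟨z1, hz1, -⟩ := exists_almost_between (E := E) x y h0 hr one_pos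
  obtain ⟨z, hz, hmin⟩ := hK.exists_isMinOn ⟨z1, hz1⟩
    ((continuous_id.dist continuous_const).continuousOn (s := {z : M | dist x z = r})
      (f := fun z => dist z y))
  refine ⟨z, hz, le_antisymm ?_ ?_⟩
  · refine le_of_forall_pos_le_add fun ε hε => ?_
    obtain ⟨w, hw1, hw2⟩ := exists_almost_between (E := E) x y h0 hr hε
    exact (hmin hw1).trans hw2
  · have h1 := dist_triangle x z y
    have h2 : dist x z = r := hz
    linarith

omit [CompactSpace M] in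
/-- Short minimizing vectors are unique. -/
lemma segMin_unique_of_smooth (he : IsExp e) {x : M} {v w : TangentSpace 𝓘(ℝ, E) x}
    (hv : v ∈ segMin e x) (hw : w ∈ segMin e x) (hs : SmoothAt E x (e x v))
    (hvw : e x w = e x v) : w = v := by
  have h1 := hasFDerivAt_cost_zero he x v hv hs
  have h2 := hasFDerivAt_cost_zero he x w hw (hvw ▸ hs)
  rw [hvw] at h2
  have h3 := h1.unique h2
  have h4 : innerSL ℝ v = innerSL ℝ w := neg_injective h3
  refine ext_inner_right ℝ fun u => ?_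
  have h5 := congrArg (fun L => L u) h4
  exact h5.symm

/-- Hopf-Rinow. -/
lemma hopfRinow_of_isExp [IsRiemannianManifold 𝓘(ℝ, E) M] [ConnectedSpace M] (he : IsExp e)
    (x y : M) : ∃ v : TangentSpace 𝓘(ℝ, E) x, e x v = y ∧ dist x y = ‖v‖ := by
  obtain ⟨ρ1, hρ1, hnear⟩ := exists_near he
  obtain ⟨ρ2, hρ2, hshort⟩ := short_between he
  obtain ⟨ρ3, hρ3, hmini⟩ := he.minimizing
  rcases lt_or_ge (dist x y) ρ1 with hD | hD
  · exact (hnear x y hD).2
  set r : ℝ := min ρ1 (min ρ2 ρ3) / 4 with hrdef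
  have hm : 0 < min ρ1 (min ρ2 ρ3) := lt_min hρ1 (lt_min hρ2 hρ3)
  have hr : 0 < r := by positivity
  have hr1 : 4 * r ≤ ρ1 := by rw [hrdef]; linarith only [min_le_left ρ1 (min ρ2 ρ3)]
  have hr2 : 4 * r ≤ ρ2 := by
    rw [hrdef]; linarith only [(min_le_right ρ1 (min ρ2 ρ3)).trans (min_le_left ρ2 ρ3)]
  have hr3 : 4 * r ≤ ρ3 := by
    rw [hrdef]; linarith only [(min_le_right ρ1 (min ρ2 ρ3)).trans (min_le_right ρ2 ρ3)]
  set D : ℝ := dist x y with hDdef
  have hrD : r < D := by linarith only [hr, hr1, hD]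
  -- the initial direction
  obtain ⟨z, hz1, hz2⟩ := exists_between_dist (E := E) x y hr.le hrD.le
  obtain ⟨v0, hv0, hv0n⟩ := (hnear x z (by rw [hz1]; linarith only [hr, hr1])).2
  obtain ⟨u, hu⟩ : ∃ u : TangentSpace 𝓘(ℝ, E) x, u = r⁻¹ • v0 := ⟨_, rfl⟩
  have hun : ‖u‖ = 1 := by
    rw [hu, norm_smul, ← hv0n, hz1, Real.norm_eq_abs, abs_of_pos (inv_pos.2 hr)]
    exact inv_mul_cancel₀ hr.ne'
  have hru : r • u = v0 := by rw [hu, smul_smul, mul_inv_cancel₀ hr.ne', one_smul]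
  -- the step
  have hstep : ∀ t : ℝ, r ≤ t → t ≤ D → dist (e x (t • u)) y = D - t →
      dist (e x ((min (t + r) D) • u)) y = D - min (t + r) D := by
    intro t htr htD ht
    rcases eq_or_lt_of_le htD with htD' | htD'
    · have : min (t + r) D = t := by rw [htD']; exact min_eq_right (by linarith only [hr])
      rw [this]; exact ht
    set s : ℝ := min (t + r) D - t with hs
    have hs0 : 0 < s := by
      rw [hs]; have : t < min (t + r) D := lt_min (by linarith only [hr]) htD'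
      linarith only [this]
    have hsr : s ≤ r := by rw [hs]; linarith only [min_le_left (t + r) D]
    have hsD : s ≤ D - t := by rw [hs]; linarith only [min_le_right (t + r) D]
    have hts : min (t + r) D = t + s := by rw [hs]; ring
    rw [hts]
    obtain ⟨z', hz'1, hz'2⟩ := exists_between_dist (E := E) (e x (t • u)) y hs0.le
      (by rw [ht]; exact hsD)
    have hp'p : dist (e x ((t - r) • u)) (e x (t • u)) = r := by
      have := hmini x u (t - r) t (by
        rw [hun, sub_sub_cancel, abs_of_pos hr]; linarith only [hr, hr3])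
      rw [this, hun, sub_sub_cancel, abs_of_pos hr, one_mul]
    have hxp' : dist x (e x ((t - r) • u)) ≤ t - r := by
      have := dist_exp_le' he x ((t - r) • u)
      rwa [norm_smul, hun, mul_one, Real.norm_eq_abs, abs_of_nonneg (by linarith only [htr])] at this
    have hp'y : D - (t - r) ≤ dist (e x ((t - r) • u)) y := by
      have := dist_triangle x (e x ((t - r) • u)) y
      linarith only [hxp', this]
    have hp'z' : dist (e x ((t - r) • u)) z' = r + s := by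
      apply le_antisymm
      · have := dist_triangle (e x ((t - r) • u)) (e x (t • u)) z'
        linarith only [hz'1, hp'p, this]
      · have := dist_triangle (e x ((t - r) • u)) z' y
        linarith only [ht, hz'2, hp'y, this]
    obtain ⟨hsm, w, hw1, hw2⟩ := hnear (e x ((t - r) • u)) z' (by rw [hp'z']; linarith only [hr, hr1, hsr])
    rw [hp'z'] at hw2
    obtain ⟨τ, hτ0, hτ1, hτ⟩ := hshort _ w (by rw [← hw2]; linarith only [hr, hr2, hsr]) (e x (t • u)) (by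
      rw [hw1, hp'p, hz'1, hp'z'])
    -- compute τ
    have hτr : (r + s) * τ = r := by
      have := hmini (e x ((t - r) • u)) w 0 τ (by
        rw [← hw2, sub_zero, abs_of_nonneg hτ0]
        nlinarith only [hr3, hsr, hτ1, hs0])
      rw [zero_smul, he.map_zero, hτ, hp'p, ← hw2, sub_zero, abs_of_nonneg hτ0] at this
      exact this.symm
    obtain ⟨w1, hw1n, hw1f⟩ := flow_of_isExp he x u (t - r)
    rw [hun] at hw1n
    have hw1p : e (e x ((t - r) • u)) (r • w1) = e x (t • u) := by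
      rw [hw1f]; congr 2; ring
    have hsegw : τ • w ∈ segMin e (e x ((t - r) • u)) := by
      show dist _ _ = _
      rw [hτ, hp'p, norm_smul, ← hw2, Real.norm_eq_abs, abs_of_nonneg hτ0]
      linarith only [hτr]
    have hsegw1 : r • w1 ∈ segMin e (e x ((t - r) • u)) := by
      show dist _ _ = _
      rw [hw1p, hp'p, norm_smul, hw1n, Real.norm_eq_abs, abs_of_pos hr, mul_one]
    have huniq : r • w1 = τ • w := by
      apply segMin_unique_of_smooth he hsegw hsegw1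
      · rw [hτ]
        exact (hnear _ _ (by rw [hp'p]; linarith only [hr, hr1])).1
      · rw [hτ, hw1p]
    have hw : w = (r + s) • w1 := by
      have hrs : 0 < r + s := by linarith only [hr, hs0]
      have h1 : (r + s) • (r • w1) = (r + s) • (τ • w) := by rw [huniq]
      rw [smul_smul, smul_smul, hτr, mul_comm, ← smul_smul] at h1
      exact (smul_right_injective _ hr.ne' h1).symm
    have hz' : z' = e x ((t + s) • u) := by
      rw [← hw1, hw, hw1f]; congr 2; ring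
    rw [← hz', hz'2, ht]; ring
  -- iterate
  have hiter : ∀ k : ℕ, dist (e x ((min (r + k * r) D) • u)) y = D - min (r + k * r) D := by
    intro k
    induction k with
    | zero =>
      rw [Nat.cast_zero, zero_mul, add_zero, min_eq_left hrD.le, hru, hv0, hz2]
    | succ k ih =>
      have h1 := hstep (min (r + k * r) D) (le_min (by
        have : (0 : ℝ) ≤ k * r := by positivity
        linarith only [this]) hrD.le) (min_le_right _ _) ih
      have h2 : min (min (r + k * r) D + r) D = min (r + ((k + 1 : ℕ) : ℝ) * r) D := by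
        push_cast
        rcases le_total (r + k * r) D with h | h
        · rw [min_eq_left h]; congr 1; ring
        · rw [min_eq_right h, min_eq_right (by linarith only [hr]), min_eq_right (by nlinarith only [hr, h])]
      rw [h2] at h1
      exact h1
  obtain ⟨k, hk⟩ := exists_nat_gt (D / r)
  have hk' : D ≤ r + k * r := by
    have := (div_lt_iff₀ hr).1 hk
    linarith only [hr, this]
  have hfin := hiter k
  rw [min_eq_right hk', sub_self, dist_eq_zero] at hfin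
  refine ⟨D • u, hfin, ?_⟩
  rw [norm_smul, hun, mul_one, Real.norm_eq_abs, abs_of_nonneg dist_nonneg]

end

end Vale.Agent.P234
end
end

section

section

/-! Core lemma: a two-piece functional with a unique nondegenerate minimizer gives smoothness
of the cost. -/

set_option maxSynthPendingDepth 3

open Bundle Manifold Set Filter
open scoped ContDiff Manifold Topology

namespace Vale.Agent.P234

noncomputable section

variable {E : Type*} [NormedAddCommGroup E] [NormedSpace ℝ E] [FiniteDimensional ℝ E]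
  {M : Type*} [MetricSpace M] [ChartedSpace E M]
  [RiemannianBundle (fun x : M => TangentSpace 𝓘(ℝ, E) x)]
  [IsManifold 𝓘(ℝ, E) ∞ M]
  [IsContMDiffRiemannianBundle 𝓘(ℝ, E) ∞ E (fun x : M => TangentSpace 𝓘(ℝ, E) x)]
  [CompactSpace M]
  {e : ∀ x : M, TangentSpace 𝓘(ℝ, E) x → M}

/-- Local surjectivity of the exponential map at the origin. -/
lemma exp_surj_near (he : IsExp e) (m₀ : M) {U : Set (TangentSpace 𝓘(ℝ, E) m₀)}
    (hU : U ∈ 𝓝 (0 : TangentSpace 𝓘(ℝ, E) m₀)) :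
    ∃ V ∈ 𝓝 m₀, ∀ m ∈ V, ∃ b ∈ U, e m₀ b = m := by
  obtain ⟨ρ, hρ, hnear⟩ := exists_near he
  obtain ⟨δ, hδ, hδU⟩ := Metric.mem_nhds_iff.1 hU
  refine ⟨Metric.ball m₀ (min ρ δ), Metric.ball_mem_nhds _ (lt_min hρ hδ), fun m hm => ?_⟩
  rw [Metric.mem_ball, dist_comm] at hm
  obtain ⟨v, hv, hv2⟩ := (hnear m₀ m (lt_of_lt_of_le hm (min_le_left _ _))).2
  refine ⟨v, hδU ?_, hv⟩
  rw [Metric.mem_ball, dist_zero_right, ← hv2]
  exact lt_of_lt_of_le hm (min_le_right _ _)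

/-- Minimizers converge. -/
lemma minimizers_near {x₀ m₀ y₀ : M} {s t : ℝ}
    (huniq : ∀ m, cost x₀ y₀ / (s + t) = cost x₀ m / s + cost m y₀ / t → m = m₀)
    {V : Set M} (hV : V ∈ 𝓝 m₀) :
    ∀ᶠ n : M × M in 𝓝 (x₀, y₀), ∀ m : M,
      cost n.1 n.2 / (s + t) = cost n.1 m / s + cost m n.2 / t → m ∈ V := by
  obtain ⟨V', hV'V, hV'o, hmV'⟩ := mem_nhds_iff.1 hV
  have hK : IsCompact (V'ᶜ) := hV'o.isClosed_compl.isCompact
  have hcont : Continuous fun z : (M × M) × M =>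
      cost z.1.1 z.2 / s + cost z.2 z.1.2 / t - cost z.1.1 z.1.2 / (s + t) := by
    have h1 : Continuous fun z : (M × M) × M => cost z.1.1 z.2 := by
      unfold cost; fun_prop
    have h2 : Continuous fun z : (M × M) × M => cost z.2 z.1.2 := by
      unfold cost; fun_prop
    have h3 : Continuous fun z : (M × M) × M => cost z.1.1 z.1.2 := by
      unfold cost; fun_prop
    exact ((h1.div_const _).add (h2.div_const _)).sub (h3.div_const _)
  have := hK.eventually_forall_of_forall_eventually (x₀ := ((x₀, y₀) : M × M))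
    (P := fun n m => cost n.1 m / s + cost m n.2 / t - cost n.1 n.2 / (s + t) ≠ 0) (by
      intro m hm
      have hne : cost x₀ m / s + cost m y₀ / t - cost x₀ y₀ / (s + t) ≠ 0 := by
        intro h
        apply hm
        have : m = m₀ := huniq m (by linarith only [h])
        rw [this]; exact hmV'
      exact hcont.continuousAt.eventually_ne hne)
  filter_upwards [this] with n hn m hm
  by_contra hmV
  exact hn m (fun h => hmV (hV'V h)) (by rw [hm]; ring)

/-- Core lemma. -/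
lemma core_smooth (he : IsExp e) {x₀ m₀ y₀ : M} {s t : ℝ} (hs : 0 < s) (ht : 0 < t)
    (h1 : SmoothAt E x₀ m₀) (h2 : SmoothAt E m₀ y₀)
    (hex : ∀ x y : M, ∃ m, cost x y / (s + t) = cost x m / s + cost m y / t)
    (huniq : ∀ m, cost x₀ y₀ / (s + t) = cost x₀ m / s + cost m y₀ / t → m = m₀)
    (hpos : ∀ ξ : TangentSpace 𝓘(ℝ, E) m₀, ξ ≠ 0 →
      0 < hess (fun b : TangentSpace 𝓘(ℝ, E) m₀ =>
        cost x₀ (e m₀ b) / s + cost (e m₀ b) y₀ / t) 0 ξ ξ) :
    SmoothAt E x₀ y₀ := by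
  set φ := extChartAt (𝓘(ℝ, E).prod 𝓘(ℝ, E)) ((x₀, y₀) : M × M) with hφ
  set G : (E × E) × TangentSpace 𝓘(ℝ, E) m₀ → ℝ := fun q =>
    cost (φ.symm q.1).1 (e m₀ q.2) / s + cost (e m₀ q.2) (φ.symm q.1).2 / t with hGdef
  have hφ0 : φ.symm (φ (x₀, y₀)) = (x₀, y₀) := φ.left_inv (mem_extChartAt_source _)
  have hm0 : e m₀ 0 = m₀ := he.map_zero m₀
  have hot : IsOpen φ.target := isOpen_extChartAt_target _
  have hmt : φ (x₀, y₀) ∈ φ.target := mem_extChartAt_target _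
  have hsymm : ∀ p ∈ φ.target,
      ContMDiffAt 𝓘(ℝ, E × E) (𝓘(ℝ, E).prod 𝓘(ℝ, E)) ∞ φ.symm p := fun p hp =>
    (contMDiffOn_extChartAt_symm (n := ∞) (x₀, y₀)).contMDiffAt (hot.mem_nhds hp)
  have hsymmc : ContinuousAt φ.symm (φ (x₀, y₀)) := (hsymm _ hmt).continuousAt
  have hec : Continuous (e m₀) := (contMDiff_exp_fiber he m₀).continuous
  have hGm : ∀ (p : E × E) (b : TangentSpace 𝓘(ℝ, E) m₀),
      G (p, b) = cost (φ.symm p).1 (e m₀ b) / s + cost (e m₀ b) (φ.symm p).2 / t :=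
    fun p b => rfl
  -- smoothness of `G`
  have hG : ∀ᶠ q in 𝓝 ((φ (x₀, y₀), 0) : (E × E) × TangentSpace 𝓘(ℝ, E) m₀),
      ContDiffAt ℝ ∞ G q := by
    have hc1 : Tendsto (fun q : (E × E) × TangentSpace 𝓘(ℝ, E) m₀ =>
        (((φ.symm q.1).1, e m₀ q.2) : M × M)) (𝓝 (φ (x₀, y₀), 0)) (𝓝 (x₀, m₀)) := by
      have hx : Tendsto (fun q : (E × E) × TangentSpace 𝓘(ℝ, E) m₀ => (φ.symm q.1).1)
          (𝓝 (φ (x₀, y₀), 0)) (𝓝 x₀) := by
        have h := (continuous_fst.tendsto _).comp (hsymmc.tendsto.comp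
          (continuous_fst.tendsto ((φ (x₀, y₀), 0) : (E × E) × TangentSpace 𝓘(ℝ, E) m₀)))
        simpa only [hφ0, Function.comp_def] using h
      have hm : Tendsto (fun q : (E × E) × TangentSpace 𝓘(ℝ, E) m₀ => e m₀ q.2)
          (𝓝 (φ (x₀, y₀), 0)) (𝓝 m₀) := by
        have h := (hec.tendsto _).comp
          (continuous_snd.tendsto ((φ (x₀, y₀), 0) : (E × E) × TangentSpace 𝓘(ℝ, E) m₀))
        simpa only [hm0, Function.comp_def] using h
      exact hx.prodMk_nhds hm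
    have hc2 : Tendsto (fun q : (E × E) × TangentSpace 𝓘(ℝ, E) m₀ =>
        ((e m₀ q.2, (φ.symm q.1).2) : M × M)) (𝓝 (φ (x₀, y₀), 0)) (𝓝 (m₀, y₀)) := by
      have hx : Tendsto (fun q : (E × E) × TangentSpace 𝓘(ℝ, E) m₀ => (φ.symm q.1).2)
          (𝓝 (φ (x₀, y₀), 0)) (𝓝 y₀) := by
        have h := (continuous_snd.tendsto _).comp (hsymmc.tendsto.comp
          (continuous_fst.tendsto ((φ (x₀, y₀), 0) : (E × E) × TangentSpace 𝓘(ℝ, E) m₀)))
        simpa only [hφ0, Function.comp_def] using h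
      have hm : Tendsto (fun q : (E × E) × TangentSpace 𝓘(ℝ, E) m₀ => e m₀ q.2)
          (𝓝 (φ (x₀, y₀), 0)) (𝓝 m₀) := by
        have h := (hec.tendsto _).comp
          (continuous_snd.tendsto ((φ (x₀, y₀), 0) : (E × E) × TangentSpace 𝓘(ℝ, E) m₀))
        simpa only [hm0, Function.comp_def] using h
      exact hm.prodMk_nhds hx
    have ht1 : ∀ᶠ q in 𝓝 ((φ (x₀, y₀), 0) : (E × E) × TangentSpace 𝓘(ℝ, E) m₀),
        q.1 ∈ φ.target :=
      (continuous_fst.tendsto _).eventually (hot.mem_nhds hmt)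
    filter_upwards [hc1.eventually h1, hc2.eventually h2, ht1] with q hq1 hq2 hq3
    have hf : ContMDiffAt 𝓘(ℝ, (E × E) × TangentSpace 𝓘(ℝ, E) m₀)
        (𝓘(ℝ, E).prod 𝓘(ℝ, E)) ∞ (fun q : (E × E) × TangentSpace 𝓘(ℝ, E) m₀ => φ.symm q.1) q :=
      (hsymm _ hq3).comp q (contDiffAt_fst.contMDiffAt)
    have hem : ContMDiffAt 𝓘(ℝ, (E × E) × TangentSpace 𝓘(ℝ, E) m₀)
        𝓘(ℝ, E) ∞ (fun q : (E × E) × TangentSpace 𝓘(ℝ, E) m₀ => e m₀ q.2) q :=
      (contMDiff_exp_fiber he m₀ _).comp q (contDiffAt_snd.contMDiffAt)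
    have hA : ContDiffAt ℝ ∞ (fun q : (E × E) × TangentSpace 𝓘(ℝ, E) m₀ =>
        cost (φ.symm q.1).1 (e m₀ q.2)) q := by
      rw [← contMDiffAt_iff_contDiffAt]
      exact hq1.comp q (hf.fst.prodMk hem)
    have hB : ContDiffAt ℝ ∞ (fun q : (E × E) × TangentSpace 𝓘(ℝ, E) m₀ =>
        cost (e m₀ q.2) (φ.symm q.1).2) q := by
      rw [← contMDiffAt_iff_contDiffAt]
      exact hq2.comp q (hem.prodMk hf.snd)
    exact (hA.div_const _).add (hB.div_const _)
  -- the minimizer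
  have hmin0 : cost x₀ y₀ / (s + t) = cost x₀ m₀ / s + cost m₀ y₀ / t := by
    obtain ⟨m, hm⟩ := hex x₀ y₀
    have := huniq m hm
    rwa [this] at hm
  have hcrit : fderiv ℝ (fun b => G (φ (x₀, y₀), b)) 0 = 0 := by
    apply IsLocalMin.fderiv_eq_zero
    refine Filter.Eventually.of_forall fun b => ?_
    simp only [hGm, hφ0, hm0]
    rw [← hmin0]
    exact cost_ineq _ _ _ hs ht
  have hpos' : ∀ ξ : TangentSpace 𝓘(ℝ, E) m₀, ξ ≠ 0 →
      hess (fun b => G (φ (x₀, y₀), b)) 0 ξ ξ ≠ 0 := by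
    intro ξ hξ
    simp only [hGm, hφ0]
    exact (hpos ξ hξ).ne'
  -- the value function
  have hval := envelope (f := fun p : E × E => cost (φ.symm p).1 (φ.symm p).2 / (s + t))
    hG hcrit hpos' (by
      intro U hU
      obtain ⟨V, hV, hVU⟩ := exp_surj_near he m₀ hU
      have hmn := minimizers_near huniq hV
      have hsymmc' : Tendsto φ.symm (𝓝 (φ (x₀, y₀))) (𝓝 (x₀, y₀)) := by
        simpa only [hφ0] using hsymmc.tendsto
      filter_upwards [hsymmc'.eventually hmn] with p hp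
      obtain ⟨m, hm⟩ := hex (φ.symm p).1 (φ.symm p).2
      obtain ⟨b, hb, hbm⟩ := hVU m (hp m hm)
      refine ⟨b, hb, ?_, ?_⟩
      · apply IsLocalMin.fderiv_eq_zero
        refine Filter.Eventually.of_forall fun b' => ?_
        simp only [hGm]
        rw [hbm, ← hm]
        exact cost_ineq _ _ _ hs ht
      · simp only [hGm]
        rw [hbm, ← hm])
  -- back to the manifold
  have hφc : Tendsto φ (𝓝 (x₀, y₀)) (𝓝 (φ (x₀, y₀))) := continuousAt_extChartAt _
  have hsrc : IsOpen φ.source := isOpen_extChartAt_source _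
  unfold SmoothAt
  filter_upwards [hφc.eventually hval, hsrc.mem_nhds (mem_extChartAt_source _)] with n hn1 hn2
  have hφn : ContMDiffAt (𝓘(ℝ, E).prod 𝓘(ℝ, E)) 𝓘(ℝ, E × E) ∞ φ n :=
    contMDiffAt_extChartAt' (by rwa [← extChartAt_source (𝓘(ℝ, E).prod 𝓘(ℝ, E))])
  have hcomp : ContMDiffAt (𝓘(ℝ, E).prod 𝓘(ℝ, E)) 𝓘(ℝ, ℝ) ∞
      (fun n : M × M => cost (φ.symm (φ n)).1 (φ.symm (φ n)).2 / (s + t)) n :=
    ContMDiffAt.comp (g := fun p : E × E => cost (φ.symm p).1 (φ.symm p).2 / (s + t)) n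
      hn1.contMDiffAt hφn
  have hcomp2 : ContMDiffAt (𝓘(ℝ, E).prod 𝓘(ℝ, E)) 𝓘(ℝ, ℝ) ∞
      (fun n : M × M => (s + t) * (cost (φ.symm (φ n)).1 (φ.symm (φ n)).2 / (s + t))) n :=
    contMDiffAt_const.mul hcomp
  refine hcomp2.congr_of_eventuallyEq ?_
  filter_upwards [hsrc.mem_nhds hn2] with n' hn'
  rw [φ.left_inv hn']
  (clear * - hs ht; field_simp)

end

end Vale.Agent.P234
end
end

section

section

/-! Geometric input for the smoothness of the cost: uniqueness and nondegeneracy of midpoints. -/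

set_option maxSynthPendingDepth 3

open Bundle Manifold Set Filter
open scoped ContDiff Manifold Topology

namespace Vale.Agent.P234

noncomputable section

/-- Equality case of the convexity inequality. -/
lemma split_eq {a b n s t : ℝ} (hs : 0 < s) (ht : 0 < t) (hn : 0 ≤ n)
    (hab : (s + t) * n ≤ a + b)
    (h : ((s + t) * n) ^ 2 / 2 / (s + t) = a ^ 2 / 2 / s + b ^ 2 / 2 / t) :
    a = s * n ∧ b = t * n := by
  have hst : 0 < s + t := by linarith only [hs, ht]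
  have h1 : ((s + t) * n) ^ 2 / 2 / (s + t) = (s + t) * n ^ 2 / 2 := by
    field_simp
  rw [h1] at h
  have h2 : (a - s * n) ^ 2 / s + (b - t * n) ^ 2 / t =
      2 * (a ^ 2 / 2 / s + b ^ 2 / 2 / t) - 2 * n * (a + b) + (s + t) * n ^ 2 := by
    field_simp
    ring
  have h3 : (a - s * n) ^ 2 / s + (b - t * n) ^ 2 / t ≤ 0 := by
    rw [h2, ← h]
    nlinarith only [hab, hn]
  have h4 : 0 ≤ (a - s * n) ^ 2 / s := by (clear * - hs; positivity)
  have h5 : 0 ≤ (b - t * n) ^ 2 / t := by (clear * - ht; positivity)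
  have h6 : (a - s * n) ^ 2 / s = 0 := by (clear * - h4 h3 h5; linarith)
  have h7 : (b - t * n) ^ 2 / t = 0 := by linarith only [h5, h3, h4]
  rw [div_eq_zero_iff] at h6 h7
  constructor
  · rcases h6 with h6 | h6
    · have := pow_eq_zero_iff (two_ne_zero) |>.1 h6
      linarith only [this]
    · linarith only [hs, h6]
  · rcases h7 with h7 | h7
    · have := pow_eq_zero_iff (two_ne_zero) |>.1 h7
      linarith only [this]
    · linarith only [ht, h7]

variable {E : Type*} [NormedAddCommGroup E] [NormedSpace ℝ E] [FiniteDimensional ℝ E]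
  {M : Type*} [MetricSpace M] [ChartedSpace E M]
  [RiemannianBundle (fun x : M => TangentSpace 𝓘(ℝ, E) x)]
  [IsManifold 𝓘(ℝ, E) ∞ M]
  [IsContMDiffRiemannianBundle 𝓘(ℝ, E) ∞ E (fun x : M => TangentSpace 𝓘(ℝ, E) x)]
  [CompactSpace M]
  {e : ∀ x : M, TangentSpace 𝓘(ℝ, E) x → M}

/-- Uniqueness of the interior point in the convexity inequality, at small distance from the
second endpoint. -/
lemma mid_unique (he : IsExp e) : ∃ ρ > 0, ∀ (x : M) (v : TangentSpace 𝓘(ℝ, E) x),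
    v ∈ segMin e x → ∀ p q t ε : ℝ, 0 ≤ p → p < q - t → 0 < t → 0 < ε → q + ε ≤ 1 →
    (t + ε) * ‖v‖ < ρ → ∀ m : M,
    cost (e x (p • v)) (e x (q • v)) / ((q - t - p) + t) =
      cost (e x (p • v)) m / (q - t - p) + cost m (e x (q • v)) / t →
    m = e x ((q - t) • v) := by
  obtain ⟨ρ1, hρ1, hnear⟩ := exists_near he
  obtain ⟨ρ2, hρ2, hshort⟩ := short_between he
  obtain ⟨ρ3, hρ3, hmini⟩ := he.minimizing
  refine ⟨min ρ1 (min ρ2 ρ3), lt_min hρ1 (lt_min hρ2 hρ3), ?_⟩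
  intro x v hv p q t ε hp hpq ht hε hqε hsmall m hm
  have hs1 : (t + ε) * ‖v‖ < ρ1 := hsmall.trans_le (min_le_left _ _)
  have hs2 : (t + ε) * ‖v‖ < ρ2 :=
    hsmall.trans_le ((min_le_right _ _).trans (min_le_left _ _))
  have hs3 : (t + ε) * ‖v‖ < ρ3 :=
    hsmall.trans_le ((min_le_right _ _).trans (min_le_right _ _))
  have hn : 0 ≤ ‖v‖ := norm_nonneg v
  have hs : 0 < q - t - p := by linarith only [hpq]
  have hd01 : dist (e x (p • v)) (e x (q • v)) = ((q - t - p) + t) * ‖v‖ := by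
    rw [segMin_dist he hv hp (by linarith only [hpq, ht]) (by linarith only [hε, hqε])]; ring
  have hkey : dist (e x (p • v)) m = (q - t - p) * ‖v‖ ∧ dist m (e x (q • v)) = t * ‖v‖ := by
    apply split_eq hs ht hn
    · rw [← hd01]; exact dist_triangle _ _ _
    · rw [← hd01]; exact hm
  obtain ⟨h1, h2⟩ := hkey
  rcases hn.eq_or_lt with hn0 | hn0
  · -- degenerate case
    rw [← hn0, mul_zero] at h2
    have h3 : dist (e x ((q - t) • v)) (e x (q • v)) = 0 := by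
      rw [segMin_dist he hv (by linarith only [hp, hpq]) (by linarith only [ht]) (by linarith only [hε, hqε]), ← hn0, mul_zero]
    rw [dist_eq_zero] at h2 h3
    rw [h2, h3]
  have hd12 : dist (e x (q • v)) (e x ((q + ε) • v)) = ε * ‖v‖ := by
    rw [segMin_dist he hv (by linarith only [hp, hpq, ht]) (by linarith only [hε]) (by linarith only [hqε])]; ring
  have hd02 : dist (e x (p • v)) (e x ((q + ε) • v)) = (q + ε - p) * ‖v‖ := by
    rw [segMin_dist he hv (by linarith only [hp]) (by linarith only [hpq, ht, hε]) (by linarith only [hqε])]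
  have hdm : dist (e x ((q + ε) • v)) m = (t + ε) * ‖v‖ := by
    rw [dist_comm]
    apply le_antisymm
    · have := dist_triangle m (e x (q • v)) (e x ((q + ε) • v))
      linarith only [h2, hd12, this]
    · have := dist_triangle (e x (p • v)) m (e x ((q + ε) • v))
      linarith only [h1, hd02, this]
  obtain ⟨-, w1, hw1, hw1n⟩ := hnear (e x ((q + ε) • v)) m (by rw [hdm]; exact hs1)
  rw [hdm] at hw1n
  have hεn : 0 < ε * ‖v‖ := by positivity
  have htn : 0 < t * ‖v‖ := by (clear * - ht hn0; positivity)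
  obtain ⟨τ, hτ0, hτ1, hτ⟩ := hshort (e x ((q + ε) • v)) w1 (by rw [← hw1n]; exact hs2)
    (e x (q • v)) (by
      rw [hw1, hdm, dist_comm, hd12, dist_comm, h2]; ring)
  have hτ' : ((t + ε) * ‖v‖) * τ = ε * ‖v‖ := by
    have := hmini (e x ((q + ε) • v)) w1 0 τ (by
      rw [← hw1n, sub_zero, abs_of_nonneg hτ0]
      nlinarith only [hρ3, hτ1, hqε, hs3, hτ0])
    rw [zero_smul, he.map_zero, hτ, dist_comm, hd12, ← hw1n, sub_zero, abs_of_nonneg hτ0] at this
    exact this.symm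
  have hτ2 : (t + ε) * τ = ε := by
    have h3 : ((t + ε) * τ) * ‖v‖ = ε * ‖v‖ := by rw [← hτ']; ring
    exact mul_right_cancel₀ hn0.ne' h3
  obtain ⟨w', hw'n, hw'f⟩ := flow_of_isExp he x v (q + ε)
  have hy0 : e (e x ((q + ε) • v)) ((-ε) • w') = e x (q • v) := by
    rw [hw'f]; congr 2; ring
  have hseg1 : τ • w1 ∈ segMin e (e x ((q + ε) • v)) := by
    show dist _ _ = _
    rw [hτ, dist_comm, hd12, norm_smul, ← hw1n, Real.norm_eq_abs, abs_of_nonneg hτ0, ← hτ']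
    ring
  have hseg2 : (-ε) • w' ∈ segMin e (e x ((q + ε) • v)) := by
    show dist _ _ = _
    rw [hy0, dist_comm, hd12, norm_smul, hw'n, Real.norm_eq_abs, abs_neg, abs_of_pos hε]
  have huniq : (-ε) • w' = τ • w1 := by
    apply segMin_unique_of_smooth he hseg1 hseg2
    · rw [hτ]
      exact (hnear _ _ (by rw [dist_comm, hd12]; nlinarith only [hs1, htn])).1
    · rw [hτ, hy0]
  have hw1' : w1 = (-(t + ε)) • w' := by
    have h3 : (t + ε) • ((-ε) • w') = (t + ε) • (τ • w1) := by rw [huniq]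
    rw [smul_smul, smul_smul, hτ2] at h3
    have h4 : ε • w1 = ε • ((-(t + ε)) • w') := by
      rw [← h3, smul_smul]; congr 1; ring
    exact smul_right_injective _ hε.ne' h4
  rw [← hw1, hw1', hw'f]
  congr 2; ring

omit [CompactSpace M] in
/-- Nondegeneracy at the centre `m0` of a minimizing geodesic `x0 - m0 - y0 - y1` whose part
after `m0` is short. -/
lemma mid_pos_aux (he : IsExp e) {ρ1 ρ3 : ℝ}
    (hnear : ∀ x y : M, dist x y < ρ1 → SmoothAt E x y ∧
      ∃ v : TangentSpace 𝓘(ℝ, E) x, e x v = y ∧ dist x y = ‖v‖)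
    (hmini : ∀ (x : M) (v : TangentSpace 𝓘(ℝ, E) x) (s t : ℝ),
      ‖v‖ * |t - s| ≤ ρ3 → dist (e x (s • v)) (e x (t • v)) = ‖v‖ * |t - s|)
    {m0 x0 y0 y1 : M} (w ξ : TangentSpace 𝓘(ℝ, E) m0) {s t ε : ℝ}
    (hs : 0 < s) (ht : 0 < t) (hε : 0 < ε)
    (hs1 : (t + ε) * ‖w‖ < ρ1) (hs3 : (t + ε) * ‖w‖ < ρ3)
    (hx0 : x0 = e m0 ((-s) • w)) (hy0 : y0 = e m0 (t • w)) (hy1 : y1 = e m0 ((t + ε) • w))
    (hc : cost x0 y1 / (s + (t + ε)) = cost x0 m0 / s + cost m0 y1 / (t + ε))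
    (hsm : SmoothAt E x0 m0) (hξ : ξ ≠ 0) :
    0 < hess (fun b : TangentSpace 𝓘(ℝ, E) m0 =>
      cost x0 (e m0 b) / s + cost (e m0 b) y0 / t) 0 ξ ξ := by
  have hn : 0 ≤ ‖w‖ := norm_nonneg w
  have htε : 0 < t + ε := by linarith only [ht, hε]
  have hez : e m0 0 = m0 := he.map_zero m0
  -- smoothness of the three functions
  have hsmall' : ∀ r : ℝ, 0 ≤ r → r ≤ t + ε → ‖r • w‖ < ρ1 ∧ ‖r • w‖ < ρ3 := by
    intro r h0 hr
    rw [norm_smul, Real.norm_eq_abs, abs_of_nonneg h0]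
    have : r * ‖w‖ ≤ (t + ε) * ‖w‖ := mul_le_mul_of_nonneg_right hr hn
    exact ⟨this.trans_lt hs1, this.trans_lt hs3⟩
  have hdist : ∀ r r' : ℝ, 0 ≤ r → r ≤ r' → r' ≤ t + ε →
      dist (e m0 (r • w)) (e m0 (r' • w)) = (r' - r) * ‖w‖ := by
    intro r r' h0 hr hr'
    have := hmini m0 w r r' (by
      rw [abs_of_nonneg (sub_nonneg.2 hr)]
      nlinarith only [hs3, hn, h0, hr'])
    rw [this, abs_of_nonneg (sub_nonneg.2 hr), mul_comm]
  have hseg : ∀ r : ℝ, 0 ≤ r → r ≤ t + ε → r • w ∈ segMin e m0 := by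
    intro r h0 hr
    show dist _ _ = _
    have := hdist 0 r le_rfl h0 hr
    rw [zero_smul, hez] at this
    rw [this, norm_smul, Real.norm_eq_abs, abs_of_nonneg h0, sub_zero]
  have hsm0 : ∀ r r' : ℝ, 0 ≤ r → r ≤ r' → r' ≤ t + ε →
      SmoothAt E (e m0 (r • w)) (e m0 (r' • w)) := by
    intro r r' h0 hr hr'
    apply (hnear _ _ _).1
    rw [hdist r r' h0 hr hr']
    nlinarith only [hs1, hn, h0, hr']
  have hsmz : ∀ r : ℝ, 0 ≤ r → r ≤ t + ε → SmoothAt E m0 (e m0 (r • w)) := by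
    intro r h0 hr
    have := hsm0 0 r le_rfl h0 hr
    rwa [zero_smul, hez] at this
  have hcd : ∀ u : TangentSpace 𝓘(ℝ, E) m0, SmoothAt E m0 (e m0 u) →
      ContDiffAt ℝ 2 (fun b : TangentSpace 𝓘(ℝ, E) m0 => cost (e m0 b) (e m0 u)) 0 := by
    intro u hu
    have h1 : SmoothAt E (e m0 0) (e m0 u) := by rwa [hez]
    have h2 := SmoothAt.coord he h1
    have h3 : ContDiffAt ℝ ∞ (fun b : TangentSpace 𝓘(ℝ, E) m0 => (b, u)) 0 := by
      fun_prop
    have h4 := ContDiffAt.comp (0 : TangentSpace 𝓘(ℝ, E) m0) h2 h3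
    exact h4.of_le (WithTop.coe_le_coe.2 le_top)
  have hf1 := hcd ((-s) • w) (by rw [← hx0]; exact hsm.symm)
  have hf2 := hcd (t • w) (hsmz t ht.le (by linarith only [hε]))
  have hf3 := hcd ((t + ε) • w) (hsmz (t + ε) (by linarith only [ht, hε]) le_rfl)
  have hmul : ∀ (c : ℝ) {f : TangentSpace 𝓘(ℝ, E) m0 → ℝ}, ContDiffAt ℝ 2 f 0 →
      ContDiffAt ℝ 2 (fun b => c * f b) 0 := fun c f hf => contDiffAt_const.mul hf
  -- positivity with the longer piece
  have hG : 0 ≤ s⁻¹ * costHess e m0 ((-s) • w) ξ ξ +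
      (t + ε)⁻¹ * costHess e m0 ((t + ε) • w) ξ ξ := by
    have hmin : IsLocalMin (fun b : TangentSpace 𝓘(ℝ, E) m0 =>
        s⁻¹ * cost (e m0 b) (e m0 ((-s) • w)) +
          (t + ε)⁻¹ * cost (e m0 b) (e m0 ((t + ε) • w))) 0 := by
      apply Filter.Eventually.of_forall
      intro b
      have h1 := cost_ineq x0 (e m0 b) y1 hs htε
      show s⁻¹ * cost (e m0 0) (e m0 ((-s) • w)) +
          (t + ε)⁻¹ * cost (e m0 0) (e m0 ((t + ε) • w)) ≤ s⁻¹ * cost (e m0 b) (e m0 ((-s) • w)) +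
          (t + ε)⁻¹ * cost (e m0 b) (e m0 ((t + ε) • w))
      rw [hez, ← hx0, ← hy1, cost_comm m0 x0, cost_comm (e m0 b) x0]
      rw [hc] at h1
      simp only [div_eq_inv_mul] at h1
      exact h1
    have h1 := hess_nonneg_of_isLocalMin
      (ContDiffAt.add (hmul s⁻¹ hf1) (hmul (t + ε)⁻¹ hf3)) hmin ξ
    rw [hess_add (hmul s⁻¹ hf1) (hmul (t + ε)⁻¹ hf3), hess_const_mul hf1,
      hess_const_mul hf3] at h1
    exact h1
  have hstrict := costHess_strict he (w := w) ht (show t < t + ε by linarith only [hε])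
    (by
      have h1 : ∀ᶠ b in 𝓝 (t • w), ‖b‖ < ρ3 :=
        (continuous_norm.tendsto (t • w)).eventually_lt_const (hsmall' t ht.le (by linarith only [hε])).2
      filter_upwards [h1] with b hb
      have := hmini m0 b 0 1 (by simpa only [sub_zero, abs_one, mul_one] using hb.le)
      rw [zero_smul, one_smul, hez] at this
      show dist _ _ = _
      rw [this]; simp)
    (hseg (t + ε) (by linarith only [ht, hε]) le_rfl) (hsmz t ht.le (by linarith only [hε]))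
    (hsmz (t + ε) (by linarith only [ht, hε]) le_rfl) (hsm0 t (t + ε) ht.le (by linarith only [hε]) le_rfl) hξ
  have hfun : (fun b : TangentSpace 𝓘(ℝ, E) m0 =>
      cost x0 (e m0 b) / s + cost (e m0 b) y0 / t) =
      fun b => s⁻¹ * cost (e m0 b) (e m0 ((-s) • w)) + t⁻¹ * cost (e m0 b) (e m0 (t • w)) := by
    funext b
    rw [← hx0, ← hy0, cost_comm x0, div_eq_inv_mul, div_eq_inv_mul]
  rw [hfun, hess_add (hmul s⁻¹ hf1) (hmul t⁻¹ hf2), hess_const_mul hf1, hess_const_mul hf2]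
  have h5 : 0 < s⁻¹ * costHess e m0 ((-s) • w) ξ ξ + t⁻¹ * costHess e m0 (t • w) ξ ξ := by
    rw [div_eq_inv_mul, div_eq_inv_mul] at hstrict
    linarith only [hG, hstrict]
  exact h5

/-- Nondegeneracy of the interior point in the convexity inequality. -/
lemma mid_pos (he : IsExp e) : ∃ ρ > 0, ∀ (x : M) (v : TangentSpace 𝓘(ℝ, E) x),
    v ∈ segMin e x → ∀ p q t ε : ℝ, 0 ≤ p → p < q - t → 0 < t → 0 < ε → q + ε ≤ 1 →
    (t + ε) * ‖v‖ < ρ → SmoothAt E (e x (p • v)) (e x ((q - t) • v)) →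
    ∀ ξ : TangentSpace 𝓘(ℝ, E) (e x ((q - t) • v)), ξ ≠ 0 →
    0 < hess (fun b : TangentSpace 𝓘(ℝ, E) (e x ((q - t) • v)) =>
      cost (e x (p • v)) (e (e x ((q - t) • v)) b) / (q - t - p) +
        cost (e (e x ((q - t) • v)) b) (e x (q • v)) / t) 0 ξ ξ := by
  obtain ⟨ρ1, hρ1, hnear⟩ := exists_near he
  obtain ⟨ρ3, hρ3, hmini⟩ := he.minimizing
  refine ⟨min ρ1 ρ3, lt_min hρ1 hρ3, ?_⟩
  intro x v hv p q t ε hp hpq ht hε hqε hsmall hsm ξ hξ
  have hs1 : (t + ε) * ‖v‖ < ρ1 := hsmall.trans_le (min_le_left _ _)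
  have hs3 : (t + ε) * ‖v‖ < ρ3 := hsmall.trans_le (min_le_right _ _)
  obtain ⟨w, hwn, hwf⟩ := flow_of_isExp he x v (q - t)
  have hs : 0 < q - t - p := by linarith only [hpq]
  have htε : 0 < t + ε := by linarith only [ht, hε]
  refine mid_pos_aux he hnear hmini w ξ (y1 := e x ((q + ε) • v)) hs ht hε
    (by rw [hwn]; exact hs1) (by rw [hwn]; exact hs3) ?_ ?_ ?_ ?_ hsm hξ
  · rw [hwf]; congr 2; ring
  · rw [hwf]; congr 2; ring
  · rw [hwf]; congr 2; ring
  · rw [segMin_cost he hv hp (by linarith only [hpq, ht, hε]) (by linarith only [hqε]),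
      segMin_cost he hv hp (by linarith only [hpq]) (by linarith only [ht, hε, hqε]),
      segMin_cost he hv (by linarith only [hp, hpq]) (by linarith only [ht, hε]) (by linarith only [hqε])]
    have h1 : q + ε - p = (q - t - p) + (t + ε) := by ring
    have h2 : q + ε - (q - t) = t + ε := by ring
    rw [h1, h2]
    have h3 : 0 < (q - t - p) + (t + ε) := by linarith only [hpq, ht, hε]
    (clear * - hs ht hε; field_simp)

end

end Vale.Agent.P234
end
end

section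

section

/-! Foundation 4: smoothness of the cost inside the injectivity domain. -/

set_option maxSynthPendingDepth 3

open Bundle Manifold Set Filter
open scoped ContDiff Manifold Topology

namespace Vale.Agent.P234

noncomputable section

variable {E : Type*} [NormedAddCommGroup E] [NormedSpace ℝ E] [FiniteDimensional ℝ E]
  {M : Type*} [MetricSpace M] [ChartedSpace E M]
  [RiemannianBundle (fun x : M => TangentSpace 𝓘(ℝ, E) x)]
  [IsManifold 𝓘(ℝ, E) ∞ M]
  [IsContMDiffRiemannianBundle 𝓘(ℝ, E) ∞ E (fun x : M => TangentSpace 𝓘(ℝ, E) x)]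
  [CompactSpace M]
  {e : ∀ x : M, TangentSpace 𝓘(ℝ, E) x → M}

/-- Existence of intermediate points in cost form. -/
lemma exists_mid_of_isExp [IsRiemannianManifold 𝓘(ℝ, E) M] [ConnectedSpace M] (he : IsExp e)
    {s t : ℝ} (hs : 0 < s) (ht : 0 < t) (x y : M) :
    ∃ m : M, cost x y / (s + t) = cost x m / s + cost m y / t := by
  obtain ⟨v, hv, hd⟩ := hopfRinow_of_isExp he x y
  have hmin : v ∈ segMin e x := by
    show dist x (e x v) = ‖v‖
    rw [hv, hd]
  refine ⟨e x ((s / (s + t)) • v), ?_⟩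
  have h0 : (0 : ℝ) ≤ s / (s + t) := by (clear * - hs ht; positivity)
  have h1 : s / (s + t) ≤ 1 := by
    rw [div_le_one (by positivity)]; linarith only [ht]
  have hA := segMin_cost he hmin le_rfl h0 h1
  have hB := segMin_cost he hmin h0 h1 le_rfl
  have hC := segMin_cost he hmin le_rfl zero_le_one le_rfl
  simp only [zero_smul, one_smul, he.map_zero, hv, sub_zero] at hA hB hC
  rw [hA, hB, hC]
  field_simp
  ring

/-- Smoothness of the cost inside the injectivity domain. -/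
lemma smooth_of_isExp [IsRiemannianManifold 𝓘(ℝ, E) M] [ConnectedSpace M] (he : IsExp e)
    (x : M) (v : TangentSpace 𝓘(ℝ, E) x) (hv : v ∈ injDomain e x) : SmoothAt E x (e x v) := by
  obtain ⟨a, ha, haV⟩ := (mem_injDomain_iff he).1 hv
  obtain ⟨ρ₁, hρ₁, hnear⟩ := exists_near he
  obtain ⟨ρ₂, hρ₂, huniq⟩ := mid_unique he
  obtain ⟨ρ₃, hρ₃, hpos⟩ := mid_pos he
  set V : TangentSpace 𝓘(ℝ, E) x := a • v with hVdef
  set ρ := min ρ₁ (min ρ₂ ρ₃) with hρ
  have hρ0 : 0 < ρ := lt_min hρ₁ (lt_min hρ₂ hρ₃)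
  have hV0 : 0 ≤ ‖V‖ := norm_nonneg _
  obtain ⟨r, hr0, hr⟩ : ∃ r : ℝ, 0 < r ∧ 2 * r * ‖V‖ < ρ := by
    refine ⟨ρ / (4 * (‖V‖ + 1)), by (clear * - hρ₁ hρ₂ hρ₃; positivity), ?_⟩
    have : 2 * (ρ / (4 * (‖V‖ + 1))) * ‖V‖ = ρ * (‖V‖ / (2 * (‖V‖ + 1))) := by
      field_simp
      ring
    rw [this]
    have h2 : ‖V‖ / (2 * (‖V‖ + 1)) < 1 := by
      rw [div_lt_one (by positivity)]; linarith only [hV0]
    nlinarith only [hρ0, h2]
  -- small scale
  have hbase : ∀ p q : ℝ, 0 ≤ p → p ≤ q → q ≤ 1 → q - p ≤ r →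
      SmoothAt E (e x (p • V)) (e x (q • V)) := by
    intro p q hp hpq hq hr'
    refine (hnear _ _ ?_).1
    rw [segMin_dist he haV hp hpq hq]
    have h1 : (q - p) * ‖V‖ ≤ r * ‖V‖ := mul_le_mul_of_nonneg_right hr' hV0
    have h2 : r * ‖V‖ ≤ 2 * r * ‖V‖ := by nlinarith only [hV0, hr0]
    have h3 : ρ ≤ ρ₁ := min_le_left _ _
    linarith
  have hind : ∀ n : ℕ, ∀ p q : ℝ, 0 ≤ p → p ≤ q → q < 1 → q - p ≤ n * r →
      SmoothAt E (e x (p • V)) (e x (q • V)) := by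
    intro n
    induction n with
    | zero =>
      intro p q hp hpq hq hn
      refine hbase p q hp hpq hq.le ?_
      simp only [Nat.cast_zero, zero_mul] at hn
      linarith only [hr0, hn]
    | succ n ih =>
      intro p q hp hpq hq hn
      rcases le_or_gt (q - p) r with h | h
      · exact hbase p q hp hpq hq.le h
      set ε := min (1 - q) r with hε
      have hε0 : 0 < ε := lt_min (by linarith only [hq]) hr0
      have hε1 : q + ε ≤ 1 := by
        have : ε ≤ 1 - q := min_le_left _ _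
        linarith only [this]
      have hsc : (r + ε) * ‖V‖ < ρ := by
        have h1 : ε ≤ r := min_le_right _ _
        have h2 : (r + ε) * ‖V‖ ≤ (2 * r) * ‖V‖ :=
          mul_le_mul_of_nonneg_right (by linarith only [h1]) hV0
        linarith only [hr, h2]
      have hsm1 : SmoothAt E (e x (p • V)) (e x ((q - r) • V)) := by
        refine ih p (q - r) hp (by linarith only [h]) (by linarith only [hr0, hq]) ?_
        push_cast at hn
        linarith only [hn]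
      have hsm2 : SmoothAt E (e x ((q - r) • V)) (e x (q • V)) :=
        hbase (q - r) q (by linarith only [hp, h]) (by linarith only [hr0]) hq.le (by linarith only [])
      exact core_smooth he (s := q - r - p) (t := r) (by linarith only [h]) hr0 hsm1 hsm2
        (exists_mid_of_isExp he (by linarith only [h]) hr0)
        (huniq x V haV p q r ε hp (by linarith only [h]) hr0 hε0 hε1
          (lt_of_lt_of_le hsc ((min_le_right _ _).trans (min_le_left _ _))))
        (hpos x V haV p q r ε hp (by linarith only [h]) hr0 hε0 hε1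
          (lt_of_lt_of_le hsc ((min_le_right _ _).trans (min_le_right _ _))) hsm1)
  obtain ⟨n, hn⟩ := exists_nat_ge (1 / r)
  have ha0 : a ≠ 0 := by linarith only [ha]
  have hfin := hind n 0 (1 / a) le_rfl (by positivity)
    (by rw [div_lt_one (by linarith only [ha])]; exact ha) (by
      rw [div_le_iff₀ hr0] at hn
      have : 1 / a < 1 := by rw [div_lt_one (by linarith only [ha])]; exact ha
      linarith)
  rw [zero_smul, he.map_zero, hVdef, smul_smul, one_div, inv_mul_cancel₀ ha0, one_smul] at hfin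
  exact hfin

end

end Vale.Agent.P234
end
end

section

section

/-! Foundation 5: all the facts. -/

set_option maxSynthPendingDepth 3

open Bundle Manifold Set Filter
open scoped ContDiff Manifold Topology

namespace Vale.Agent.P234

noncomputable section

variable {E : Type*} [NormedAddCommGroup E] [NormedSpace ℝ E] [FiniteDimensional ℝ E]
  {M : Type*} [MetricSpace M] [ChartedSpace E M]
  [RiemannianBundle (fun x : M => TangentSpace 𝓘(ℝ, E) x)]
  [IsManifold 𝓘(ℝ, E) ∞ M]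
  [IsContMDiffRiemannianBundle 𝓘(ℝ, E) ∞ E (fun x : M => TangentSpace 𝓘(ℝ, E) x)]
  [CompactSpace M]
  {e : ∀ x : M, TangentSpace 𝓘(ℝ, E) x → M}

theorem facts_of_isExp [IsRiemannianManifold 𝓘(ℝ, E) M] [ConnectedSpace M] (he : IsExp e) :
    Facts e :=
  ⟨he, hopfRinow_of_isExp he, flow_of_isExp he, smooth_of_isExp he⟩

end

end Vale.Agent.P234
end
end

section

section

/-! The logarithm is minus the gradient of the cost. -/

set_option maxSynthPendingDepth 3
set_option linter.unusedSectionVars false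

open Bundle Manifold Set Filter
open scoped ContDiff Manifold Topology

namespace Vale.Agent.P234

noncomputable section

/-- A function with nonnegative values on the right of a zero has nonnegative derivative. -/
lemma exCanon_deriv_nonneg {φ : ℝ → ℝ} {a r : ℝ} (hr : 0 < r) (hd : HasDerivAt φ a 0)
    (h0 : φ 0 = 0) (h : ∀ t : ℝ, 0 < t → t < r → 0 ≤ φ t) : 0 ≤ a := by
  have h1 := hd.tendsto_slope_zero_right
  refine ge_of_tendsto h1 ?_
  have h2 : ∀ᶠ t : ℝ in 𝓝[>] 0, t < r := by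
    filter_upwards [Ioo_mem_nhdsGT hr] with t ht using ht.2
  filter_upwards [h2, self_mem_nhdsWithin] with t ht ht0
  have ht0 : 0 < t := ht0
  rw [zero_add, h0, sub_zero, smul_eq_mul]
  exact mul_nonneg (inv_nonneg.2 ht0.le) (h t ht0 ht)

/-- The derivative of a function given by a square on the right. -/
lemma exCanon_deriv_sq {g : ℝ → ℝ} {a c : ℝ} (hd : HasDerivAt g a 0)
    (h : ∀ t ∈ Icc (0 : ℝ) 1, g t = (1 - t) ^ 2 * c / 2) : a = -c := by
  have h1 : HasDerivWithinAt g a (Icc 0 1) 0 := hd.hasDerivWithinAt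
  have h2 : HasDerivAt (fun t : ℝ => (1 - t) ^ 2 * c / 2) (-c) 0 := by
    have h3 : HasDerivAt (fun t : ℝ => 1 - t) (-1) 0 := (hasDerivAt_id (0 : ℝ)).const_sub 1
    have h4 := ((h3.pow 2).mul_const c).div_const 2
    refine h4.congr_deriv ?_
    norm_num
    ring
  have h3 : HasDerivWithinAt g (-c) (Icc 0 1) 0 :=
    h2.hasDerivWithinAt.congr h (h 0 (left_mem_Icc.2 zero_le_one))
  exact UniqueDiffWithinAt.eq_deriv _ (uniqueDiffOn_Icc zero_lt_one 0
    (left_mem_Icc.2 zero_le_one)) h1 h3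

variable {E : Type*} [NormedAddCommGroup E] [NormedSpace ℝ E] [FiniteDimensional ℝ E]
  {M : Type*} [MetricSpace M] [ChartedSpace E M]
  [RiemannianBundle (fun x : M => TangentSpace 𝓘(ℝ, E) x)]
  [IsManifold 𝓘(ℝ, E) ∞ M]
  [IsContMDiffRiemannianBundle 𝓘(ℝ, E) ∞ E (fun x : M => TangentSpace 𝓘(ℝ, E) x)]

omit [FiniteDimensional ℝ E] [RiemannianBundle (fun x : M => TangentSpace 𝓘(ℝ, E) x)]
  [IsManifold 𝓘(ℝ, E) ∞ M]
  [IsContMDiffRiemannianBundle 𝓘(ℝ, E) ∞ E (fun x : M => TangentSpace 𝓘(ℝ, E) x)] in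
/-- The differential of a function vanishes at a minimum. -/
lemma exCanon_mfderiv_min {f : M → ℝ} {b : M} (hf : MDifferentiableAt 𝓘(ℝ, E) 𝓘(ℝ, ℝ) f b)
    (h : ∀ z : M, f b ≤ f z) (ξ : TangentSpace 𝓘(ℝ, E) b) :
    (mfderiv 𝓘(ℝ, E) 𝓘(ℝ, ℝ) f b : E →L[ℝ] ℝ) ξ = 0 := by
  have h1 : (mfderiv 𝓘(ℝ, E) 𝓘(ℝ, ℝ) f b : E →L[ℝ] ℝ) =
      fderiv ℝ (fun c : E => f ((chartAt E b).symm c)) (chartAt E b b) := by
    rw [hf.mfderiv]
    simp only [writtenInExtChartAt, extChartAt, OpenPartialHomeomorph.extend, modelWithCornersSelf_partialEquiv, PartialEquiv.trans_refl, OpenPartialHomeomorph.toFun_eq_coe, OpenPartialHomeomorph.coe_toPartialEquiv_symm, modelWithCornersSelf_coe, range_id, fderivWithin_univ]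
    rfl
  rw [h1]
  have h2 : IsLocalMin (fun c : E => f ((chartAt E b).symm c)) (chartAt E b b) := by
    refine Filter.Eventually.of_forall (fun c => ?_)
    simp only [(chartAt E b).left_inv (mem_chart_source E b)]
    exact h _
  rw [h2.fderiv_eq_zero]
  rfl

omit [FiniteDimensional ℝ E] [RiemannianBundle (fun x : M => TangentSpace 𝓘(ℝ, E) x)]
  [IsManifold 𝓘(ℝ, E) ∞ M]
  [IsContMDiffRiemannianBundle 𝓘(ℝ, E) ∞ E (fun x : M => TangentSpace 𝓘(ℝ, E) x)] in
lemma exCanon_mfderiv_congr {f : M → ℝ} {p q : M} (h : q = p) (w : E) :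
    (mfderiv 𝓘(ℝ, E) 𝓘(ℝ, ℝ) f q : E →L[ℝ] ℝ) w = (mfderiv 𝓘(ℝ, E) 𝓘(ℝ, ℝ) f p : E →L[ℝ] ℝ) w := by
  subst h
  rfl

omit [FiniteDimensional ℝ E]
  [IsContMDiffRiemannianBundle 𝓘(ℝ, E) ∞ E (fun x : M => TangentSpace 𝓘(ℝ, E) x)] in
/-- Derivative of the cost along a ray. -/
lemma exCanon_hasDerivAt {x y : M} {f : TangentSpace 𝓘(ℝ, E) x → M} (hf0 : f 0 = x)
    (hd : MDifferentiableAt 𝓘(ℝ, E) 𝓘(ℝ, ℝ) (fun z : M => cost z y) x)
    (hc : ∀ w : TangentSpace 𝓘(ℝ, E) x,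
      MDifferentiableAt 𝓘(ℝ, ℝ) 𝓘(ℝ, E) (fun t : ℝ => f (t • w)) 0)
    (hv : ∀ w : TangentSpace 𝓘(ℝ, E) x,
      mfderiv 𝓘(ℝ, ℝ) 𝓘(ℝ, E) (fun t : ℝ => f (t • w)) 0 (1 : ℝ) = w)
    (w : TangentSpace 𝓘(ℝ, E) x) :
    HasDerivAt (fun t : ℝ => cost (f (t • w)) y) (dfun (fun z : M => cost z y) x w) 0 := by
  have hp0 : f ((0 : ℝ) • w) = x := by rw [zero_smul, hf0]
  have hf : MDifferentiableAt 𝓘(ℝ, E) 𝓘(ℝ, ℝ) (fun z : M => cost z y) (f ((0 : ℝ) • w)) := by
    rw [hp0]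
    exact hd
  have h1 : mfderiv 𝓘(ℝ, ℝ) 𝓘(ℝ, ℝ) ((fun z : M => cost z y) ∘ fun t : ℝ => f (t • w))
      0 (1 : ℝ) = mfderiv 𝓘(ℝ, E) 𝓘(ℝ, ℝ) (fun z : M => cost z y) (f ((0 : ℝ) • w))
        (mfderiv 𝓘(ℝ, ℝ) 𝓘(ℝ, E) (fun t : ℝ => f (t • w)) 0 (1 : ℝ)) :=
    mfderiv_comp_apply (0 : ℝ) hf (hc w) 1
  have h2 : DifferentiableAt ℝ (fun t : ℝ => cost (f (t • w)) y) 0 :=
    mdifferentiableAt_iff_differentiableAt.1
      (MDifferentiableAt.comp (g := fun z : M => cost z y) (0 : ℝ) hf (hc w))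
  have h5 := congrArg (fun u => mfderiv 𝓘(ℝ, E) 𝓘(ℝ, ℝ) (fun z : M => cost z y)
    (f ((0 : ℝ) • w)) u) (hv w)
  have h6 := exCanon_mfderiv_congr (E := E) (f := fun z : M => cost z y) hp0 w
  have h7 : mfderiv 𝓘(ℝ, ℝ) 𝓘(ℝ, ℝ) ((fun z : M => cost z y) ∘ fun t : ℝ => f (t • w))
      0 (1 : ℝ) = dfun (fun z : M => cost z y) x w := (h1.trans h5).trans h6
  rw [mfderiv_eq_fderiv] at h7
  exact h2.hasDerivAt.congr_deriv h7

omit [FiniteDimensional ℝ E]
  [IsContMDiffRiemannianBundle 𝓘(ℝ, E) ∞ E (fun x : M => TangentSpace 𝓘(ℝ, E) x)] in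
/-- The gradient of the cost at one point. -/
lemma exCanon_grad_point {x y : M} {f : TangentSpace 𝓘(ℝ, E) x → M}
    {u : TangentSpace 𝓘(ℝ, E) x} {r : ℝ} (hr : 0 < r) (hf0 : f 0 = x)
    (hray : ∀ v : TangentSpace 𝓘(ℝ, E) x, ‖v‖ < r → dist x (f v) = ‖v‖)
    (hu : ∀ t ∈ Icc (0 : ℝ) 1, dist (f (t • u)) y = (1 - t) * ‖u‖)
    (hd : MDifferentiableAt 𝓘(ℝ, E) 𝓘(ℝ, ℝ) (fun z : M => cost z y) x)
    (hc : ∀ w : TangentSpace 𝓘(ℝ, E) x,
      MDifferentiableAt 𝓘(ℝ, ℝ) 𝓘(ℝ, E) (fun t : ℝ => f (t • w)) 0)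
    (hv : ∀ w : TangentSpace 𝓘(ℝ, E) x,
      mfderiv 𝓘(ℝ, ℝ) 𝓘(ℝ, E) (fun t : ℝ => f (t • w)) 0 (1 : ℝ) = w)
    (w : TangentSpace 𝓘(ℝ, E) x) :
    dfun (fun z : M => cost z y) x w = -(inner ℝ u w) := by
  have hxy : dist x y = ‖u‖ := by
    have := hu 0 (left_mem_Icc.2 zero_le_one)
    rwa [zero_smul, hf0, sub_zero, one_mul] at this
  have hder := exCanon_hasDerivAt hf0 hd hc hv
  -- the upper bound
  have hle : ∀ b : TangentSpace 𝓘(ℝ, E) x,
      dfun (fun z : M => cost z y) x b ≤ ‖u‖ * ‖b‖ := by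
    intro b
    have h1 : HasDerivAt (fun t : ℝ => (‖u‖ + t * ‖b‖) ^ 2 / 2 - cost (f (t • b)) y)
        (‖u‖ * ‖b‖ - dfun (fun z : M => cost z y) x b) 0 := by
      have h2 : HasDerivAt (fun t : ℝ => ‖u‖ + t * ‖b‖) ‖b‖ 0 := by
        have := ((hasDerivAt_id (0 : ℝ)).mul_const ‖b‖).const_add ‖u‖
        simpa using this
      have h3 := ((h2.pow 2).div_const 2).sub (hder b)
      refine h3.congr_deriv ?_
      simp only [Nat.cast_ofNat, zero_mul, add_zero, Nat.add_one_sub_one, pow_one, sub_left_inj]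
      ring
    have h2 := exCanon_deriv_nonneg (r := r / (‖b‖ + 1)) (by positivity) h1 ?_ ?_
    · linarith only [h2]
    · rw [zero_smul, hf0, zero_mul, add_zero, cost, hxy, sub_self]
    · intro t ht0 ht1
      have h4 : ‖t • b‖ = t * ‖b‖ := by
        rw [norm_smul, Real.norm_eq_abs, abs_of_pos ht0]
      have h5 : ‖t • b‖ < r := by
        rw [h4]
        rw [lt_div_iff₀ (by (clear * -; positivity))] at ht1
        nlinarith only [ht0, ht1]
      have h6 := hray _ h5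
      rw [h4] at h6
      have h7 : dist (f (t • b)) y ≤ ‖u‖ + t * ‖b‖ := by
        have h8 := dist_triangle (f (t • b)) x y
        rw [dist_comm (f (t • b)) x, h6, hxy] at h8
        linarith only [h8]
      have h8 := pow_le_pow_left₀ dist_nonneg h7 2
      rw [cost]
      linarith only [h8]
  -- the value at u
  have hval : dfun (fun z : M => cost z y) x u = -(‖u‖ ^ 2) := by
    refine exCanon_deriv_sq (hder u) (fun t ht => ?_)
    rw [cost, hu t ht]
    ring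
  set ℓ : TangentSpace 𝓘(ℝ, E) x →L[ℝ] ℝ :=
    mfderiv 𝓘(ℝ, E) 𝓘(ℝ, ℝ) (fun z : M => cost z y) x with hℓ
  have hℓd : ∀ b : TangentSpace 𝓘(ℝ, E) x, ℓ b = dfun (fun z : M => cost z y) x b := fun b => rfl
  have habs : ∀ b : TangentSpace 𝓘(ℝ, E) x, |ℓ b| ≤ ‖u‖ * ‖b‖ := by
    intro b
    rw [abs_le]
    constructor
    · have h1 := hle (-b)
      rw [← hℓd, map_neg, norm_neg] at h1
      linarith only [h1]
    · have h1 := hle b
      rwa [← hℓd] at h1
  rw [← hℓd] at hval ⊢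
  by_cases hu0 : u = 0
  · have h1 := habs w
    rw [hu0, norm_zero, zero_mul] at h1
    have h2 : ℓ w = 0 := abs_eq_zero.1 (le_antisymm h1 (abs_nonneg _))
    rw [h2, hu0, inner_zero_left, neg_zero]
  · have hun : 0 < ‖u‖ := norm_pos_iff.2 hu0
    have h1 := functional_eq_inner ((-(‖u‖⁻¹)) • ℓ) (fun b => ?_) (u := u) ?_ hu0 w
    · rw [smul_apply, smul_eq_mul] at h1
      field_simp at h1
      linarith only [h1]
    · rw [smul_apply, smul_eq_mul, abs_mul, abs_neg, abs_of_pos (inv_pos.2 hun)]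
      have h2 := habs b
      rw [inv_mul_le_iff₀ hun]
      exact h2
    · rw [smul_apply, smul_eq_mul, hval]
      (clear * - hu0; field_simp)

omit [FiniteDimensional ℝ E] [RiemannianBundle (fun x : M => TangentSpace 𝓘(ℝ, E) x)]
  [IsContMDiffRiemannianBundle 𝓘(ℝ, E) ∞ E (fun x : M => TangentSpace 𝓘(ℝ, E) x)] in
lemma exCanon_contMDiff_fiber (z : M) (w : TangentSpace 𝓘(ℝ, E) z) :
    ContMDiff 𝓘(ℝ, ℝ) (𝓘(ℝ, E).tangent) ∞
      (fun t : ℝ => (⟨z, t • w⟩ : TangentBundle 𝓘(ℝ, E) M)) := by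
  intro t
  rw [Bundle.contMDiffAt_totalSpace]
  refine ⟨contMDiffAt_const, ?_⟩
  have hz : z ∈ (trivializationAt E (TangentSpace 𝓘(ℝ, E)) z).baseSet :=
    FiberBundle.mem_baseSet_trivializationAt' z
  have h2 : ContMDiffAt 𝓘(ℝ, ℝ) 𝓘(ℝ, E) ∞ (fun s : ℝ => s •
      ((trivializationAt E (TangentSpace 𝓘(ℝ, E)) z).continuousLinearMapAt ℝ z w)) t :=
    (contDiff_id.smul contDiff_const).contMDiff.contMDiffAt
  refine h2.congr_of_eventuallyEq (Filter.Eventually.of_forall fun s => ?_)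
  have h3 := ((trivializationAt E (TangentSpace 𝓘(ℝ, E)) z).continuousLinearMapAt ℝ
    z).map_smul s w
  refine Eq.trans ?_ h3
  simp only [Trivialization.continuousLinearMapAt_apply,
    Trivialization.coe_linearMapAt_of_mem _ hz]

/-- The cost is differentiable near the diagonal. -/
lemma exCanon_mdiff {x₀ : M} {e₁ : ∀ x : M, TangentSpace 𝓘(ℝ, E) x → M}
    {L₁ : ∀ x : M, M → TangentSpace 𝓘(ℝ, E) x} (h : IsLocExp x₀ e₁ L₁) :
    ∀ᶠ q in 𝓝 ((x₀, x₀) : M × M),
      MDifferentiableAt 𝓘(ℝ, E) 𝓘(ℝ, ℝ) (fun z : M => cost z q.2) q.1 := by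
  filter_upwards [h.smooth_log, eventually_eventually_nhds.2 h.norm_log] with q h1 h2
  have h3 : ContMDiffAt 𝓘(ℝ, E) (𝓘(ℝ, E).prod 𝓘(ℝ, E)) ∞ (fun z : M => (z, q.2)) q.1 :=
    contMDiffAt_id.prodMk contMDiffAt_const
  have h4 : ContMDiffAt 𝓘(ℝ, E) 𝓘(ℝ, E).tangent ∞
      (fun z : M => (⟨z, L₁ z q.2⟩ : TangentBundle 𝓘(ℝ, E) M)) q.1 :=
    ContMDiffAt.comp (g := fun q : M × M => (⟨q.1, L₁ q.1 q.2⟩ : TangentBundle 𝓘(ℝ, E) M))
      q.1 h1 h3
  have h5 : ContMDiffAt 𝓘(ℝ, E) 𝓘(ℝ, ℝ) ∞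
      (fun z : M => inner ℝ (L₁ z q.2) (L₁ z q.2)) q.1 :=
    ContMDiffAt.inner_bundle h4 h4
  have h6 : ContMDiffAt 𝓘(ℝ, E) 𝓘(ℝ, ℝ) ∞
      (fun z : M => (1 / 2 : ℝ) * inner ℝ (L₁ z q.2) (L₁ z q.2)) q.1 :=
    (contMDiffAt_const (c := (1 / 2 : ℝ))).mul h5
  have h7 : (fun z : M => cost z q.2) =ᶠ[𝓝 q.1]
      (fun z : M => (1 / 2 : ℝ) * inner ℝ (L₁ z q.2) (L₁ z q.2)) := by
    have h8 : Tendsto (fun z : M => (z, q.2)) (𝓝 q.1) (𝓝 q) :=
      (continuous_id.prodMk continuous_const).tendsto q.1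
    filter_upwards [h8.eventually h2] with z hz
    rw [cost, ← hz, real_inner_self_eq_norm_sq]
    ring
  exact (h6.congr_of_eventuallyEq h7).mdifferentiableAt (by simp)

/-- The gradient of the cost near the diagonal. -/
theorem IsLocExp.grad {x₀ : M} {e₁ : ∀ x : M, TangentSpace 𝓘(ℝ, E) x → M}
    {L₁ : ∀ x : M, M → TangentSpace 𝓘(ℝ, E) x} (h : IsLocExp x₀ e₁ L₁) :
    ∀ᶠ q in 𝓝 ((x₀, x₀) : M × M),
      MDifferentiableAt 𝓘(ℝ, E) 𝓘(ℝ, ℝ) (fun z : M => cost z q.2) q.1 ∧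
      ∀ w : TangentSpace 𝓘(ℝ, E) q.1,
        dfun (fun z : M => cost z q.2) q.1 w = -(inner ℝ (L₁ q.1 q.2) w) := by
  obtain ⟨r, hr, hball⟩ := eventually_ball_bundle (h.smooth.and h.ray)
  have hfst : Tendsto (fun q : M × M => q.1) (𝓝 (x₀, x₀)) (𝓝 x₀) :=
    continuous_fst.tendsto (x₀, x₀)
  have hfst2 : Tendsto (fun q : M × M => (q.1, q.1)) (𝓝 (x₀, x₀)) (𝓝 (x₀, x₀)) :=
    (continuous_fst.prodMk continuous_fst).tendsto (x₀, x₀)
  have hd0 : ∀ᶠ q in 𝓝 ((x₀, x₀) : M × M), dist q.1 x₀ < r := by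
    have h1 : Tendsto (fun q : M × M => dist q.1 x₀) (𝓝 (x₀, x₀)) (𝓝 (dist x₀ x₀)) :=
      (continuous_fst.dist continuous_const).tendsto (x₀, x₀)
    rw [dist_self] at h1
    exact h1.eventually (gt_mem_nhds hr)
  have hd1 : ∀ᶠ q in 𝓝 ((x₀, x₀) : M × M), dist q.1 q.2 < r := by
    have h1 : Tendsto (fun q : M × M => dist q.1 q.2) (𝓝 (x₀, x₀)) (𝓝 (dist x₀ x₀)) :=
      continuous_dist.tendsto (x₀, x₀)
    rw [dist_self] at h1
    exact h1.eventually (gt_mem_nhds hr)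
  filter_upwards [exCanon_mdiff h, h.exp_log, h.norm_log, hfst2.eventually h.exp_log,
    hfst2.eventually h.norm_log, hfst.eventually h.velocity, hd0, hd1]
    with q hmd hexp hnorm hexp0 hnorm0 hvel hq0 hq1
  refine ⟨hmd, ?_⟩
  have hL0 : L₁ q.1 q.1 = 0 := by
    rw [dist_self] at hnorm0
    exact norm_eq_zero.1 hnorm0
  have hf0 : e₁ q.1 0 = q.1 := by
    rw [← hL0]
    exact hexp0
  refine exCanon_grad_point (f := e₁ q.1) hr hf0 ?_ ?_ hmd ?_ hvel
  · intro v hv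
    have h1 := (hball q.1 hq0 v hv).2 0 (left_mem_Icc.2 zero_le_one) 1
      (right_mem_Icc.2 zero_le_one)
    simp only [zero_smul, one_smul, hf0, sub_zero, abs_one, one_mul] at h1
    exact h1
  · intro t ht
    have h1 := (hball q.1 hq0 (L₁ q.1 q.2) (by rw [hnorm]; exact hq1)).2 t ht 1
      (right_mem_Icc.2 zero_le_one)
    simp only [one_smul, hexp] at h1
    rw [h1, abs_of_nonneg (by linarith only [ht.2])]
  · intro w
    have h1 := (hball q.1 hq0 0 (by rw [norm_zero]; exact hr)).1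
    have h2 := exCanon_contMDiff_fiber q.1 w 0
    have h3 : (⟨q.1, (0 : ℝ) • w⟩ : TangentBundle 𝓘(ℝ, E) M) = ⟨q.1, 0⟩ := by rw [zero_smul]
    rw [← h3] at h1
    exact (ContMDiffAt.comp (g := fun p : TangentBundle 𝓘(ℝ, E) M => e₁ p.proj p.snd)
      (0 : ℝ) h1 h2).mdifferentiableAt (by simp)

/-- No corner at a midpoint, from the gradient formula. -/
theorem corner_of_grad {a b c : M} {u w : TangentSpace 𝓘(ℝ, E) b}
    (hda : MDifferentiableAt 𝓘(ℝ, E) 𝓘(ℝ, ℝ) (fun z : M => cost z a) b)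
    (hdc : MDifferentiableAt 𝓘(ℝ, E) 𝓘(ℝ, ℝ) (fun z : M => cost z c) b)
    (ha : ∀ ξ : TangentSpace 𝓘(ℝ, E) b, dfun (fun z : M => cost z a) b ξ = -(inner ℝ u ξ))
    (hc : ∀ ξ : TangentSpace 𝓘(ℝ, E) b, dfun (fun z : M => cost z c) b ξ = -(inner ℝ w ξ))
    (h1 : dist b c = dist a b) (h2 : dist a c = 2 * dist a b) : w = -u := by
  have hd : MDifferentiableAt 𝓘(ℝ, E) 𝓘(ℝ, ℝ)
      ((fun z : M => cost z a) + fun z : M => cost z c) b := hda.add hdc
  have hmin : ∀ z : M, ((fun z : M => cost z a) + fun z : M => cost z c) b ≤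
      ((fun z : M => cost z a) + fun z : M => cost z c) z := by
    intro z
    have h3 := cost_ineq a z c one_pos one_pos
    rw [cost_comm a z, div_one, div_one] at h3
    have h4 : cost a c / (1 + 1) = cost b a + cost b c := by
      unfold cost
      rw [h1, h2, dist_comm b a]
      ring
    rw [h4] at h3
    exact h3
  have h5 : ∀ ξ : TangentSpace 𝓘(ℝ, E) b, inner ℝ (u + w) ξ = 0 := by
    intro ξ
    have h6 := exCanon_mfderiv_min hd hmin ξ
    have h7 : (mfderiv 𝓘(ℝ, E) 𝓘(ℝ, ℝ) ((fun z : M => cost z a) + fun z : M => cost z c) b :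
        E →L[ℝ] ℝ) ξ = dfun (fun z : M => cost z a) b ξ + dfun (fun z : M => cost z c) b ξ := by
      rw [mfderiv_add hda hdc]
      rfl
    rw [h6, ha ξ, hc ξ] at h7
    have haux : ∀ A B : ℝ, 0 = -A + -B → A + B = 0 := fun A B h => by linarith only [h]
    have h8 : inner ℝ u ξ + inner ℝ w ξ = 0 := haux _ _ h7
    exact (inner_add_left u w ξ).trans h8
  have h6 : u + w = 0 := by
    have := h5 (u + w)
    exact inner_self_eq_zero.1 this
  exact (eq_neg_of_add_eq_zero_right h6)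

end

end Vale.Agent.P234
end
end

section

section

/-! Gluing of the local exponential maps. -/

set_option maxSynthPendingDepth 3
set_option linter.unusedSectionVars false

open Bundle Manifold Set Filter
open scoped ContDiff Manifold Topology

namespace Vale.Agent.P234

noncomputable section

variable {E : Type*} [NormedAddCommGroup E] [NormedSpace ℝ E] [FiniteDimensional ℝ E]
  {M : Type*} [MetricSpace M] [ChartedSpace E M]
  [RiemannianBundle (fun x : M => TangentSpace 𝓘(ℝ, E) x)]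
  [IsManifold 𝓘(ℝ, E) ∞ M]
  [IsContMDiffRiemannianBundle 𝓘(ℝ, E) ∞ E (fun x : M => TangentSpace 𝓘(ℝ, E) x)]

/-- A local exponential map on explicit balls. -/
structure BallExp (x₀ : M) (r : ℝ) (e₁ : ∀ x : M, TangentSpace 𝓘(ℝ, E) x → M)
    (L₁ : ∀ x : M, M → TangentSpace 𝓘(ℝ, E) x) : Prop where
  pos : 0 < r
  smooth : ∀ p : TangentBundle 𝓘(ℝ, E) M, dist p.proj x₀ < r → ‖p.snd‖ < r →
    ContMDiffAt 𝓘(ℝ, E).tangent 𝓘(ℝ, E) ∞
      (fun p : TangentBundle 𝓘(ℝ, E) M => e₁ p.proj p.snd) p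
  smooth_log : ∀ x y : M, dist x x₀ < r → dist y x₀ < r →
    ContMDiffAt (𝓘(ℝ, E).prod 𝓘(ℝ, E)) 𝓘(ℝ, E).tangent ∞
      (fun q : M × M => (⟨q.1, L₁ q.1 q.2⟩ : TangentBundle 𝓘(ℝ, E) M)) (x, y)
  exp_log : ∀ x y : M, dist x x₀ < r → dist y x₀ < r → e₁ x (L₁ x y) = y
  norm_log : ∀ x y : M, dist x x₀ < r → dist y x₀ < r → ‖L₁ x y‖ = dist x y
  log_exp : ∀ (x : M) (v : TangentSpace 𝓘(ℝ, E) x), dist x x₀ < r → ‖v‖ < r →
    L₁ x (e₁ x v) = v
  ray : ∀ (x : M) (v : TangentSpace 𝓘(ℝ, E) x), dist x x₀ < r → ‖v‖ < r →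
    ∀ s ∈ Icc (0 : ℝ) 1, ∀ t ∈ Icc (0 : ℝ) 1, dist (e₁ x (s • v)) (e₁ x (t • v)) = |t - s| * ‖v‖
  velocity : ∀ (x : M) (v : TangentSpace 𝓘(ℝ, E) x), dist x x₀ < r →
    mfderiv 𝓘(ℝ, ℝ) 𝓘(ℝ, E) (fun t : ℝ => e₁ x (t • v)) 0 (1 : ℝ) = v
  diff : ∀ x y : M, dist x x₀ < r → dist y x₀ < r →
    MDifferentiableAt 𝓘(ℝ, E) 𝓘(ℝ, ℝ) (fun z : M => cost z y) x
  grad : ∀ x y : M, dist x x₀ < r → dist y x₀ < r → ∀ w : TangentSpace 𝓘(ℝ, E) x,
    dfun (fun z : M => cost z y) x w = -(inner ℝ (L₁ x y) w)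

theorem IsLocExp.exists_ball {x₀ : M} {e₁ : ∀ x : M, TangentSpace 𝓘(ℝ, E) x → M}
    {L₁ : ∀ x : M, M → TangentSpace 𝓘(ℝ, E) x} (h : IsLocExp x₀ e₁ L₁) :
    ∃ r : ℝ, BallExp x₀ r e₁ L₁ := by
  obtain ⟨r1, hr1, H1⟩ := eventually_ball_bundle (h.smooth.and (h.log_exp.and h.ray))
  obtain ⟨r2, hr2, H2⟩ := Metric.eventually_nhds_iff.1
    (h.smooth_log.and (h.exp_log.and (h.norm_log.and h.grad)))
  obtain ⟨r3, hr3, H3⟩ := Metric.eventually_nhds_iff.1 h.velocity
  have hpair : ∀ x y : M, dist x x₀ < min r1 (min r2 r3) → dist y x₀ < min r1 (min r2 r3) →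
      dist ((x, y) : M × M) (x₀, x₀) < r2 := by
    intro x y hx hy
    rw [Prod.dist_eq]
    exact max_lt (hx.trans_le ((min_le_right _ _).trans (min_le_left _ _)))
      (hy.trans_le ((min_le_right _ _).trans (min_le_left _ _)))
  have hb : ∀ {a : ℝ}, a < min r1 (min r2 r3) → a < r1 := fun ha => ha.trans_le (min_le_left _ _)
  refine ⟨min r1 (min r2 r3), lt_min hr1 (lt_min hr2 hr3), ?_, ?_, ?_, ?_, ?_, ?_, ?_, ?_, ?_⟩
  · intro p hp hv
    exact (H1 p.proj (hb hp) p.snd (hb hv)).1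
  · intro x y hx hy
    exact (H2 (hpair x y hx hy)).1
  · intro x y hx hy
    exact (H2 (hpair x y hx hy)).2.1
  · intro x y hx hy
    exact (H2 (hpair x y hx hy)).2.2.1
  · intro x v hx hv
    exact (H1 x (hb hx) v (hb hv)).2.1
  · intro x v hx hv
    exact (H1 x (hb hx) v (hb hv)).2.2
  · intro x v hx
    exact H3 (hx.trans_le ((min_le_right _ _).trans (min_le_right _ _))) v
  · intro x y hx hy
    exact (H2 (hpair x y hx hy)).2.2.2.1
  · intro x y hx hy
    exact (H2 (hpair x y hx hy)).2.2.2.2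

theorem BallExp.exp_zero {x₀ : M} {r : ℝ} {e₁ : ∀ x : M, TangentSpace 𝓘(ℝ, E) x → M}
    {L₁ : ∀ x : M, M → TangentSpace 𝓘(ℝ, E) x} (h : BallExp x₀ r e₁ L₁) {x : M}
    (hx : dist x x₀ < r) : e₁ x 0 = x := by
  have h1 := h.norm_log x x hx hx
  rw [dist_self, norm_eq_zero] at h1
  have h2 := h.exp_log x x hx hx
  rwa [h1] at h2

theorem BallExp.dist_exp {x₀ : M} {r : ℝ} {e₁ : ∀ x : M, TangentSpace 𝓘(ℝ, E) x → M}
    {L₁ : ∀ x : M, M → TangentSpace 𝓘(ℝ, E) x} (h : BallExp x₀ r e₁ L₁) {x : M}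
    (hx : dist x x₀ < r) {v : TangentSpace 𝓘(ℝ, E) x} (hv : ‖v‖ < r) :
    dist x (e₁ x v) = ‖v‖ := by
  have h1 := h.ray x v hx hv 0 ⟨le_refl _, zero_le_one⟩ 1 ⟨zero_le_one, le_refl _⟩
  rw [zero_smul, one_smul, h.exp_zero hx, sub_zero, abs_one, one_mul] at h1
  exact h1

/-- The logarithms of two local exponential maps agree. -/
theorem BallExp.log_unique {x₀ x₁ : M} {r₀ r₁ : ℝ} {e₁ e₂ : ∀ x : M, TangentSpace 𝓘(ℝ, E) x → M}
    {L₁ L₂ : ∀ x : M, M → TangentSpace 𝓘(ℝ, E) x} (h₁ : BallExp x₀ r₀ e₁ L₁)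
    (h₂ : BallExp x₁ r₁ e₂ L₂) {x y : M} (hx : dist x x₀ < r₀) (hy : dist y x₀ < r₀)
    (hx' : dist x x₁ < r₁) (hy' : dist y x₁ < r₁) : L₁ x y = L₂ x y := by
  refine ext_inner_right ℝ fun w => ?_
  have h3 := h₁.grad x y hx hy w
  have h4 := h₂.grad x y hx' hy' w
  exact neg_injective (h3.symm.trans h4)

lemma exGlue_contMDiff_normSq : ContMDiff (𝓘(ℝ, E).tangent) 𝓘(ℝ, ℝ) ∞
    (fun p : TangentBundle 𝓘(ℝ, E) M => inner ℝ p.snd p.snd) := by
  have h : ContMDiff (𝓘(ℝ, E).tangent) (𝓘(ℝ, E).prod 𝓘(ℝ, E)) ∞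
      (fun p : TangentBundle 𝓘(ℝ, E) M => (⟨p.proj, p.snd⟩ : TangentBundle 𝓘(ℝ, E) M)) :=
    contMDiff_id
  exact ContMDiff.inner_bundle h h

lemma exGlue_continuous_norm : Continuous (fun p : TangentBundle 𝓘(ℝ, E) M => ‖p.snd‖) := by
  have h : Continuous (fun p : TangentBundle 𝓘(ℝ, E) M => Real.sqrt (inner ℝ p.snd p.snd)) :=
    Real.continuous_sqrt.comp exGlue_contMDiff_normSq.continuous
  refine h.congr (fun p => ?_)
  rw [real_inner_self_eq_norm_sq, Real.sqrt_sq (norm_nonneg _)]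

/-- Gluing by compactness. -/
theorem exists_nearExp [CompactSpace M] [Nonempty M]
    (h : ∀ x₀ : M, ∃ (e₁ : ∀ x : M, TangentSpace 𝓘(ℝ, E) x → M)
      (L₁ : ∀ x : M, M → TangentSpace 𝓘(ℝ, E) x), IsLocExp x₀ e₁ L₁) :
    ∃ (ε : ℝ) (e₀ : ∀ x : M, TangentSpace 𝓘(ℝ, E) x → M)
      (L : ∀ x : M, M → TangentSpace 𝓘(ℝ, E) x), NearExp ε e₀ L := by
  classical
  choose e L hloc using h
  choose r hB using fun x₀ => (hloc x₀).exists_ball
  obtain ⟨t, -, ht⟩ := isCompact_univ.elim_nhds_subcover (fun x => Metric.ball x (r x / 2))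
    (fun x _ => Metric.ball_mem_nhds x (half_pos (hB x).pos))
  have hcov : ∀ x : M, ∃ c ∈ t, dist x c < r c / 2 := by
    intro x
    obtain ⟨c, hc, hxc⟩ := mem_iUnion₂.1 (ht (mem_univ x))
    exact ⟨c, hc, hxc⟩
  have htne : t.Nonempty := by
    obtain ⟨x⟩ := (inferInstance : Nonempty M)
    obtain ⟨c, hc, -⟩ := hcov x
    exact ⟨c, hc⟩
  obtain ⟨x1, hx1, hmin⟩ := t.exists_min_image (fun x => r x / 2) htne
  choose c hct hc using hcov
  set δ : ℝ := r x1 / 2 with hδ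
  have hδpos : 0 < δ := half_pos (hB x1).pos
  have hδle : ∀ x : M, δ ≤ r (c x) / 2 := fun x => hmin (c x) (hct x)
  have hrpos : ∀ x : M, 0 < r (c x) := fun x => (hB (c x)).pos
  have hcx : ∀ x : M, dist x (c x) < r (c x) := fun x => (hc x).trans (half_lt_self (hrpos x))
  have hcy : ∀ x y : M, dist x y < δ → dist y (c x) < r (c x) := by
    intro x y hxy
    have h1 := dist_triangle y x (c x)
    rw [dist_comm y x] at h1
    have h2 := hc x
    have h3 := hδle x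
    linarith only [hxy, h1, h2, h3]
  have hlt : ∀ (x : M) {a : ℝ}, a < δ → a < r (c x) := by
    intro x a ha
    have h1 := hδle x
    have h2 := hrpos x
    linarith only [hδpos, ha, h1]
  -- independence of the centre
  have hL : ∀ x x' y' : M, dist x' (c x) < r (c x) → dist y' (c x) < r (c x) → dist x' y' < δ →
      L (c x') x' y' = L (c x) x' y' := by
    intro x x' y' h1 h2 h3
    exact (hB (c x')).log_unique (hB (c x)) (hcx x') (hcy x' y' h3) h1 h2
  have hE : ∀ (x x' : M) (v' : TangentSpace 𝓘(ℝ, E) x'), dist x' (c x) < r (c x) →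
      ‖v'‖ < δ → ‖v'‖ + dist x' (c x) < r (c x) → e (c x') x' v' = e (c x) x' v' := by
    intro x x' v' h1 h2 h3
    have h4 : ‖v'‖ < r (c x) := hlt x h2
    have h5 : dist x' (e (c x) x' v') = ‖v'‖ := (hB (c x)).dist_exp h1 h4
    have h6 : dist x' (e (c x) x' v') < δ := by rw [h5]; exact h2
    have h7 : dist (e (c x) x' v') (c x) < r (c x) := by
      have := dist_triangle (e (c x) x' v') x' (c x)
      rw [dist_comm (e (c x) x' v') x', h5] at this
      linarith only [h3, this]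
    have h8 := hL x x' _ h1 h7 h6
    rw [(hB (c x)).log_exp x' v' h1 h4] at h8
    have h9 := (hB (c x')).exp_log x' (e (c x) x' v') (hcx x') (hcy x' _ h6)
    rw [h8] at h9
    exact h9
  refine ⟨δ, fun x v => e (c x) x v, fun x y => L (c x) x y, hδpos, ?_, ?_, ?_, ?_, ?_, ?_, ?_, ?_⟩
  · -- smoothness
    intro p hp
    have h1 := (hB (c p.proj)).smooth p (hcx p.proj) (hlt p.proj hp)
    refine h1.congr_of_eventuallyEq ?_
    have hproj : Continuous (fun p' : TangentBundle 𝓘(ℝ, E) M => p'.proj) :=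
      FiberBundle.continuous_proj E (TangentSpace 𝓘(ℝ, E))
    have hn : Continuous (fun p' : TangentBundle 𝓘(ℝ, E) M => ‖p'.snd‖) := exGlue_continuous_norm
    have hd : Continuous (fun p' : TangentBundle 𝓘(ℝ, E) M => dist p'.proj (c p.proj)) :=
      hproj.dist continuous_const
    have e1 : ∀ᶠ p' in 𝓝 p, ‖p'.snd‖ < δ := (hn.tendsto p).eventually (gt_mem_nhds hp)
    have e2 : ∀ᶠ p' : TangentBundle 𝓘(ℝ, E) M in 𝓝 p, dist p'.proj (c p.proj) < r (c p.proj) :=
      (hd.tendsto p).eventually (gt_mem_nhds (hcx p.proj))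
    have e3 : ∀ᶠ p' : TangentBundle 𝓘(ℝ, E) M in 𝓝 p,
        ‖p'.snd‖ + dist p'.proj (c p.proj) < r (c p.proj) := by
      have hs : Continuous (fun p' : TangentBundle 𝓘(ℝ, E) M =>
          ‖p'.snd‖ + dist p'.proj (c p.proj)) := hn.add hd
      refine (hs.tendsto p).eventually (gt_mem_nhds ?_)
      have a1 := hc p.proj
      have a2 := hδle p.proj
      linarith only [hp, a1, a2]
    filter_upwards [e1, e2, e3] with p' h1 h2 h3
    exact hE p.proj p'.proj p'.snd h2 h1 h3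
  · -- smoothness of the logarithm
    intro x y hxy
    have h1 := (hB (c x)).smooth_log x y (hcx x) (hcy x y hxy)
    refine h1.congr_of_eventuallyEq ?_
    have c1 : Continuous (fun q : M × M => dist q.1 q.2) := continuous_fst.dist continuous_snd
    have c2 : Continuous (fun q : M × M => dist q.1 (c x)) := continuous_fst.dist continuous_const
    have c3 : Continuous (fun q : M × M => dist q.2 (c x)) := continuous_snd.dist continuous_const
    have e1 : ∀ᶠ q : M × M in 𝓝 (x, y), dist q.1 q.2 < δ :=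
      (c1.tendsto (x, y)).eventually (gt_mem_nhds hxy)
    have e2 : ∀ᶠ q : M × M in 𝓝 (x, y), dist q.1 (c x) < r (c x) :=
      (c2.tendsto (x, y)).eventually (gt_mem_nhds (hcx x))
    have e3 : ∀ᶠ q : M × M in 𝓝 (x, y), dist q.2 (c x) < r (c x) :=
      (c3.tendsto (x, y)).eventually (gt_mem_nhds (hcy x y hxy))
    filter_upwards [e1, e2, e3] with q h1 h2 h3
    have := hL x q.1 q.2 h2 h3 h1
    simp only [this]
  · intro x y hxy
    exact (hB (c x)).exp_log x y (hcx x) (hcy x y hxy)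
  · intro x y hxy
    exact (hB (c x)).norm_log x y (hcx x) (hcy x y hxy)
  · intro x v hv
    exact (hB (c x)).log_exp x v (hcx x) (hlt x hv)
  · intro x v hv
    exact (hB (c x)).ray x v (hcx x) (hlt x hv)
  · intro x v
    exact (hB (c x)).velocity x v (hcx x)
  · intro a b c' h1 h2 h3
    have ha : dist b a < δ := by
      rw [dist_comm]
      have : 0 ≤ dist a b := dist_nonneg
      linarith only [hδpos, h2, h3]
    have hc' : dist b c' < δ := by
      rw [h1, dist_comm a b]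
      exact ha
    exact corner_of_grad ((hB (c b)).diff b a (hcx b) (hcy b a ha))
      ((hB (c b)).diff b c' (hcx b) (hcy b c' hc'))
      (fun ξ => (hB (c b)).grad b a (hcx b) (hcy b a ha) ξ)
      (fun ξ => (hB (c b)).grad b c' (hcx b) (hcy b c' hc') ξ) h1 h2

end

end Vale.Agent.P234
end
end

section

section

/-! Existence of the exponential map. -/

set_option maxSynthPendingDepth 3
set_option linter.unusedSectionVars false

open Bundle Manifold Set Filter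
open scoped ContDiff Manifold Topology

namespace Vale.Agent.P234

noncomputable section

variable {E : Type*} [NormedAddCommGroup E] [NormedSpace ℝ E] [FiniteDimensional ℝ E]
  {M : Type*} [MetricSpace M] [ChartedSpace E M]
  [RiemannianBundle (fun x : M => TangentSpace 𝓘(ℝ, E) x)]
  [IsManifold 𝓘(ℝ, E) ∞ M]
  [IsContMDiffRiemannianBundle 𝓘(ℝ, E) ∞ E (fun x : M => TangentSpace 𝓘(ℝ, E) x)]
  {ε : ℝ} {e₀ : ∀ x : M, TangentSpace 𝓘(ℝ, E) x → M}
  {L : ∀ x : M, M → TangentSpace 𝓘(ℝ, E) x}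

/-- The number of steps for a vector of norm `r`. -/
def nst (ε r : ℝ) : ℕ := ⌊3 * r / ε⌋₊ + 1

/-- The exponential map obtained from a near exponential map by chains. -/
def gexp (ε : ℝ) (e₀ : ∀ x : M, TangentSpace 𝓘(ℝ, E) x → M)
    (L : ∀ x : M, M → TangentSpace 𝓘(ℝ, E) x) (x : M) (v : TangentSpace 𝓘(ℝ, E) x) : M :=
  chn e₀ L x ((1 / (nst ε ‖v‖ : ℝ)) • v) (nst ε ‖v‖)

lemma one_le_nst (ε r : ℝ) : 1 ≤ nst ε r := by
  unfold nst; omega

lemma lt_nst {ε r : ℝ} (hε : 0 < ε) (hr : 0 ≤ r) : 2 * r < ε * nst ε r := by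
  have h1 : 3 * r / ε < (⌊3 * r / ε⌋₊ : ℝ) + 1 := Nat.lt_floor_add_one _
  rw [div_lt_iff₀ hε] at h1
  unfold nst
  push_cast
  linarith

/-- The exponential map is given by any fine enough chain. -/
lemma NearExp.gexp_eq (h : NearExp ε e₀ L) {x : M} (v : TangentSpace 𝓘(ℝ, E) x) {N : ℕ}
    (hN : 1 ≤ N) (h1 : 2 * ‖v‖ < ε * N) :
    gexp ε e₀ L x v = chn e₀ L x ((1 / (N : ℝ)) • v) N :=
  h.chn_indep v (one_le_nst _ _) hN (lt_nst h.pos (norm_nonneg _)) h1

lemma continuous_normTM : Continuous (fun p : TangentBundle 𝓘(ℝ, E) M => ‖p.snd‖) := by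
  have h0 : ContMDiff (𝓘(ℝ, E).tangent) 𝓘(ℝ, ℝ) ∞
      (fun p : TangentBundle 𝓘(ℝ, E) M => inner ℝ p.snd p.snd) := by
    have h : ContMDiff (𝓘(ℝ, E).tangent) (𝓘(ℝ, E).prod 𝓘(ℝ, E)) ∞
        (fun p : TangentBundle 𝓘(ℝ, E) M => (⟨p.proj, p.snd⟩ : TangentBundle 𝓘(ℝ, E) M)) :=
      contMDiff_id
    exact ContMDiff.inner_bundle h h
  have h : Continuous (fun p : TangentBundle 𝓘(ℝ, E) M => Real.sqrt (inner ℝ p.snd p.snd)) :=
    Real.continuous_sqrt.comp h0.continuous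
  refine h.congr (fun p => ?_)
  rw [real_inner_self_eq_norm_sq, Real.sqrt_sq (norm_nonneg _)]

/-- Scaling of the tangent bundle is smooth. -/
lemma contMDiff_scale (c : ℝ) : ContMDiff 𝓘(ℝ, E).tangent 𝓘(ℝ, E).tangent ∞
    (fun p : TangentBundle 𝓘(ℝ, E) M => (⟨p.proj, c • p.snd⟩ : TangentBundle 𝓘(ℝ, E) M)) := by
  intro p₀
  have hid : ContMDiffAt 𝓘(ℝ, E).tangent 𝓘(ℝ, E).tangent ∞
    (fun p : TangentBundle 𝓘(ℝ, E) M => p) p₀ := contMDiffAt_id
  rw [contMDiffAt_totalSpace] at hid ⊢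
  refine ⟨hid.1, ?_⟩
  have h2 := (contDiff_const_smul (𝕜 := ℝ) (F := E) (n := ∞) c).contMDiff.contMDiffAt.comp p₀ hid.2
  refine h2.congr_of_eventuallyEq ?_
  have hb : ∀ᶠ p in 𝓝 p₀, p.proj ∈
      (trivializationAt E (fun x : M => TangentSpace 𝓘(ℝ, E) x) p₀.proj).baseSet := by
    have hc : Continuous (fun p : TangentBundle 𝓘(ℝ, E) M => p.proj) :=
      FiberBundle.continuous_proj E (fun x : M => TangentSpace 𝓘(ℝ, E) x)
    exact hc.continuousAt.eventually_mem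
      ((trivializationAt E (fun x : M => TangentSpace 𝓘(ℝ, E) x) p₀.proj).open_baseSet.mem_nhds
        (mem_baseSet_trivializationAt E (fun x : M => TangentSpace 𝓘(ℝ, E) x) p₀.proj))
  filter_upwards [hb] with p hp
  simp only [Function.comp_apply]
  have := ((trivializationAt E (fun x : M => TangentSpace 𝓘(ℝ, E) x) p₀.proj).linear ℝ hp).map_smul
    c p.snd
  exact this

lemma NearExp.gexp_smooth (h : NearExp ε e₀ L) :
    ContMDiff 𝓘(ℝ, E).tangent 𝓘(ℝ, E) ∞
      (fun p : TangentBundle 𝓘(ℝ, E) M => gexp ε e₀ L p.proj p.snd) := by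
  intro p
  set N := nst ε ‖p.snd‖ with hN
  have hN1 : 1 ≤ N := one_le_nst _ _
  have hN0 : (0 : ℝ) < N := by exact_mod_cast hN1
  have hlt : 2 * ‖p.snd‖ < ε * N := lt_nst h.pos (norm_nonneg _)
  have h1 : ∀ᶠ q in 𝓝 p, 2 * ‖q.snd‖ < ε * N := by
    have hc : Continuous (fun q : TangentBundle 𝓘(ℝ, E) M => 2 * ‖q.snd‖) :=
      continuous_const.mul continuous_normTM
    exact hc.continuousAt.eventually_lt continuousAt_const hlt
  have h2 : ContMDiffAt 𝓘(ℝ, E).tangent 𝓘(ℝ, E) ∞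
      (fun q : TangentBundle 𝓘(ℝ, E) M => chn e₀ L q.proj ((1 / (N : ℝ)) • q.snd) N) p := by
    have h3 := h.contMDiffAt_chn N (p := (⟨p.proj, (1 / (N : ℝ)) • p.snd⟩ :
      TangentBundle 𝓘(ℝ, E) M)) (by
        change ‖(1 / (N : ℝ)) • p.snd‖ < ε
        rw [norm_smul, Real.norm_eq_abs, abs_of_pos (by positivity), one_div,
          inv_mul_lt_iff₀ hN0]
        nlinarith only [hlt, norm_nonneg p.snd])
    exact ContMDiffAt.comp (I' := 𝓘(ℝ, E).tangent)
      (g := fun q : TangentBundle 𝓘(ℝ, E) M => chn e₀ L q.proj q.snd N)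
      (f := fun q : TangentBundle 𝓘(ℝ, E) M =>
        (⟨q.proj, (1 / (N : ℝ)) • q.snd⟩ : TangentBundle 𝓘(ℝ, E) M)) p h3
      (contMDiff_scale (1 / (N : ℝ)) p)
  refine h2.congr_of_eventuallyEq ?_
  filter_upwards [h1] with q hq
  exact h.gexp_eq q.snd hN1 hq

lemma continuous_rayTM (x : M) (v : TangentSpace 𝓘(ℝ, E) x) :
    Continuous (fun t : ℝ => (⟨x, t • v⟩ : TangentBundle 𝓘(ℝ, E) M)) := by
  rw [continuous_iff_continuousAt]
  intro t
  rw [FiberBundle.continuousAt_totalSpace]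
  refine ⟨continuousAt_const, ?_⟩
  have hx : x ∈ (trivializationAt E (TangentSpace 𝓘(ℝ, E)) x).baseSet :=
    FiberBundle.mem_baseSet_trivializationAt' x
  have h1 : ∀ r : ℝ, (trivializationAt E (TangentSpace 𝓘(ℝ, E)) x
      (⟨x, r • v⟩ : TangentBundle 𝓘(ℝ, E) M)).2 =
      r • (trivializationAt E (TangentSpace 𝓘(ℝ, E)) x (⟨x, v⟩ : TangentBundle 𝓘(ℝ, E) M)).2 :=
    fun r => ((trivializationAt E (TangentSpace 𝓘(ℝ, E)) x).linear ℝ hx).map_smul r v
  have h2 : Continuous (fun r : ℝ =>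
      r • (trivializationAt E (TangentSpace 𝓘(ℝ, E)) x (⟨x, v⟩ : TangentBundle 𝓘(ℝ, E) M)).2) :=
    continuous_id.smul continuous_const
  exact (h2.congr (fun r => (h1 r).symm)).continuousAt

lemma NearExp.continuous_gexp_ray (h : NearExp ε e₀ L) (x : M) (v : TangentSpace 𝓘(ℝ, E) x) :
    Continuous (fun t : ℝ => gexp ε e₀ L x (t • v)) := by
  have h1 := h.gexp_smooth.continuous
  exact Continuous.comp (g := fun p : TangentBundle 𝓘(ℝ, E) M => gexp ε e₀ L p.proj p.snd)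
    (f := fun t : ℝ => (⟨x, t • v⟩ : TangentBundle 𝓘(ℝ, E) M)) h1 (continuous_rayTM x v)

/-- Rational times are chain points. -/
lemma NearExp.gexp_rat (h : NearExp ε e₀ L) {x : M} (v : TangentSpace 𝓘(ℝ, E) x) {N : ℕ}
    (hN : 1 ≤ N) (h1 : 2 * ‖v‖ < ε * N) (k : ℕ) :
    gexp ε e₀ L x (((k : ℝ) / N) • v) = chn e₀ L x ((1 / (N : ℝ)) • v) k := by
  have hN0 : (0 : ℝ) < N := by exact_mod_cast hN
  rcases Nat.eq_zero_or_pos k with rfl | hk
  · rw [chn_zero]
    have h2 := h.gexp_eq ((((0 : ℕ) : ℝ) / N) • v) (N := 1) le_rfl (by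
      simp only [CharP.cast_eq_zero, zero_div, zero_smul, norm_zero, mul_zero, Nat.cast_one, mul_one, h.pos])
    rw [h2, chn_one]
    simp only [Nat.cast_one, ne_eq, one_ne_zero, not_false_eq_true, div_self, CharP.cast_eq_zero, zero_div, zero_smul, smul_zero, h.exp_zero]
  · have hk0 : (0 : ℝ) < k := by exact_mod_cast hk
    have h2 := h.gexp_eq (((k : ℝ) / N) • v) (N := k) hk (by
      rw [norm_smul, Real.norm_eq_abs, abs_of_pos (by positivity)]
      calc 2 * ((k : ℝ) / N * ‖v‖) = (k / N) * (2 * ‖v‖) := by ring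
        _ < (k / N) * (ε * N) := by
            apply mul_lt_mul_of_pos_left h1; (clear * - hk hN; positivity)
        _ = ε * k := by (clear * - hN hk; field_simp))
    rw [h2, smul_smul]
    congr 2
    field_simp

lemma NearExp.gexp_velocity (h : NearExp ε e₀ L) (x : M) (v : TangentSpace 𝓘(ℝ, E) x) :
    mfderiv 𝓘(ℝ, ℝ) 𝓘(ℝ, E) (fun t : ℝ => gexp ε e₀ L x (t • v)) 0 (1 : ℝ) = v := by
  have h1 : (fun t : ℝ => gexp ε e₀ L x (t • v)) =ᶠ[𝓝 0] (fun t : ℝ => e₀ x (t • v)) := by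
    have h2 : ∀ᶠ t : ℝ in 𝓝 0, 2 * ‖t • v‖ < ε := by
      have hc : Continuous (fun t : ℝ => 2 * ‖t • v‖) := by fun_prop
      apply hc.continuousAt.eventually_lt continuousAt_const
      simp [h.pos]
    filter_upwards [h2] with t ht
    have h3 := h.gexp_eq (t • v) (N := 1) le_rfl (by simpa only [Nat.cast_one, mul_one] using ht)
    rw [h3, chn_one]
    simp
  have h2 := h1.mfderiv_eq (I := 𝓘(ℝ, ℝ)) (I' := 𝓘(ℝ, E))
  have h3 := h.velocity x v
  exact (congrArg (fun A : ℝ →L[ℝ] E => A 1) h2).trans h3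

/-- Distances at rational times with the same sign. -/
lemma NearExp.gexp_dist_nat (h : NearExp ε e₀ L) (x : M) (v : TangentSpace 𝓘(ℝ, E) x) {N : ℕ}
    (hN : 1 ≤ N) (h1 : 2 * ‖v‖ < ε * N) (j k : ℕ) (hjk : (k : ℝ) / N * ‖v‖ < ε) :
    dist (gexp ε e₀ L x (((j : ℝ) / N) • v)) (gexp ε e₀ L x ((((j + k : ℕ) : ℝ) / N) • v)) =
      (k : ℝ) / N * ‖v‖ := by
  have hN0 : (0 : ℝ) < N := by exact_mod_cast hN
  have hn : ‖(1 / (N : ℝ)) • v‖ = ‖v‖ / N := by
    rw [norm_smul, Real.norm_eq_abs, abs_of_pos (by positivity)]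
    ring
  have hlt : ‖(1 / (N : ℝ)) • v‖ < ε := by
    rw [hn, div_lt_iff₀ hN0]
    nlinarith only [h1, norm_nonneg v]
  rw [h.gexp_rat v hN h1, h.gexp_rat v hN h1]
  have h2 := h.seq_dist (z := chn e₀ L x ((1 / (N : ℝ)) • v)) (l := ‖(1 / (N : ℝ)) • v‖)
    (fun k => h.dist_chn hlt k) (fun k => chn_add_two x _ k) j k (by
      rw [hn]
      calc (k : ℝ) * (‖v‖ / N) = (k : ℝ) / N * ‖v‖ := by ring
        _ < ε := hjk) hlt
  rw [h2, hn]
  ring

lemma NearExp.gexp_dist_neg (h : NearExp ε e₀ L) (x : M) (v : TangentSpace 𝓘(ℝ, E) x) {N : ℕ}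
    (hN : 1 ≤ N) (h1 : 2 * ‖v‖ < ε * N) (j k : ℕ) (hjk : ((j : ℝ) + k) / N * ‖v‖ < ε) :
    dist (gexp ε e₀ L x ((-((j : ℝ) / N)) • v)) (gexp ε e₀ L x (((k : ℝ) / N) • v)) =
      ((j : ℝ) + k) / N * ‖v‖ := by
  have hN0 : (0 : ℝ) < N := by exact_mod_cast hN
  have hn : ‖(1 / (N : ℝ)) • v‖ = ‖v‖ / N := by
    rw [norm_smul, Real.norm_eq_abs, abs_of_pos (by positivity)]
    ring
  have hlt2 : 2 * ‖(1 / (N : ℝ)) • v‖ < ε := by
    rw [hn, ← mul_div_assoc, div_lt_iff₀ hN0]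
    exact h1
  have hlt : ‖(1 / (N : ℝ)) • v‖ < ε := by
    linarith only [hlt2, norm_nonneg ((1 / (N : ℝ)) • v)]
  have e1 : (-((j : ℝ) / N)) • v = ((j : ℝ) / N) • (-v) := by
    rw [smul_neg, neg_smul]
  rw [e1, h.gexp_rat v hN h1, h.gexp_rat (-v) hN (by rwa [norm_neg]), smul_neg]
  have h2 := h.dist_chn_neg hlt j k (by
      rw [hn]
      calc ((j : ℝ) + k) * (‖v‖ / N) = ((j : ℝ) + k) / N * ‖v‖ := by ring
        _ < ε := hjk) hlt2
  rw [h2, hn]
  ring

/-- Distances at rational times. -/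
lemma NearExp.gexp_dist_int (h : NearExp ε e₀ L) (x : M) (v : TangentSpace 𝓘(ℝ, E) x) {N : ℕ}
    (hN : 1 ≤ N) (h1 : 2 * ‖v‖ < ε * N) (j k : ℤ) (hjk : |(k : ℝ) - j| / N * ‖v‖ < ε) :
    dist (gexp ε e₀ L x (((j : ℝ) / N) • v)) (gexp ε e₀ L x (((k : ℝ) / N) • v)) =
      |(k : ℝ) - j| / N * ‖v‖ := by
  wlog hle : j ≤ k generalizing j k
  · have h3 := this k j (by rwa [abs_sub_comm]) (by omega)
    rw [dist_comm, h3, abs_sub_comm]
  have habs : |(k : ℝ) - j| = (k : ℝ) - j := by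
    have : (j : ℝ) ≤ k := by exact_mod_cast hle
    exact abs_of_nonneg (by linarith only [this])
  rw [habs] at hjk ⊢
  rcases le_total 0 j with hj | hj
  · -- both nonnegative
    obtain ⟨a, rfl⟩ := Int.eq_ofNat_of_zero_le hj
    obtain ⟨b, hb⟩ := Int.eq_ofNat_of_zero_le (sub_nonneg.2 hle)
    have hk : k = ((a + b : ℕ) : ℤ) := by push_cast; omega
    subst hk
    have e1 : (((a + b : ℕ) : ℤ) : ℝ) - ((a : ℕ) : ℤ) = (b : ℝ) := by push_cast; ring
    rw [e1] at hjk ⊢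
    have := h.gexp_dist_nat x v hN h1 a b hjk
    rw [Int.cast_natCast, Int.cast_natCast]
    exact this
  · rcases le_total 0 k with hk | hk
    · obtain ⟨a, ha⟩ := Int.eq_ofNat_of_zero_le (neg_nonneg.2 hj)
      obtain ⟨b, rfl⟩ := Int.eq_ofNat_of_zero_le hk
      have hj2 : j = -((a : ℕ) : ℤ) := by omega
      subst hj2
      have e1 : ((b : ℤ) : ℝ) - ((-(a : ℤ) : ℤ) : ℝ) = (a : ℝ) + b := by push_cast; ring
      rw [e1] at hjk ⊢
      have := h.gexp_dist_neg x v hN h1 a b hjk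
      have e2 : (((-(a : ℤ) : ℤ) : ℝ) / N) = -((a : ℝ) / N) := by push_cast; ring
      rw [e2, Int.cast_natCast]
      exact this
    · -- both nonpositive
      obtain ⟨b, hb⟩ := Int.eq_ofNat_of_zero_le (neg_nonneg.2 hk)
      obtain ⟨a, ha⟩ := Int.eq_ofNat_of_zero_le (sub_nonneg.2 hle)
      have hk2 : k = -((b : ℕ) : ℤ) := by omega
      have hj2 : j = -((b + a : ℕ) : ℤ) := by push_cast; omega
      subst hk2
      subst hj2
      have e1 : ((-(b : ℤ) : ℤ) : ℝ) - ((-((b + a : ℕ) : ℤ) : ℤ) : ℝ) = (a : ℝ) := by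
        push_cast; ring
      rw [e1] at hjk ⊢
      have := h.gexp_dist_nat x (-v) hN (by rwa [norm_neg]) b a (by rwa [norm_neg])
      rw [norm_neg, dist_comm] at this
      rw [← this]
      congr 2
      · rw [smul_neg, ← neg_smul]
        congr 1
        push_cast; ring
      · rw [smul_neg, ← neg_smul]
        congr 1
        push_cast; ring

lemma tendsto_floor_div (s : ℝ) :
    Tendsto (fun n : ℕ => ((⌊s * n⌋ : ℤ) : ℝ) / n) atTop (𝓝 s) := by
  have h1 : Tendsto (fun n : ℕ => s - 1 / (n : ℝ)) atTop (𝓝 (s - 0)) :=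
    tendsto_const_nhds.sub tendsto_one_div_atTop_nhds_zero_nat
  rw [sub_zero] at h1
  refine tendsto_of_tendsto_of_tendsto_of_le_of_le' h1 tendsto_const_nhds ?_ ?_
  · filter_upwards [eventually_gt_atTop 0] with n hn
    have hn0 : (0 : ℝ) < n := by exact_mod_cast hn
    rw [le_div_iff₀ hn0, sub_mul, one_div, inv_mul_cancel₀ hn0.ne']
    linarith only [Int.lt_floor_add_one (s * n)]
  · filter_upwards [eventually_gt_atTop 0] with n hn
    have hn0 : (0 : ℝ) < n := by exact_mod_cast hn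
    rw [div_le_iff₀ hn0]
    exact Int.floor_le _

lemma NearExp.gexp_dist (h : NearExp ε e₀ L) (x : M) (v : TangentSpace 𝓘(ℝ, E) x) (s t : ℝ)
    (hst : ‖v‖ * |t - s| ≤ ε / 2) :
    dist (gexp ε e₀ L x (s • v)) (gexp ε e₀ L x (t • v)) = ‖v‖ * |t - s| := by
  have hlt : ‖v‖ * |t - s| < ε := by linarith [h.pos]
  have hs := tendsto_floor_div s
  have ht := tendsto_floor_div t
  have hc := h.continuous_gexp_ray x v
  have hd : Tendsto (fun n : ℕ => dist (gexp ε e₀ L x ((((⌊s * n⌋ : ℤ) : ℝ) / n) • v))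
      (gexp ε e₀ L x ((((⌊t * n⌋ : ℤ) : ℝ) / n) • v))) atTop
      (𝓝 (dist (gexp ε e₀ L x (s • v)) (gexp ε e₀ L x (t • v)))) :=
    ((hc.tendsto s).comp hs).dist ((hc.tendsto t).comp ht)
  have hr : Tendsto (fun n : ℕ => |((⌊t * n⌋ : ℤ) : ℝ) / n - ((⌊s * n⌋ : ℤ) : ℝ) / n| * ‖v‖) atTop
      (𝓝 (|t - s| * ‖v‖)) := ((ht.sub hs).abs).mul_const _
  have he : ∀ᶠ n : ℕ in atTop, |((⌊t * n⌋ : ℤ) : ℝ) / n - ((⌊s * n⌋ : ℤ) : ℝ) / n| * ‖v‖ < ε :=
    hr.eventually_lt_const (by rw [mul_comm]; exact hlt)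
  have hN : ∀ᶠ n : ℕ in atTop, 2 * ‖v‖ / ε < n := tendsto_natCast_atTop_atTop.eventually_gt_atTop _
  have heq : ∀ᶠ n : ℕ in atTop, dist (gexp ε e₀ L x ((((⌊s * n⌋ : ℤ) : ℝ) / n) • v))
      (gexp ε e₀ L x ((((⌊t * n⌋ : ℤ) : ℝ) / n) • v)) =
      |((⌊t * n⌋ : ℤ) : ℝ) / n - ((⌊s * n⌋ : ℤ) : ℝ) / n| * ‖v‖ := by
    filter_upwards [he, hN, eventually_gt_atTop 0] with n h1 h2 h3
    have hn0 : (0 : ℝ) < n := by exact_mod_cast h3
    have e1 : |((⌊t * n⌋ : ℤ) : ℝ) / n - ((⌊s * n⌋ : ℤ) : ℝ) / n| =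
        |((⌊t * n⌋ : ℤ) : ℝ) - ((⌊s * n⌋ : ℤ) : ℝ)| / n := by
      rw [← sub_div, abs_div, abs_of_pos hn0]
    rw [e1] at h1 ⊢
    rw [div_lt_iff₀ h.pos] at h2
    exact h.gexp_dist_int x v h3 (by linarith only [h2]) _ _ h1
  have h5 := tendsto_nhds_unique (hd.congr' heq) hr
  rw [h5, mul_comm]

/-- A near exponential map extends to an exponential map. -/
theorem NearExp.isExp (h : NearExp ε e₀ L) : IsExp (gexp ε e₀ L) where
  smooth := h.gexp_smooth
  map_zero x := by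
    have h2 := h.gexp_eq (0 : TangentSpace 𝓘(ℝ, E) x) (N := 1) le_rfl (by simp only [norm_zero, mul_zero, Nat.cast_one, mul_one, h.pos])
    rw [h2, chn_one]
    simp [h.exp_zero]
  velocity := h.gexp_velocity
  minimizing := ⟨ε / 2, by linarith [h.pos], fun x v s t hst => h.gexp_dist x v s t hst⟩

/-- Existence of the exponential map of a compact Riemannian manifold. -/
theorem exists_isExp [IsRiemannianManifold 𝓘(ℝ, E) M] [CompactSpace M] :
    ∃ e : ∀ x : M, TangentSpace 𝓘(ℝ, E) x → M, IsExp e := by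
  rcases isEmpty_or_nonempty M with hM | hM
  · refine ⟨fun x _ => x, ⟨fun p => (hM.false p.proj).elim, fun x => rfl,
      fun x => (hM.false x).elim, 1, one_pos, fun x => (hM.false x).elim⟩⟩
  · obtain ⟨ε, e₀, L, h⟩ := exists_nearExp (E := E) (M := M) (fun x₀ => exists_isLocExp x₀)
    exact ⟨gexp ε e₀ L, h.isExp⟩

end

end Vale.Agent.P234
end
end

section

section

/-! Uniqueness of the exponential map. -/

set_option maxSynthPendingDepth 3
set_option linter.unusedSectionVars false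

open Bundle Manifold Set Filter
open scoped ContDiff Manifold Topology

namespace Vale.Agent.P234

noncomputable section

variable {E : Type*} [NormedAddCommGroup E] [NormedSpace ℝ E] [FiniteDimensional ℝ E]
  {M : Type*} [MetricSpace M] [ChartedSpace E M]
  [RiemannianBundle (fun x : M => TangentSpace 𝓘(ℝ, E) x)]
  [IsManifold 𝓘(ℝ, E) ∞ M]
  [IsContMDiffRiemannianBundle 𝓘(ℝ, E) ∞ E (fun x : M => TangentSpace 𝓘(ℝ, E) x)]
  [CompactSpace M]
  {e e' : ∀ x : M, TangentSpace 𝓘(ℝ, E) x → M}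

/-- Two exponential maps whose rays with initial vectors `v` and `u` agree on `[0, 1]` have
`u = v`. -/
theorem uniq_vector (he : IsExp e) (he' : IsExp e') (x : M) (u v : TangentSpace 𝓘(ℝ, E) x)
    (h : ∀ t : ℝ, 0 ≤ t → t ≤ 1 → e' x (t • v) = e x (t • u)) : u = v := by
  have h1 := hasDerivAt_exp_chart he x u
  have h2 := hasDerivAt_exp_chart he' x v
  have h3 : HasDerivWithinAt (fun t : ℝ => extChartAt 𝓘(ℝ, E) x (e x (t • u))) (u : E)
      (Icc 0 1) 0 := h1.hasDerivWithinAt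
  have h4 : HasDerivWithinAt (fun t : ℝ => extChartAt 𝓘(ℝ, E) x (e' x (t • v))) (v : E)
      (Icc 0 1) 0 := h2.hasDerivWithinAt
  have h5 : HasDerivWithinAt (fun t : ℝ => extChartAt 𝓘(ℝ, E) x (e x (t • u))) (v : E)
      (Icc 0 1) 0 := by
    refine h4.congr (fun t ht => ?_) ?_
    · rw [h t ht.1 ht.2]
    · rw [h 0 le_rfl zero_le_one]
  have hU : UniqueDiffWithinAt ℝ (Icc (0 : ℝ) 1) 0 :=
    uniqueDiffOn_Icc zero_lt_one 0 ⟨le_rfl, zero_le_one⟩
  exact hU.eq_deriv _ h3 h5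

/-- Two exponential maps agree on short vectors. -/
theorem exp_agree_short (he : IsExp e) (he' : IsExp e') :
    ∃ ρ : ℝ, 0 < ρ ∧ ∀ (x : M) (v : TangentSpace 𝓘(ℝ, E) x), ‖v‖ < ρ → e' x v = e x v := by
  obtain ⟨ρ₁, hρ₁, hm, hn⟩ := sh_scale he
  obtain ⟨ρ₂, hρ₂, hm'⟩ := he'.minimizing
  refine ⟨min (ρ₁ / 2) ρ₂, lt_min (by positivity) hρ₂, ?_⟩
  intro x v hv
  have hv1 : ‖v‖ < ρ₁ / 2 := hv.trans_le (min_le_left _ _)
  have hv2 : ‖v‖ < ρ₂ := hv.trans_le (min_le_right _ _)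
  rcases eq_or_lt_of_le (norm_nonneg v) with h0 | hpos
  · have hv0 : v = 0 := norm_eq_zero.1 h0.symm
    rw [hv0, he.map_zero, he'.map_zero]
  have e0 : e' x ((0 : ℝ) • v) = x := by rw [zero_smul, he'.map_zero]
  have e1 : e' x ((1 : ℝ) • v) = e' x v := by rw [one_smul]
  have d0 : ∀ t : ℝ, 0 ≤ t → t ≤ 1 → dist x (e' x (t • v)) = t * ‖v‖ := by
    intro t ht0 ht1
    have h1 := hm' x v 0 t (by
      rw [sub_zero, abs_of_nonneg ht0]
      (clear * - hρ₂ ht1 hv2 ht0; nlinarith))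
    rw [e0, sub_zero, abs_of_nonneg ht0] at h1
    rw [h1, mul_comm]
  have d1 : ∀ t : ℝ, 0 ≤ t → t ≤ 1 → dist (e' x (t • v)) (e' x v) = (1 - t) * ‖v‖ := by
    intro t ht0 ht1
    have h1 := hm' x v t 1 (by
      rw [abs_of_nonneg (by linarith only [ht1])]
      nlinarith only [hρ₂, ht0, hv2, ht1])
    rw [e1, abs_of_nonneg (by linarith only [ht1])] at h1
    rw [h1, mul_comm]
  have dxy : dist x (e' x v) = ‖v‖ := by
    have := d0 1 zero_le_one le_rfl
    rwa [one_smul, one_mul] at this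
  obtain ⟨-, u, hu, huy⟩ := hn x (e' x v) (by rw [dxy]; linarith only [hv1, hpos])
  have hun : ‖u‖ = ‖v‖ := by
    have h1 : dist x (e x u) = ‖u‖ := hu
    rw [← h1, huy, dxy]
  have key : ∀ t : ℝ, 0 ≤ t → t ≤ 1 → e' x (t • v) = e x (t • u) := by
    intro t ht0 ht1
    obtain ⟨τ, hτ0, hτ1, hτ⟩ := sh_between_aux he hm hn x u (by rw [hun]; exact hv1)
      (e' x (t • v)) (by
        rw [huy, d0 t ht0 ht1, d1 t ht0 ht1, dxy]
        ring)
    have h1 := hm x u 0 τ (by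
      rw [sub_zero, abs_of_nonneg hτ0, hun]
      nlinarith only [hv1, hρ₁, hτ1, hτ0])
    rw [zero_smul, he.map_zero, hτ, sub_zero, abs_of_nonneg hτ0, hun, d0 t ht0 ht1] at h1
    have h2 : t = τ := by
      have h3 : ‖v‖ * t = ‖v‖ * τ := by rw [← h1]; ring
      exact mul_left_cancel₀ hpos.ne' h3
    rw [← hτ, h2]
  have huv := uniq_vector he he' x u v key
  rw [← huy, huv]

/-- Flow property, based at a named point. -/
lemma uniq_flow (he : IsExp e) (x : M) (v : TangentSpace 𝓘(ℝ, E) x) (s : ℝ) (z : M)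
    (hz : e x (s • v) = z) :
    ∃ w : TangentSpace 𝓘(ℝ, E) z, ‖w‖ = ‖v‖ ∧
      ∀ t : ℝ, e z (t • w) = e x ((s + t) • v) := by
  subst hz
  exact flow_of_isExp he x v s

/-- Agreement on vectors of norm less than `R` propagates to norm less than `2 * R`. -/
lemma uniq_step (he : IsExp e) (he' : IsExp e') {ρ R : ℝ} (hρ : 0 < ρ) (hρR : ρ ≤ R)
    (hm : ∀ (x : M) (v : TangentSpace 𝓘(ℝ, E) x) (s t : ℝ),
      ‖v‖ * |t - s| ≤ ρ → dist (e x (s • v)) (e x (t • v)) = ‖v‖ * |t - s|)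
    (hn : ∀ x y : M, dist x y < ρ → SmoothAt E x y ∧
      ∃ v : TangentSpace 𝓘(ℝ, E) x, v ∈ segMin e x ∧ e x v = y)
    (hR : ∀ (x : M) (v : TangentSpace 𝓘(ℝ, E) x), ‖v‖ < R → e' x v = e x v)
    (x : M) (v : TangentSpace 𝓘(ℝ, E) x) (hv : ‖v‖ < 2 * R) : e' x v = e x v := by
  rcases eq_or_lt_of_le (norm_nonneg v) with h0 | hpos
  · have hv0 : v = 0 := norm_eq_zero.1 h0.symm
    rw [hv0, he.map_zero, he'.map_zero]
  have hsm : ∀ s : ℝ, |s| ≤ 1 / 2 → ‖s • v‖ < R := by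
    intro s hs
    rw [norm_smul, Real.norm_eq_abs]
    nlinarith only [hv, hpos, hs]
  have hhalf : ‖((1 / 2 : ℝ)) • v‖ < R := hsm (1 / 2) (by rw [abs_of_pos (by norm_num)])
  obtain ⟨z, hz⟩ : ∃ z : M, e x ((1 / 2 : ℝ) • v) = z := ⟨_, rfl⟩
  obtain ⟨w, hw, hwf⟩ := uniq_flow he x v (1 / 2) z hz
  obtain ⟨w', hw', hwf'⟩ := uniq_flow he' x v (1 / 2) z ((hR _ _ hhalf).trans hz)
  set δ := min (1 / 2) (ρ / (2 * ‖v‖)) with hδdef
  have hδ : 0 < δ := lt_min (by norm_num) (by positivity)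
  have hδ1 : δ ≤ 1 / 2 := min_le_left _ _
  have hδ2 : δ * ‖v‖ < ρ := by
    have h1 : δ ≤ ρ / (2 * ‖v‖) := min_le_right _ _
    have h2 : δ * ‖v‖ ≤ ρ / (2 * ‖v‖) * ‖v‖ := mul_le_mul_of_nonneg_right h1 hpos.le
    have h3 : ρ / (2 * ‖v‖) * ‖v‖ = ρ / 2 := by (clear * - hpos hρ; field_simp)
    rw [h3] at h2
    linarith only [hρ, h2]
  have hnw : ∀ W : TangentSpace 𝓘(ℝ, E) z, ‖W‖ = ‖v‖ → ‖(-δ) • W‖ = δ * ‖v‖ := by
    intro W hW
    rw [norm_smul, norm_neg, Real.norm_eq_abs, abs_of_pos hδ, hW]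
  have hseg : ∀ W : TangentSpace 𝓘(ℝ, E) z, ‖W‖ = ‖v‖ →
      dist z (e z ((-δ) • W)) = δ * ‖v‖ := by
    intro W hW
    have h1 := hm z W 0 (-δ) (by
      rw [sub_zero, abs_neg, abs_of_pos hδ, hW, mul_comm]
      exact hδ2.le)
    rw [zero_smul, he.map_zero, sub_zero, abs_neg, abs_of_pos hδ, hW] at h1
    rw [h1, mul_comm]
  have e1 : e z ((-δ) • w') = e z ((-δ) • w) := by
    rw [hwf (-δ), ← hR z ((-δ) • w') (by rw [hnw w' hw']; linarith only [hρR, hδ2]), hwf' (-δ)]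
    exact hR _ _ (hsm _ (by rw [abs_le]; constructor <;> linarith only [hδ1, hδ]))
  have s1 : (-δ) • w ∈ segMin e z := by
    change dist z (e z ((-δ) • w)) = ‖(-δ) • w‖
    rw [hseg w hw, hnw w hw]
  have s2 : (-δ) • w' ∈ segMin e z := by
    change dist z (e z ((-δ) • w')) = ‖(-δ) • w'‖
    rw [hseg w' hw', hnw w' hw']
  have e2 := sh_unique he s1 s2 (hn z _ (by rw [hseg w hw]; exact hδ2)).1 e1
  have e3 : w' = w := smul_right_injective _ (by linarith only [hδ] : (-δ) ≠ 0) e2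
  have e4 := hwf (1 / 2)
  have e5 := hwf' (1 / 2)
  rw [show (1 / 2 + 1 / 2 : ℝ) = 1 by norm_num, one_smul] at e4 e5
  rw [← e4, ← e5, e3]
  apply hR
  rw [norm_smul, Real.norm_eq_abs, abs_of_pos (by norm_num), hw]
  linarith only [hv]

/-- The exponential map is unique. -/
theorem isExp_unique (he : IsExp e) (he' : IsExp e') : e' = e := by
  obtain ⟨ρ₁, hρ₁, hm, hn⟩ := sh_scale he
  obtain ⟨ρ₂, hρ₂, hs⟩ := exp_agree_short he he'
  set ρ := min ρ₁ ρ₂ with hρdef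
  have hρ : 0 < ρ := lt_min hρ₁ hρ₂
  have hl1 : ρ ≤ ρ₁ := min_le_left _ _
  have hl2 : ρ ≤ ρ₂ := min_le_right _ _
  have main : ∀ n : ℕ, ∀ (x : M) (v : TangentSpace 𝓘(ℝ, E) x), ‖v‖ < 2 ^ n * ρ →
      e' x v = e x v := by
    intro n
    induction n with
    | zero =>
      intro x v hv
      exact hs x v (by rw [pow_zero, one_mul] at hv; exact hv.trans_le hl2)
    | succ n ih =>
      intro x v hv
      have h1 : (1 : ℝ) ≤ 2 ^ n := one_le_pow₀ (by norm_num)
      exact uniq_step he he' hρ (R := 2 ^ n * ρ) (by nlinarith only [hρ, h1])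
        (fun x v s t h => hm x v s t (h.trans hl1))
        (fun x y h => hn x y (h.trans_le hl1)) ih x v (by
          rw [pow_succ] at hv
          linarith)
  funext x v
  obtain ⟨n, hn'⟩ := pow_unbounded_of_one_lt (‖v‖ / ρ) (one_lt_two)
  exact main n x v (by rwa [div_lt_iff₀ hρ] at hn')

end

end Vale.Agent.P234
end
end

section

section

/-! The complete theorem. -/

open Bundle Manifold
open scoped ContDiff Manifold

namespace Vale.Agent.P234

/-- Existence and uniqueness of the exponential map, and convexity of the injectivity domains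
under the weak Ma-Trudinger-Wang condition. -/
theorem main_unconditional {E : Type*} [NormedAddCommGroup E] [NormedSpace ℝ E]
    [FiniteDimensional ℝ E] {M : Type*} [MetricSpace M] [ChartedSpace E M]
    [IsManifold 𝓘(ℝ, E) ∞ M] [RiemannianBundle (fun x : M => TangentSpace 𝓘(ℝ, E) x)]
    [IsContMDiffRiemannianBundle 𝓘(ℝ, E) ∞ E (fun x : M => TangentSpace 𝓘(ℝ, E) x)]
    [IsRiemannianManifold 𝓘(ℝ, E) M] [CompactSpace M] [ConnectedSpace M] :
    ∃ e : ∀ x : M, TangentSpace 𝓘(ℝ, E) x → M, IsExp e ∧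
      (∀ e' : ∀ x : M, TangentSpace 𝓘(ℝ, E) x → M, IsExp e' → e' = e) ∧
      (WeakMTW e → ∀ x : M, Convex ℝ (injDomain e x)) := by
  obtain ⟨e, he⟩ := exists_isExp (E := E) (M := M)
  exact ⟨e, he, fun e' he' => isExp_unique he he',
    fun hW x => convex_injDomain (facts_of_isExp he) hW x⟩

end Vale.Agent.P234
end
end
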